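import Vale.Agent.Lib.PCP.Fourier

/-!
The long code test for one binary constraint: ten queries, perfect completeness, and rejection
probability at least `1/20` if the decoded labels violate the constraint.
-/

namespace Vale.Agent.Lib.PCP

open Finset
open scoped BigOperators

/-- The discrete distance of two bits. -/
def nd (a b : ZMod 2) : ℝ := if a = b then 0 else 1

theorem nd_nonneg (a b : ZMod 2) : 0 ≤ nd a b := by
  unfold nd; split_ifs <;> norm_num

theorem nd_le_one (a b : ZMod 2) : nd a b ≤ 1 := by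
  unfold nd; split_ifs <;> norm_num

theorem nd_triangle (a b c : ZMod 2) : nd a c ≤ nd b a + nd b c := by
  rcases f2_cases a with rfl | rfl <;> rcases f2_cases b with rfl | rfl <;>
    rcases f2_cases c with rfl | rfl <;> simp [nd]

theorem nd_eq_nd_add (a b : ZMod 2) : nd a b = nd (a + b) 0 := by
  simp only [nd, f2_add_eq_zero]

section

variable {ι : Type*} [Fintype ι] [DecidableEq ι]

/-- A nonzero linear form vanishes on exactly half of the points. -/
theorem expect_nd_dot {β : ι → ZMod 2} (hβ : β ≠ 0) : 𝔼 x, nd (β ⬝ᵥ x) 0 = 1 / 2 := by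
  have h := expect_chi β
  rw [if_neg hβ] at h
  simp only [chi, sg_eq_ite, expect_sub_distrib, Fintype.expect_const, ← mul_expect] at h
  change 1 - 2 * 𝔼 x, nd (β ⬝ᵥ x) 0 = 0 at h
  linarith

/-- Different linear forms differ on half of the points. -/
theorem expect_nd_dot_dot {α β : ι → ZMod 2} (h : α ≠ β) : 𝔼 x, nd (α ⬝ᵥ x) (β ⬝ᵥ x) = 1 / 2 := by
  rw [← expect_nd_dot (β := α + β) (fun e => h (f2_vec_add_eq_zero.1 e))]
  exact expect_congr rfl fun x _ => by rw [nd_eq_nd_add, add_dotProduct]

/-- A linear form with two nonzero coefficients is far from multiplicative. -/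
theorem expect_nd_mul {α : ι → ZMod 2} {i j : ι} (hij : i ≠ j) (hi : α i = 1) (hj : α j = 1) :
    1 / 4 ≤ 𝔼 x, 𝔼 y, nd (α ⬝ᵥ (x * y)) ((α ⬝ᵥ x) * (α ⬝ᵥ y)) := by
  rw [expect_comm]
  have h1 : α + Pi.single i 1 ≠ 0 := by
    intro e
    have := congrFun e j
    simp [Pi.single_eq_of_ne hij.symm, hj] at this
  have h2 : ∀ y : ι → ZMod 2, 1 / 2 * nd ((α + Pi.single i 1) ⬝ᵥ y) 0 ≤
      𝔼 x, nd (α ⬝ᵥ (x * y)) ((α ⬝ᵥ x) * (α ⬝ᵥ y)) := by
    intro y
    by_cases h : (α + Pi.single i 1) ⬝ᵥ y = 0
    · rw [h, nd, if_pos rfl, mul_zero]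
      exact expect_nonneg fun x _ => nd_nonneg _ _
    · have h3 : α * y ≠ (α ⬝ᵥ y) • α := by
        intro e
        have := congrFun e i
        simp only [Pi.mul_apply, hi, one_mul, Pi.smul_apply, smul_eq_mul, mul_one] at this
        apply h
        rw [add_dotProduct, single_dotProduct, one_mul, this, f2_add_self]
      rw [nd, if_neg h, mul_one, ← expect_nd_dot_dot h3]
      refine le_of_eq (expect_congr rfl fun x _ => ?_)
      congr 1
      · simp only [dotProduct, Pi.mul_apply]
        exact sum_congr rfl fun k _ => by ring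
      · rw [smul_dotProduct, smul_eq_mul, mul_comm]
  calc (1 / 4 : ℝ) = 𝔼 y, 1 / 2 * nd ((α + Pi.single i 1) ⬝ᵥ y) 0 := by
        rw [← mul_expect, expect_nd_dot h1]; norm_num
    _ ≤ _ := expect_le_expect fun y _ => h2 y

end

section

variable {S : Type*} [Fintype S] [DecidableEq S]

/-- The decoding of a table: a point evaluation at distance less than `1/4`, if there is one. -/
noncomputable def lcDec [Nonempty S] (A : (S → ZMod 2) → ZMod 2) : S :=
  Classical.epsilon fun a => 𝔼 p, nd (A p) (p a) < 1 / 4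

theorem lcDec_eq [Nonempty S] {A : (S → ZMod 2) → ZMod 2} {a : S}
    (h : 𝔼 p, nd (A p) (p a) < 1 / 4) : lcDec A = a := by
  have h1 : 𝔼 p, nd (A p) (p (lcDec A)) < 1 / 4 :=
    Classical.epsilon_spec (p := fun a => 𝔼 p, nd (A p) (p a) < 1 / 4) ⟨a, h⟩
  by_contra hne
  have h2 : (Pi.single (lcDec A) 1 : S → ZMod 2) ≠ Pi.single a 1 := by
    intro e
    have := congrFun e a
    simp [Pi.single_eq_of_ne (Ne.symm hne)] at this
  have h3 := expect_nd_dot_dot h2
  simp only [single_dotProduct, one_mul] at h3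
  have h4 : 𝔼 p : S → ZMod 2, nd (p (lcDec A)) (p a) ≤
      𝔼 p : S → ZMod 2, (nd (A p) (p (lcDec A)) + nd (A p) (p a)) :=
    expect_le_expect fun p _ => nd_triangle _ _ _
  rw [expect_add_distrib] at h4
  linarith

/-- The predicate which the long code test applies to the ten bits read. -/
def lcPred (b : Fin 10 → ZMod 2) : Prop :=
  b 0 + b 1 = b 2 ∧ b 4 + b 3 = b 0 * b 1 ∧ b 5 + b 3 = 1 ∧ b 6 + b 3 = b 8 ∧ b 7 + b 3 = b 9

instance : DecidablePred lcPred := fun b => by unfold lcPred; infer_instance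

/-- The random choices of the long code test. -/
abbrev LCTape (S : Type*) : Type _ :=
  (S × S → ZMod 2) × (S × S → ZMod 2) × (S × S → ZMod 2) × (S → ZMod 2)

/-- The indicator function of a relation. -/
def relInd (R : S → S → Bool) : S × S → ZMod 2 := fun q => if R q.1 q.2 = true then 1 else 0

/-- The queries of the long code test; `F` is the table of the constraint, `A` and `B` are the
tables of its two variables. -/
def lcQuery {X : Type*} (R : S → S → Bool) (F : (S × S → ZMod 2) → X) (A B : (S → ZMod 2) → X)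
    (r : LCTape S) : Fin 10 → X :=
  ![F r.1, F r.2.1, F (r.1 + r.2.1), F r.2.2.1, F (r.1 * r.2.1 + r.2.2.1),
    F (relInd R + r.2.2.1), F ((fun q => r.2.2.2 q.1) + r.2.2.1),
    F ((fun q => r.2.2.2 q.2) + r.2.2.1), A r.2.2.2, B r.2.2.2]

omit [Fintype S] [DecidableEq S] in
theorem lcQuery_comp {X Y : Type*} (φ : X → Y) (R : S → S → Bool) (F : (S × S → ZMod 2) → X)
    (A B : (S → ZMod 2) → X) (r : LCTape S) (k : Fin 10) :
    φ (lcQuery R F A B r k) =
      lcQuery R (fun x => φ (F x)) (fun x => φ (A x)) (fun x => φ (B x)) r k := by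
  fin_cases k <;> rfl

omit [Fintype S] [DecidableEq S] in
/-- Completeness of the long code test. -/
theorem lcPred_complete {R : S → S → Bool} {a b : S} (h : R a b = true) (r : LCTape S) :
    lcPred (lcQuery R (fun x => x (a, b)) (fun p => p a) (fun p => p b) r) := by
  obtain ⟨f, g, w, p⟩ := r
  simp [lcPred, lcQuery, relInd, h, add_assoc, f2_add_self]

theorem expect_lcTape (φ : LCTape S → ℝ) :
    𝔼 r, φ r = 𝔼 f, 𝔼 g, 𝔼 w, 𝔼 p, φ (f, g, w, p) := by
  simp only [← univ_product_univ, expect_product]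

/-- Soundness of the long code test. -/
theorem lcPred_sound [Nonempty S] (R : S → S → Bool) (F : (S × S → ZMod 2) → ZMod 2)
    (A B : (S → ZMod 2) → ZMod 2)
    (h : 𝔼 r, (if lcPred (lcQuery R F A B r) then (0 : ℝ) else 1) < 1 / 20) :
    R (lcDec A) (lcDec B) = true := by
  obtain ⟨α, hα⟩ := blr F
  set rej : LCTape S → ℝ := fun r => if lcPred (lcQuery R F A B r) then (0 : ℝ) else 1 with hrej
  set e : (S × S → ZMod 2) → ℝ := fun x => nd (F x) (α ⬝ᵥ x) with he
  change 𝔼 x, e x ≤ 𝔼 x, 𝔼 y, nd (F x + F y) (F (x + y)) at hα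
  have e0 : ∀ x, 0 ≤ e x := fun x => nd_nonneg _ _
  have r0 : ∀ r, 0 ≤ rej r := fun r => by simp only [hrej]; split_ifs <;> norm_num
  have r1 : ∀ r, ¬ lcPred (lcQuery R F A B r) → rej r = 1 := fun r hr => if_neg hr
  have e1 : ∀ x, F x ≠ α ⬝ᵥ x → e x = 1 := fun x hx => if_neg hx
  -- a bound for events that are excluded by acceptance and correct values
  have key : ∀ (φ : LCTape S → ℝ) (l : List (LCTape S → S × S → ZMod 2)), (∀ r, φ r ≤ 1) →
      (∀ r, lcPred (lcQuery R F A B r) → (∀ q ∈ l, F (q r) = α ⬝ᵥ q r) → φ r ≤ 0) →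
      (∀ q ∈ l, 𝔼 r, e (q r) = 𝔼 x, e x) →
      𝔼 r, φ r ≤ 𝔼 r, rej r + l.length * 𝔼 x, e x := by
    intro φ l h1 h2 h3
    have h4 : ∀ r, φ r ≤ rej r + (l.map fun q => e (q r)).sum := by
      intro r
      have h5 : 0 ≤ (l.map fun q => e (q r)).sum :=
        List.sum_nonneg fun x hx => by
          obtain ⟨q, -, rfl⟩ := List.mem_map.1 hx
          exact e0 _
      by_cases hr : lcPred (lcQuery R F A B r)
      · by_cases hq : ∀ q ∈ l, F (q r) = α ⬝ᵥ q r
        · linarith [h2 r hr hq, r0 r]
        · push Not at hq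
          obtain ⟨q, hq, hq'⟩ := hq
          have h6 : e (q r) ≤ (l.map fun q => e (q r)).sum :=
            List.single_le_sum (fun x hx => by
              obtain ⟨q, -, rfl⟩ := List.mem_map.1 hx
              exact e0 _) _ (List.mem_map.2 ⟨q, hq, rfl⟩)
          linarith [e1 _ hq', r0 r, h1 r]
      · linarith [r1 r hr, h1 r]
    refine (expect_le_expect fun r _ => h4 r).trans (le_of_eq ?_)
    rw [expect_add_distrib]
    congr 1
    clear h2 h4
    induction l with
    | nil => simp
    | cons q l ih =>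
      simp only [List.map_cons, List.sum_cons, List.length_cons, expect_add_distrib]
      rw [ih fun q' hq' => h3 q' (List.mem_cons_of_mem _ hq'), h3 q List.mem_cons_self]
      push_cast
      ring
  have m1 : 𝔼 r : LCTape S, e r.1 = 𝔼 x, e x := by
    simp only [expect_lcTape, Fintype.expect_const]
  have m2 : 𝔼 r : LCTape S, e r.2.1 = 𝔼 x, e x := by
    simp only [expect_lcTape, Fintype.expect_const]
  have m3 : 𝔼 r : LCTape S, e r.2.2.1 = 𝔼 x, e x := by
    simp only [expect_lcTape, Fintype.expect_const]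
  have m4 : ∀ ψ : (S × S → ZMod 2) → (S × S → ZMod 2) → (S → ZMod 2) → S × S → ZMod 2,
      𝔼 r : LCTape S, e (ψ r.1 r.2.1 r.2.2.2 + r.2.2.1) = 𝔼 x, e x := by
    intro ψ
    rw [expect_lcTape]
    simp only [expect_comm (univ : Finset (S × S → ZMod 2)) (univ : Finset (S → ZMod 2)),
      expect_add_left e, Fintype.expect_const]
  -- linearity
  have hη : 𝔼 x, e x ≤ 𝔼 r, rej r := by
    refine hα.trans ?_
    have := key (fun r => nd (F r.1 + F r.2.1) (F (r.1 + r.2.1))) [] (fun r => nd_le_one _ _)
      (fun r hr _ => le_of_eq (if_pos hr.1)) (by simp)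
    rw [expect_lcTape] at this
    simpa only [Fintype.expect_const, List.length_nil, Nat.cast_zero, zero_mul, add_zero]
      using this
  -- multiplicativity
  have hmul : 𝔼 x, 𝔼 y, nd (α ⬝ᵥ (x * y)) ((α ⬝ᵥ x) * (α ⬝ᵥ y)) < 1 / 4 := by
    have := key (fun r => nd (α ⬝ᵥ (r.1 * r.2.1)) ((α ⬝ᵥ r.1) * (α ⬝ᵥ r.2.1)))
      [fun r => r.1, fun r => r.2.1, fun r => r.2.2.1, fun r => r.1 * r.2.1 + r.2.2.1]
      (fun r => nd_le_one _ _) (fun r hr hq => le_of_eq (if_pos ?_)) ?_
    · rw [expect_lcTape] at this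
      simp only [Fintype.expect_const, List.length_cons, List.length_nil] at this
      push_cast at this
      linarith
    · simp only [List.forall_mem_cons, List.not_mem_nil, false_imp_iff, implies_true,
        and_true] at hq
      obtain ⟨q1, q2, q3, q4⟩ := hq
      have h5 : F (r.1 * r.2.1 + r.2.2.1) + F r.2.2.1 = F r.1 * F r.2.1 := hr.2.1
      rw [q1, q2, q3, q4, dotProduct_add, add_assoc, f2_add_self, add_zero] at h5
      exact h5
    · simp only [List.forall_mem_cons, List.not_mem_nil, false_imp_iff, implies_true, and_true]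
      exact ⟨m1, m2, m3, m4 fun f g _ => f * g⟩
  -- the relation
  have hrel : α ⬝ᵥ relInd R = 1 := by
    have := key (fun _ => nd (α ⬝ᵥ relInd R) 1)
      [fun r => r.2.2.1, fun r => relInd R + r.2.2.1]
      (fun r => nd_le_one _ _) (fun r hr hq => le_of_eq (if_pos ?_)) ?_
    · simp only [Fintype.expect_const, List.length_cons, List.length_nil] at this
      push_cast at this
      by_contra hne
      rw [nd, if_neg hne] at this
      linarith
    · simp only [List.forall_mem_cons, List.not_mem_nil, false_imp_iff, implies_true,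
        and_true] at hq
      obtain ⟨q1, q2⟩ := hq
      have h5 : F (relInd R + r.2.2.1) + F r.2.2.1 = 1 := hr.2.2.1
      rw [q1, q2, dotProduct_add, add_assoc, f2_add_self, add_zero] at h5
      exact h5
    · simp only [List.forall_mem_cons, List.not_mem_nil, false_imp_iff, implies_true, and_true]
      exact ⟨m3, m4 fun _ _ _ => relInd R⟩
  have hne : α ≠ 0 := by
    rintro rfl
    simp at hrel
  obtain ⟨i, hi⟩ := Function.ne_iff.1 hne
  have hi1 : α i = 1 := f2_ne_zero.1 hi
  have hαi : α = Pi.single i 1 := by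
    funext j
    by_cases hij : i = j
    · subst hij; simp [hi1]
    · rw [Pi.single_eq_of_ne (Ne.symm hij)]
      by_contra hj
      exact absurd (expect_nd_mul hij hi1 (f2_ne_zero.1 hj)) (not_le.2 hmul)
  have hdot : ∀ x, α ⬝ᵥ x = x i := fun x => by rw [hαi, single_dotProduct, one_mul]
  have hR : R i.1 i.2 = true := by
    rw [hdot, relInd] at hrel
    by_contra hc
    rw [if_neg hc] at hrel
    exact zero_ne_one hrel
  -- the two variables
  have hA : 𝔼 p, nd (A p) (p i.1) < 1 / 4 := by
    have := key (fun r => nd (A r.2.2.2) (r.2.2.2 i.1))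
      [fun r => r.2.2.1, fun r => (fun q => r.2.2.2 q.1) + r.2.2.1]
      (fun r => nd_le_one _ _) (fun r hr hq => le_of_eq (if_pos ?_)) ?_
    · rw [expect_lcTape] at this
      simp only [Fintype.expect_const, List.length_cons, List.length_nil] at this
      push_cast at this
      linarith
    · simp only [List.forall_mem_cons, List.not_mem_nil, false_imp_iff, implies_true,
        and_true] at hq
      obtain ⟨q1, q2⟩ := hq
      have h5 : F ((fun q => r.2.2.2 q.1) + r.2.2.1) + F r.2.2.1 = A r.2.2.2 := hr.2.2.2.1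
      rw [q1, q2, dotProduct_add, add_assoc, f2_add_self, add_zero, hdot] at h5
      exact h5.symm
    · simp only [List.forall_mem_cons, List.not_mem_nil, false_imp_iff, implies_true, and_true]
      exact ⟨m3, m4 fun _ _ p q => p q.1⟩
  have hB : 𝔼 p, nd (B p) (p i.2) < 1 / 4 := by
    have := key (fun r => nd (B r.2.2.2) (r.2.2.2 i.2))
      [fun r => r.2.2.1, fun r => (fun q => r.2.2.2 q.2) + r.2.2.1]
      (fun r => nd_le_one _ _) (fun r hr hq => le_of_eq (if_pos ?_)) ?_
    · rw [expect_lcTape] at this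
      simp only [Fintype.expect_const, List.length_cons, List.length_nil] at this
      push_cast at this
      linarith
    · simp only [List.forall_mem_cons, List.not_mem_nil, false_imp_iff, implies_true,
        and_true] at hq
      obtain ⟨q1, q2⟩ := hq
      have h5 : F ((fun q => r.2.2.2 q.2) + r.2.2.1) + F r.2.2.1 = B r.2.2.2 := hr.2.2.2.2
      rw [q1, q2, dotProduct_add, add_assoc, f2_add_self, add_zero, hdot] at h5
      exact h5.symm
    · simp only [List.forall_mem_cons, List.not_mem_nil, false_imp_iff, implies_true, and_true]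
      exact ⟨m3, m4 fun _ _ p q => p q.2⟩
  rw [lcDec_eq hA, lcDec_eq hB]
  exact hR

end

end Vale.Agent.Lib.PCP
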