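import Vale.Agent.Lib.PCP.Basic
import Vale.Agent.Lib.PCP.LongCode

/-!
Alphabet reduction: binary constraints over an arbitrary finite alphabet are replaced by binary
constraints over the fixed alphabet `S0`; the gap decreases by an absolute constant factor.
-/

namespace Vale.Agent.Lib.PCP

open Vale.Agent.Lib.PolyTime Finset
open scoped BigOperators

/-! ### Bits -/

/-- From truth values to the field with two elements. -/
def b2z (b : Bool) : ZMod 2 := if b = true then 1 else 0

/-- From the field with two elements to truth values. -/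
def z2b (a : ZMod 2) : Bool := decide (a = 1)

@[simp] theorem b2z_z2b (a : ZMod 2) : b2z (z2b a) = a := by
  revert a; decide

@[simp] theorem z2b_b2z (b : Bool) : z2b (b2z b) = b := by
  revert b; decide

theorem b2z_xor (a b : Bool) : b2z (Bool.xor a b) = b2z a + b2z b := by
  revert a b; decide

theorem z2b_add (a b : ZMod 2) : z2b (a + b) = Bool.xor (z2b a) (z2b b) := by
  revert a b; decide

theorem b2z_injective : Function.Injective b2z := fun a b h => by
  rw [← z2b_b2z a, h, z2b_b2z]

theorem z2b_injective : Function.Injective z2b := fun a b h => by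
  rw [← b2z_z2b a, h, b2z_z2b]

instance encF2 : Enc (ZMod 2) := ⟨fun a => enc (z2b a)⟩

instance encInjF2 : EncInj (ZMod 2) := ⟨fun _ _ h => z2b_injective (EncInj.inj (α := Bool) h)⟩

/-! ### The reduction -/

section

variable {S : Type}

/-- Entries of the tables: a table for each constraint and a table for each variable. -/
abbrev TabVar (S : Type) : Type := (Con2 ℕ S × (S × S → ZMod 2)) ⊕ (ℕ × (S → ZMod 2))

/-- Variables of the new instance: tuples of queried entries, and entries. -/
abbrev ARVar (S : Type) : Type := (Fin 10 → TabVar S) ⊕ TabVar S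

/-- The entries read by the test of the constraint `c` with random choices `r`. -/
def arQuery (c : Con2 ℕ S) (r : LCTape S) : Fin 10 → TabVar S :=
  lcQuery c.2.2 (fun x => Sum.inl (c, x)) (fun p => Sum.inr (c.1, p))
    (fun p => Sum.inr (c.2.1, p)) r

/-- The label `l` passes the test and its bit `k` is the bit stored in the label `l'`. -/
def arRel (k : Fin 10) (l l' : S0) : Bool := decide (lcPred fun i => b2z (l i)) && (l k == l' 0)

/-- The ten constraints of a tuple of queries. -/
def arTen {V : Type} (q : Fin 10 → V) : List (Con2 ((Fin 10 → V) ⊕ V) S0) :=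
  (List.finRange 10).map fun k => (Sum.inl q, Sum.inr (q k), arRel k)

theorem arTen_viol {V : Type} (q : Fin 10 → V) (τ : (Fin 10 → V) ⊕ V → S0) :
    (if lcPred fun k => b2z (τ (Sum.inr (q k)) 0) then (0 : ℝ) else 1) ≤
      ((arTen q).map fun c => if sat2 c τ = true then (0 : ℝ) else 1).sum := by
  rw [← viol_eq_sum]
  split_ifs with h
  · exact Nat.cast_nonneg _
  · have h1 : viol sat2 (arTen q) τ ≠ 0 := by
      intro e
      rw [viol_eq_zero_iff] at e
      have h2 : ∀ k, arRel k (τ (Sum.inl q)) (τ (Sum.inr (q k))) = true := fun k =>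
        e _ (List.mem_map.2 ⟨k, List.mem_finRange k, rfl⟩)
      simp only [arRel, Bool.and_eq_true, decide_eq_true_eq, beq_iff_eq] at h2
      apply h
      simpa only [fun k => (h2 k).2] using (h2 0).1
    exact_mod_cast Nat.one_le_iff_ne_zero.2 h1

variable [Fintype S] [DecidableEq S]

/-- The constraints that replace the constraint `c`. -/
noncomputable def arBlock (c : Con2 ℕ S) : List (Con2 (ARVar S) S0) :=
  (univ : Finset (LCTape S)).toList.flatMap fun r => arTen (arQuery c r)

theorem length_arBlock (c : Con2 ℕ S) : (arBlock c).length = 10 * Fintype.card (LCTape S) := by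
  rw [arBlock, length_flatMap_const _ _ 10 (by simp [arTen]), length_univ_toList]

theorem allSat_arBlock (G : List (Con2 ℕ S)) : AllSat2 (G.flatMap arBlock) := by
  intro c hc
  simp only [arBlock, arTen, List.mem_flatMap, List.mem_map] at hc
  obtain ⟨d, -, r, -, k, -, rfl⟩ := hc
  refine ⟨fun i => decide (i = 5), fun _ => decide (k = 5), ?_⟩
  simp only [arRel, Bool.and_eq_true, decide_eq_true_eq, beq_iff_eq, and_true]
  decide

theorem sat_arBlock {G : List (Con2 ℕ S)} (h : Sat sat2 G) : Sat sat2 (G.flatMap arBlock) := by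
  obtain ⟨σ, hσ⟩ := h
  let tab : TabVar S → ZMod 2 := Sum.elim (fun t => t.2 (σ t.1.1, σ t.1.2.1)) fun t => t.2 (σ t.1)
  refine ⟨Sum.elim (fun q k => z2b (tab (q k))) fun t _ => z2b (tab t), fun c hc => ?_⟩
  simp only [arBlock, arTen, List.mem_flatMap, List.mem_map] at hc
  obtain ⟨d, hd, r, -, k, -, rfl⟩ := hc
  simp only [sat2, arRel, Sum.elim_inl, Sum.elim_inr, b2z_z2b, Bool.and_eq_true,
    decide_eq_true_eq, beq_iff_eq, and_true]
  have := lcPred_complete (R := d.2.2) (hσ d hd) r
  simp only [arQuery, lcQuery_comp tab]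
  exact this

theorem far_arBlock [Nonempty S] {G : List (Con2 ℕ S)} {ε : ℝ} (h : Far sat2 ε G) :
    Far sat2 (1 / 200 * ε) (G.flatMap arBlock) := by
  intro τ
  let tab : TabVar S → ZMod 2 := fun t => b2z (τ (Sum.inr t) 0)
  let σ : ℕ → S := fun v => lcDec fun p => tab (Sum.inr (v, p))
  have h1 := h σ
  rw [viol_eq_sum] at h1 ⊢
  rw [sum_map_flatMap, length_flatMap_const _ _ _ fun c _ => length_arBlock c]
  have hN : (0 : ℝ) < Fintype.card (LCTape S) := Nat.cast_pos.2 Fintype.card_pos
  have h2 : ∀ c ∈ G, (Fintype.card (LCTape S) : ℝ) / 20 * (if sat2 c σ = true then (0 : ℝ) else 1) ≤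
      ((arBlock c).map fun c => if sat2 c τ = true then (0 : ℝ) else 1).sum := by
    intro c _
    rw [arBlock, sum_map_flatMap, sum_map_univ]
    refine le_trans ?_ (sum_le_sum fun r _ => arTen_viol (arQuery c r) τ)
    split_ifs with hc
    · rw [mul_zero]
      exact sum_nonneg fun r _ => by split_ifs <;> norm_num
    · rw [← Fintype.card_mul_expect, mul_one, div_eq_mul_one_div]
      refine mul_le_mul_of_nonneg_left (not_lt.1 fun hlt => hc ?_) hN.le
      refine lcPred_sound c.2.2 (fun x => tab (Sum.inl (c, x))) (fun p => tab (Sum.inr (c.1, p)))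
        (fun p => tab (Sum.inr (c.2.1, p))) (lt_of_eq_of_lt ?_ hlt)
      refine expect_congr rfl fun r _ => ?_
      have : (fun k => b2z (τ (Sum.inr (arQuery c r k)) 0)) = lcQuery c.2.2
          (fun x => tab (Sum.inl (c, x))) (fun p => tab (Sum.inr (c.1, p)))
          (fun p => tab (Sum.inr (c.2.1, p))) r := by
        funext k
        exact lcQuery_comp tab _ _ _ _ _ _
      rw [this]
  refine le_trans ?_ (sum_map_le_sum_map G h2)
  rw [sum_map_mul_left']
  have h3 := mul_le_mul_of_nonneg_left h1 (show (0 : ℝ) ≤ Fintype.card (LCTape S) / 20 by positivity)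
  refine le_trans (le_of_eq ?_) h3
  push_cast
  ring

omit [DecidableEq S] in
theorem PT_arQuery (r : LCTape S) (k : Fin 10) : PT ∅ fun c : Con2 ℕ S => arQuery c r k := by
  have h : PT ∅ fun c : Con2 ℕ S => relInd c.2.2 + r.2.2.1 :=
    PT.finComp (fun R : S → S → Bool => relInd R + r.2.2.1) PT.snd'.snd
  fin_cases k
  exacts [PT.inl (PT.id.pair (PT.const _)), PT.inl (PT.id.pair (PT.const _)),
    PT.inl (PT.id.pair (PT.const _)), PT.inl (PT.id.pair (PT.const _)),
    PT.inl (PT.id.pair (PT.const _)), PT.inl (PT.id.pair h), PT.inl (PT.id.pair (PT.const _)),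
    PT.inl (PT.id.pair (PT.const _)), PT.inr (PT.fst'.pair (PT.const _)),
    PT.inr (PT.snd'.fst.pair (PT.const _))]

theorem PT_arBlock : PT ∅ fun c : Con2 ℕ S => arBlock c :=
  PT.flatMapConst _ fun r _ => PT.mapConst _ fun k _ =>
    (PT.inl (PT.funMk fun k => PT_arQuery r k)).pair
      ((PT.inr (PT_arQuery r k)).pair (PT.const _))

end

/-- Alphabet reduction. -/
theorem alphabet_reduction : ∃ c : ℝ, 0 < c ∧
    ∀ (S : Type) [Fintype S] [DecidableEq S] [Nonempty S],
      ∃ (K : ℕ) (R : List (Con2 ℕ S) → List (Con2 ℕ S0)), 0 < K ∧ PT ∅ R ∧ ∀ G,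
        (R G).length = K * G.length ∧ AllSat2 (R G) ∧ (Sat sat2 G → Sat sat2 (R G)) ∧
          ∀ ε, Far sat2 ε G → Far sat2 (c * ε) (R G) := by
  refine ⟨1 / 200, by norm_num, fun S _ _ _ => ⟨10 * Fintype.card (LCTape S),
    fun G => (G.flatMap arBlock).map (ren2 name), Nat.mul_pos (by norm_num) Fintype.card_pos,
    PT_ren2_name.comp (PT.flatMap PT.id (PT_arBlock.comp PT.snd')), fun G => ⟨?_,
      (allSat_arBlock G).ren2 _, fun h => (sat_arBlock h).ren2 name_injective,
      fun ε h => (far_arBlock h).ren2 _⟩⟩⟩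
  rw [List.length_map, length_flatMap_const _ _ _ fun c _ => length_arBlock c]

end Vale.Agent.Lib.PCP
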