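import Vale.Agent.Lib.PCP.Defs

/-!
Elementary facts on lists of constraints: counts as sums, gap problems, renaming of variables.
-/

namespace Vale.Agent.Lib.PCP

open Vale.Agent.Lib.PolyTime Finset
open scoped BigOperators

/-! ### Sums over lists -/

section Sums

variable {α β : Type*}

theorem countP_eq_sum (p : α → Bool) (l : List α) :
    (l.countP p : ℝ) = (l.map fun c => if p c = true then (1 : ℝ) else 0).sum := by
  induction l with
  | nil => simp
  | cons c l ih =>
    rw [List.countP_cons, List.map_cons, List.sum_cons, ← ih]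
    by_cases h : p c = true <;> simp [h, add_comm]

theorem sum_map_flatMap {M : Type*} [AddCommMonoid M] (l : List α) (g : α → List β) (f : β → M) :
    ((l.flatMap g).map f).sum = (l.map fun a => ((g a).map f).sum).sum := by
  induction l with
  | nil => simp
  | cons c l ih => simp [List.flatMap_cons, ih]

theorem sum_map_range {M : Type*} [AddCommMonoid M] (n : ℕ) (f : ℕ → M) :
    ((List.range n).map f).sum = ∑ i ∈ range n, f i := by
  induction n with
  | zero => simp
  | succ n ih => rw [List.range_succ, List.map_append, List.sum_append, ih, sum_range_succ]; simp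

theorem sum_map_univ {M : Type*} [AddCommMonoid M] [Fintype α] (f : α → M) :
    (((univ : Finset α).toList).map f).sum = ∑ i, f i := Finset.sum_map_toList _ _

theorem sum_map_eq_sum_fin {M : Type*} [AddCommMonoid M] (l : List α) (f : α → M) :
    (l.map f).sum = ∑ i : Fin l.length, f l[i] := by
  rw [← List.sum_ofFn]
  congr 1
  exact (List.ofFn_getElem_eq_map l f).symm

theorem sum_map_eq_sum_range {M : Type*} [AddCommMonoid M] (l : List α) (d : α) (f : α → M) :
    (l.map f).sum = ∑ i ∈ range l.length, f (l.getD i d) := by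
  rw [sum_map_eq_sum_fin, Finset.sum_range]
  refine Finset.sum_congr rfl fun i _ => ?_
  rw [List.getD_eq_getElem _ _ i.2]
  rfl

theorem sum_map_zipIdx {M : Type*} [AddCommMonoid M] (l : List α) (f : α × ℕ → M) :
    (l.zipIdx.map f).sum = ∑ i : Fin l.length, f (l[i], i) := by
  rw [sum_map_eq_sum_fin]
  refine Fintype.sum_equiv (finCongr (by simp)) _ _ fun i => ?_
  simp

theorem length_flatMap_const (l : List α) (g : α → List β) (K : ℕ)
    (h : ∀ a ∈ l, (g a).length = K) : (l.flatMap g).length = K * l.length := by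
  induction l with
  | nil => simp
  | cons c l ih =>
    rw [List.flatMap_cons, List.length_append, h c List.mem_cons_self,
      ih fun a ha => h a (List.mem_cons_of_mem _ ha), List.length_cons]
    ring

theorem length_univ_toList [Fintype α] : ((univ : Finset α).toList).length = Fintype.card α := by
  simp

theorem sum_map_le_sum_map (l : List α) {f g : α → ℝ} (h : ∀ a ∈ l, f a ≤ g a) :
    (l.map f).sum ≤ (l.map g).sum := by
  induction l with
  | nil => simp
  | cons c l ih =>
    simp only [List.map_cons, List.sum_cons]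
    exact add_le_add (h c List.mem_cons_self) (ih fun a ha => h a (List.mem_cons_of_mem _ ha))

theorem sum_map_const (l : List α) (c : ℝ) : (l.map fun _ => c).sum = c * l.length := by
  simp [mul_comm]

theorem sum_map_finset_sum {ι : Type*} (l : List α) (s : Finset ι) (f : ι → α → ℝ) :
    (l.map fun a => ∑ i ∈ s, f i a).sum = ∑ i ∈ s, (l.map (f i)).sum := by
  induction l with
  | nil => simp
  | cons c l ih => simp [ih, Finset.sum_add_distrib]

theorem sum_map_mul_left' (l : List α) (c : ℝ) (f : α → ℝ) :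
    (l.map fun a => c * f a).sum = c * (l.map f).sum := by
  induction l with
  | nil => simp
  | cons c l ih => simp only [List.map_cons, List.sum_cons, ih]; ring

end Sums

/-! ### Counts -/

section Gap

variable {C C' A A' : Type} {sat : C → A → Bool} {sat' : C' → A' → Bool}

theorem cnt_add_viol (sat : C → A → Bool) (l : List C) (a : A) :
    cnt sat l a + viol sat l a = l.length := by
  unfold cnt viol
  have := List.length_eq_countP_add_countP (fun c => sat c a) (l := l)
  simpa using this.symm

theorem cnt_eq_sum (sat : C → A → Bool) (l : List C) (a : A) :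
    (cnt sat l a : ℝ) = (l.map fun c => if sat c a = true then (1 : ℝ) else 0).sum :=
  countP_eq_sum _ _

theorem viol_eq_sum (sat : C → A → Bool) (l : List C) (a : A) :
    (viol sat l a : ℝ) = (l.map fun c => if sat c a = true then (0 : ℝ) else 1).sum := by
  rw [viol, countP_eq_sum]
  congr 1
  refine List.map_congr_left fun c _ => ?_
  cases sat c a <;> simp

theorem cnt_le_length (sat : C → A → Bool) (l : List C) (a : A) : cnt sat l a ≤ l.length :=
  List.countP_le_length

theorem viol_le_length (sat : C → A → Bool) (l : List C) (a : A) : viol sat l a ≤ l.length :=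
  List.countP_le_length

theorem viol_eq_zero_iff {l : List C} {a : A} :
    viol sat l a = 0 ↔ ∀ c ∈ l, sat c a = true := by
  simp [viol, List.countP_eq_zero]

theorem cnt_eq_length_iff {l : List C} {a : A} :
    cnt sat l a = l.length ↔ ∀ c ∈ l, sat c a = true := List.countP_eq_length

theorem Far.mono {l : List C} {ε ε' : ℝ} (h : Far sat ε l) (h' : ε' ≤ ε) : Far sat ε' l :=
  fun a => (mul_le_mul_of_nonneg_right h' (Nat.cast_nonneg _)).trans (h a)

theorem far_of_nonpos (l : List C) {ε : ℝ} (h : ε ≤ 0) : Far sat ε l :=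
  fun _ => (mul_nonpos_of_nonpos_of_nonneg h (Nat.cast_nonneg _)).trans (Nat.cast_nonneg _)

/-- An unsatisfiable list is far from satisfiable by one constraint. -/
theorem far_of_not_sat {l : List C} (h : ¬ Sat sat l) : Far sat (1 / l.length) l := by
  intro a
  have h1 : viol sat l a ≠ 0 := fun e => h ⟨a, viol_eq_zero_iff.1 e⟩
  have h2 : (1 : ℝ) ≤ viol sat l a := by exact_mod_cast Nat.one_le_iff_ne_zero.2 h1
  refine le_trans ?_ h2
  rcases eq_or_ne (l.length : ℝ) 0 with e | e
  · simp [e]
  · rw [one_div, inv_mul_cancel₀ e]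

theorem far_iff_cnt {l : List C} {ε : ℝ} :
    Far sat ε l ↔ ∀ a, (cnt sat l a : ℝ) ≤ (1 - ε) * l.length := by
  refine forall_congr' fun a => ?_
  have : (cnt sat l a : ℝ) + viol sat l a = l.length := by exact_mod_cast cnt_add_viol sat l a
  constructor <;> intro h <;> linarith

theorem gap_yes_one {l : List C} {s : ℝ} : (Gap sat 1 s).yes l ↔ l ≠ [] ∧ Sat sat l := by
  refine and_congr_right fun _ => exists_congr fun a => ?_
  rw [one_mul, ← cnt_eq_length_iff, Nat.cast_le]
  have := cnt_le_length sat l a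
  omega

theorem gap_no_iff {l : List C} {c ε : ℝ} :
    (Gap sat c (1 - ε)).no l ↔ l ≠ [] ∧ Far sat ε l :=
  and_congr_right fun _ => far_iff_cnt.symm

theorem Gap.yes_mono {l : List C} {c c' s s' : ℝ} (h : (Gap sat c s).yes l) (hc : c' ≤ c) :
    (Gap sat c' s').yes l := by
  obtain ⟨h1, a, ha⟩ := h
  exact ⟨h1, a, (mul_le_mul_of_nonneg_right hc (Nat.cast_nonneg _)).trans ha⟩

theorem Gap.no_mono {l : List C} {c c' s s' : ℝ} (h : (Gap sat c s).no l) (hs : s ≤ s') :
    (Gap sat c' s').no l :=
  ⟨h.1, fun a => (h.2 a).trans (mul_le_mul_of_nonneg_right hs (Nat.cast_nonneg _))⟩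

theorem Hard.gap_mono [Enc C] {c c' s s' : ℝ} (h : Hard (Gap sat c s)) (hc : c' ≤ c)
    (hs : s ≤ s') : Hard (Gap sat c' s') :=
  Red.mono h (fun _ h => Gap.yes_mono h hc) (fun _ h => Gap.no_mono h hs)

/-! ### Mapping the constraints one by one -/

theorem cnt_map (φ : C → C') (l : List C) (a : A) (a' : A')
    (h : ∀ c ∈ l, sat' (φ c) a' = sat c a) : cnt sat' (l.map φ) a' = cnt sat l a := by
  unfold cnt
  rw [List.countP_map]
  exact List.countP_congr fun c hc => by simp [h c hc]

theorem viol_map (φ : C → C') (l : List C) (a : A) (a' : A')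
    (h : ∀ c ∈ l, sat' (φ c) a' = sat c a) : viol sat' (l.map φ) a' = viol sat l a := by
  unfold viol
  rw [List.countP_map]
  exact List.countP_congr fun c hc => by simp [h c hc]

/-- Completeness of a map of constraints. -/
theorem Sat.map {φ : C → C'} {l : List C} (h : ∀ a, ∃ a', ∀ c ∈ l, sat' (φ c) a' = sat c a)
    (hl : Sat sat l) : Sat sat' (l.map φ) := by
  obtain ⟨a, ha⟩ := hl
  obtain ⟨a', ha'⟩ := h a
  refine ⟨a', fun c hc => ?_⟩
  obtain ⟨d, hd, rfl⟩ := List.mem_map.1 hc
  rw [ha' d hd, ha d hd]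

/-- Soundness of a map of constraints. -/
theorem Far.map {φ : C → C'} {l : List C} {ε : ℝ}
    (h : ∀ a', ∃ a, ∀ c ∈ l, sat' (φ c) a' = sat c a)
    (hl : Far sat ε l) : Far sat' ε (l.map φ) := by
  intro a'
  obtain ⟨a, ha⟩ := h a'
  rw [viol_map φ l a a' ha, List.length_map]
  exact hl a

theorem Gap.yes_map {φ : C → C'} {l : List C} {c s : ℝ}
    (h : ∀ a, ∃ a', ∀ c ∈ l, sat' (φ c) a' = sat c a)
    (hl : (Gap sat c s).yes l) : (Gap sat' c s).yes (l.map φ) := by
  obtain ⟨h1, a, ha⟩ := hl
  obtain ⟨a', ha'⟩ := h a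
  refine ⟨by simpa using h1, a', ?_⟩
  rwa [cnt_map φ l a a' ha', List.length_map]

theorem Gap.no_map {φ : C → C'} {l : List C} {c s : ℝ}
    (h : ∀ a', ∃ a, ∀ c ∈ l, sat' (φ c) a' = sat c a)
    (hl : (Gap sat c s).no l) : (Gap sat' c s).no (l.map φ) := by
  refine ⟨by simpa using hl.1, fun a' => ?_⟩
  obtain ⟨a, ha⟩ := h a'
  rw [cnt_map φ l a a' ha, List.length_map]
  exact hl.2 a

end Gap

/-! ### Renaming variables -/

section Rename

variable {V V' S : Type}

/-- An assignment can be transported along a renaming which is injective on a set. -/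
theorem exists_transport [Nonempty S] (ρ : V → V') (T : Set V) (hρ : Set.InjOn ρ T) (σ : V → S) :
    ∃ σ' : V' → S, ∀ v ∈ T, σ' (ρ v) = σ v := by
  classical
  refine ⟨fun w => if h : ∃ v ∈ T, ρ v = w then σ h.choose else Classical.arbitrary S,
    fun v hv => ?_⟩
  have h : ∃ v' ∈ T, ρ v' = ρ v := ⟨v, hv, rfl⟩
  simp only [dif_pos h]
  rw [hρ h.choose_spec.1 hv h.choose_spec.2]

theorem exists_transport' [Nonempty S] {ρ : V → V'} (hρ : Function.Injective ρ) (σ : V → S) :
    ∃ σ' : V' → S, ∀ v, σ' (ρ v) = σ v := by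
  obtain ⟨σ', h⟩ := exists_transport ρ Set.univ hρ.injOn σ
  exact ⟨σ', fun v => h v trivial⟩

/-- The injective numerical name of an encodable object. -/
def name {V : Type} [Enc V] (v : V) : ℕ := wcode (enc v)

theorem name_injective {V : Type} [Enc V] [EncInj V] :
    Function.Injective (name : V → ℕ) := fun _ _ h => EncInj.inj (wcode_inj h)

theorem _root_.Vale.Agent.Lib.PolyTime.PT.name {α V : Type} [Enc α] [Enc V] {f : α → V}
    (hf : PT ∅ f) : PT ∅ fun a => name (f a) := PT.wcode hf

/-- Renaming the variables of a binary constraint. -/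
def ren2 (ρ : V → V') (c : Con2 V S) : Con2 V' S := (ρ c.1, ρ c.2.1, c.2.2)

theorem sat2_ren2 (ρ : V → V') (c : Con2 V S) (σ' : V' → S) :
    sat2 (ren2 ρ c) σ' = sat2 c (fun v => σ' (ρ v)) := rfl

theorem Sat.ren2 [Nonempty S] {ρ : V → V'} (hρ : Function.Injective ρ) {l : List (Con2 V S)}
    (h : Sat sat2 l) : Sat sat2 (l.map (ren2 ρ)) := by
  refine Sat.map (fun σ => ?_) h
  obtain ⟨σ', h'⟩ := exists_transport' hρ σ
  exact ⟨σ', fun c _ => by rw [sat2_ren2]; simp only [h']⟩

theorem Far.ren2 (ρ : V → V') {l : List (Con2 V S)} {ε : ℝ} (h : Far sat2 ε l) :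
    Far sat2 ε (l.map (ren2 ρ)) :=
  Far.map (fun σ' => ⟨fun v => σ' (ρ v), fun _ _ => rfl⟩) h

theorem AllSat2.ren2 (ρ : V → V') {l : List (Con2 V S)} (h : AllSat2 l) :
    AllSat2 (l.map (ren2 ρ)) := by
  intro c hc
  obtain ⟨d, hd, rfl⟩ := List.mem_map.1 hc
  exact h d hd

theorem PT_ren2_name [Enc V] [Fintype S] :
    PT ∅ fun l : List (Con2 V S) => l.map (ren2 name) :=
  PT.map PT.id ((PT.name PT.snd'.fst).pair ((PT.name PT.snd'.snd.fst).pair PT.snd'.snd.snd))

/-- Renaming the variables of a linear equation. -/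
def renLin (ρ : V → V') (c : Eq3 V) : Eq3 V' := (ρ c.1, ρ c.2.1, ρ c.2.2.1, c.2.2.2)

theorem satLin_renLin (ρ : V → V') (c : Eq3 V) (σ' : V' → Bool) :
    satLin (renLin ρ c) σ' = satLin c (fun v => σ' (ρ v)) := rfl

/-- Gap problems for linear equations over any type of variables reduce to variables in `ℕ`. -/
theorem red_lin_name [Enc V] [EncInj V] (c s : ℝ) :
    Red (Gap (satLin (V := V)) c s) (Gap (satLin (V := ℕ)) c s) := by
  refine ⟨fun l => l.map (renLin name), PT.map PT.id ((PT.name PT.snd'.fst).pair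
    ((PT.name PT.snd'.snd.fst).pair ((PT.name PT.snd'.snd.snd.fst).pair PT.snd'.snd.snd.snd))),
    fun l h => Gap.yes_map (fun σ => ?_) h, fun l h => Gap.no_map
      (fun σ' => ⟨fun v => σ' (name v), fun _ _ => rfl⟩) h⟩
  obtain ⟨σ', h'⟩ := exists_transport' (name_injective (V := V)) σ
  exact ⟨σ', fun c _ => by rw [satLin_renLin]; simp only [h']⟩

/-- Gap problems for binary constraints over any type of variables reduce to variables in `ℕ`. -/
theorem red_con2_name [Enc V] [EncInj V] [Fintype S] [Nonempty S] (c s : ℝ) :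
    Red (Gap (sat2 (V := V) (S := S)) c s) (Gap (sat2 (V := ℕ) (S := S)) c s) := by
  refine ⟨fun l => l.map (ren2 name), PT_ren2_name,
    fun l h => Gap.yes_map (fun σ => ?_) h, fun l h => Gap.no_map
      (fun σ' => ⟨fun v => σ' (name v), fun _ _ => rfl⟩) h⟩
  obtain ⟨σ', h'⟩ := exists_transport' (name_injective (V := V)) σ
  exact ⟨σ', fun c _ => by rw [sat2_ren2]; simp only [h']⟩

end Rename

/-! ### The edge list of a projection game -/

namespace LC

variable {D A B : Type} [Fintype D] [DecidableEq B]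

omit [DecidableEq B] in
theorem length_edges (G : LC D A B) : G.edges.length = Fintype.card D * G.nU := by
  rw [edges, length_flatMap_const _ _ (Fintype.card D) (by simp), List.length_range]

theorem cnt_edges (G : LC D A B) (g : ℕ → B) (f : ℕ → A) :
    (cnt satP G.edges (g, f) : ℝ) =
      ∑ u ∈ range G.nU, ∑ i, (if G.proj u i (f (G.nbr u i)) = g u then (1 : ℝ) else 0) := by
  rw [cnt_eq_sum, edges, sum_map_flatMap, sum_map_range]
  refine Finset.sum_congr rfl fun u _ => ?_
  rw [List.map_map, sum_map_univ]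
  refine Finset.sum_congr rfl fun i _ => ?_
  simp [satP]

omit [DecidableEq B] in
theorem edges_ne_nil [Nonempty D] {G : LC D A B} (h : 0 < G.nU) : G.edges ≠ [] := by
  rw [← List.length_pos_iff, length_edges]
  exact Nat.mul_pos Fintype.card_pos h

theorem Sat.edges {G : LC D A B} (h : G.Sat) : PCP.Sat satP G.edges := by
  obtain ⟨g, f, h⟩ := h
  refine ⟨(g, f), fun c hc => ?_⟩
  simp only [LC.edges, List.mem_flatMap, List.mem_range, List.mem_map] at hc
  obtain ⟨u, hu, i, -, rfl⟩ := hc
  simpa [satP] using h u hu i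

theorem ValLE.edges {G : LC D A B} {s : ℝ} (h : G.ValLE s) (l : (ℕ → B) × (ℕ → A)) :
    (cnt satP G.edges l : ℝ) ≤ s * G.edges.length := by
  obtain ⟨g, f⟩ := l
  rw [cnt_edges, length_edges]
  simpa [mul_comm] using h g f

omit [DecidableEq B] in
theorem IsPT.edges [Fintype A] [Enc B] {α : Type} [Enc α] {F : α → LC D A B} (h : IsPT F) :
    PT ∅ fun a => (F a).edges :=
  PT.flatMap (PT.range h.nU h.nUb)
    (PT.mapConst _ fun i _ => PT.snd'.pair ((h.nbr i).pair (h.proj i)))

end LC

end Vale.Agent.Lib.PCP
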