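import Vale.Agent.Lib.PCP.Basic

/-!
Constraints of constant arity over a constant alphabet reduce to 3-CNF formulas; the reduction
preserves satisfiability, gaps (up to a constant factor) and bounded occurrence.
-/

namespace Vale.Agent.Lib.PCP

open Vale.Agent.Lib.PolyTime

/-- Constraints on a tuple of variables indexed by `I`, with values in `S`. -/
abbrev ConS (V I S : Type) : Type := (I → V) × ((I → S) → Bool)

/-- Satisfaction of such a constraint. -/
def satS {V I S : Type} (c : ConS V I S) (σ : V → S) : Bool := c.2 fun i => σ (c.1 i)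

/-- Boolean constraints of arity `r`. -/
abbrev ConR (V : Type) (r : ℕ) : Type := ConS V (Fin r) Bool

/-- The variable `y` occurs in the clause. -/
def occ3 (y : ℕ) (c : Clause) : Bool := c.1.1 == y || c.2.1.1 == y || c.2.2.1 == y

/-! ### Replacing every constraint by a gadget -/

section Gadget

variable {C C' A A' : Type}

theorem length_flatMap_gadget (g : C → List C') {K : ℕ} (hg : ∀ c, (g c).length = K)
    (l : List C) : (l.flatMap g).length = K * l.length := by
  induction l with
  | nil => simp
  | cons c l ih => rw [List.flatMap_cons, List.length_append, ih, hg, List.length_cons]; ring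

theorem countP_le_countP_flatMap (g : C → List C') (p : C → Bool) (p' : C' → Bool) (l : List C)
    (h : ∀ c ∈ l, p c = true → ∃ d ∈ g c, p' d = true) :
    l.countP p ≤ (l.flatMap g).countP p' := by
  induction l with
  | nil => simp
  | cons c l ih =>
    rw [List.flatMap_cons, List.countP_append, List.countP_cons]
    have h1 := ih fun c hc => h c (List.mem_cons_of_mem _ hc)
    split_ifs with h2
    · have h3 : 0 < (g c).countP p' := List.countP_pos_iff.2 (h c List.mem_cons_self h2)
      omega
    · omega

theorem countP_flatMap_le (g : C → List C') {K : ℕ} (hg : ∀ c, (g c).length = K) (p : C → Bool)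
    (p' : C' → Bool) (l : List C) (h : ∀ c ∈ l, ∀ d ∈ g c, p' d = true → p c = true) :
    (l.flatMap g).countP p' ≤ K * l.countP p := by
  induction l with
  | nil => simp
  | cons c l ih =>
    rw [List.flatMap_cons, List.countP_append, List.countP_cons]
    have h1 := ih fun c hc => h c (List.mem_cons_of_mem _ hc)
    split_ifs with h2
    · have h3 : (g c).countP p' ≤ K := hg c ▸ List.countP_le_length
      rw [Nat.mul_add]
      omega
    · have h3 : (g c).countP p' = 0 :=
        List.countP_eq_zero.2 fun d hd h4 => h2 (h c List.mem_cons_self d hd h4)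
      rw [h3]
      simpa using h1

theorem Far.flatMap {sat : C → A → Bool} {sat' : C' → A' → Bool} (g : C → List C') {K : ℕ}
    (hK : 0 < K) (hg : ∀ c, (g c).length = K) {l : List C}
    (h : ∀ a', ∃ a, ∀ c ∈ l, sat c a = false → ∃ d ∈ g c, sat' d a' = false) {ε : ℝ}
    (hl : Far sat ε l) : Far sat' (ε / K) (l.flatMap g) := by
  intro a'
  obtain ⟨a, ha⟩ := h a'
  have h1 : viol sat l a ≤ viol sat' (l.flatMap g) a' :=
    countP_le_countP_flatMap g _ _ l fun c hc h2 => by simpa using ha c hc (by simpa using h2)
  have h2 : (K : ℝ) ≠ 0 := by positivity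
  rw [length_flatMap_gadget g hg]
  calc ε / K * ((K * l.length : ℕ) : ℝ) = ε * l.length := by push_cast; field_simp
    _ ≤ viol sat l a := hl a
    _ ≤ _ := by exact_mod_cast h1

end Gadget

/-! ### The gadget -/

section CNF

variable {V I S : Type} [Enc V] [EncInj V] [Fintype I] [DecidableEq I] [Fintype S] [DecidableEq S]
  [Nonempty S] [Enc S] [EncInj S]

/-- Names of the Boolean variables: a bit of a variable, or an auxiliary variable. -/
abbrev CnfVar (V I S : Type) : Type := (V × S) ⊕ ((I → V) × (I × S → Bool) × ℕ)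

/-- The number of a Boolean variable. -/
noncomputable def cnfName (a : CnfVar V I S) : ℕ := wcode (enc a)

omit [Nonempty S] in
theorem cnfName_inj : Function.Injective (cnfName : CnfVar V I S → ℕ) := fun _ _ h =>
  EncInj.inj (wcode_inj h)

/-- Decoding of a letter from its bits. -/
noncomputable def bitDec (b : S → Bool) : S :=
  Function.invFun (fun s t : S => decide (s = t)) b

omit [Fintype S] [Enc S] [EncInj S] in
theorem bitDec_spec (s : S) : bitDec (fun t : S => decide (s = t)) = s := by
  refine Function.leftInverse_invFun (f := fun s t : S => decide (s = t)) ?_ s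
  intro s s' h
  simpa using congrFun h s'

/-- The clauses which exclude the row `ρ` of the truth table, if the predicate is false there. -/
noncomputable def rowClauses (c : ConS V I S) (ρ : I × S → Bool) : List Clause :=
  let y : ℕ → ℕ := fun k => cnfName (Sum.inr (c.1, ρ, k) : CnfVar V I S)
  let L : List (I × S) := Finset.univ.toList
  ((y 0, false), (y 0, false), (y 0, false)) ::
    ((y L.length, true), (y L.length, true),
      (y L.length, !(c.2 fun i => bitDec fun s => ρ (i, s)))) ::
    L.zipIdx.map fun p => ((y (p.2 + 1), false), (y p.2, true),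
      (cnfName (Sum.inl (c.1 p.1.1, p.1.2) : CnfVar V I S), !(ρ p.1)))

/-- The clauses of a constraint. -/
noncomputable def conClauses (c : ConS V I S) : List Clause :=
  (Finset.univ.toList : List (I × S → Bool)).flatMap (rowClauses c)

omit [EncInj V] [EncInj S] in
theorem length_conClauses (c : ConS V I S) : (conClauses c).length =
    (Fintype.card (I × S) + 2) * Fintype.card (I × S → Bool) := by
  rw [conClauses, length_flatMap_gadget _ (K := Fintype.card (I × S) + 2)]
  · simp
  · intro ρ
    simp [rowClauses]

omit [EncInj V] [Nonempty S] [EncInj S] in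
theorem pt_cnfName {α : Type} [Enc α] {f : α → CnfVar V I S} (hf : PT ∅ f) :
    PT ∅ fun a => cnfName (f a) := hf.wcode

omit [EncInj V] [EncInj S] in
theorem pt_conClauses : PT ∅ (conClauses : ConS V I S → List Clause) := by
  refine PT.flatMapConst (f := fun ρ (c : ConS V I S) => rowClauses c ρ) _ fun ρ _ => ?_
  have hy : ∀ k : ℕ, PT ∅ fun c : ConS V I S =>
      cnfName (Sum.inr (c.1, ρ, k) : CnfVar V I S) := fun k =>
    pt_cnfName (PT.inr (PT.fst'.pair (PT.const (ρ, k))))
  refine PT.cons (((hy 0).pair (PT.const false)).pair (((hy 0).pair (PT.const false)).pair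
    ((hy 0).pair (PT.const false)))) (PT.cons (((hy _).pair (PT.const true)).pair
      (((hy _).pair (PT.const true)).pair ((hy _).pair (PT.funAt PT.snd' _).not))) ?_)
  refine PT.mapConst (f := fun (p : (I × S) × ℕ) (c : ConS V I S) =>
    (((cnfName (Sum.inr (c.1, ρ, p.2 + 1) : CnfVar V I S), false),
      (cnfName (Sum.inr (c.1, ρ, p.2) : CnfVar V I S), true),
      (cnfName (Sum.inl (c.1 p.1.1, p.1.2) : CnfVar V I S), !(ρ p.1))) : Clause)) _ fun p _ => ?_
  exact ((hy _).pair (PT.const false)).pair (((hy _).pair (PT.const true)).pair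
    ((pt_cnfName (PT.inl ((PT.funAt PT.fst' _).pair (PT.const _)))).pair (PT.const _)))

omit [EncInj V] [EncInj S] in
theorem conClauses_sound (τ : ℕ → Bool) (c : ConS V I S)
    (h : ∀ d ∈ conClauses c, satClause d τ = true) :
    satS c (fun v => bitDec fun s => τ (cnfName (Sum.inl (v, s) : CnfVar V I S))) = true := by
  set ρ : I × S → Bool := fun p => τ (cnfName (Sum.inl (c.1 p.1, p.2) : CnfVar V I S)) with hρ
  have h1 : ∀ d ∈ rowClauses c ρ, satClause d τ = true := fun d hd =>
    h d (List.mem_flatMap.2 ⟨ρ, Finset.mem_toList.2 (Finset.mem_univ _), hd⟩)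
  set y : ℕ → ℕ := fun k => cnfName (Sum.inr (c.1, ρ, k) : CnfVar V I S) with hy
  set L : List (I × S) := Finset.univ.toList with hL
  have h2 : ∀ k ≤ L.length, τ (y k) = false := by
    intro k hk
    induction k with
    | zero =>
      have := h1 ((y 0, false), (y 0, false), (y 0, false)) List.mem_cons_self
      simpa [satClause, satLit] using this
    | succ k ih =>
      have h3 : (L[k], k) ∈ L.zipIdx := by
        rw [List.mem_zipIdx_iff_getElem?]
        simp
      have := h1 ((y (k + 1), false), (y k, true),
        (cnfName (Sum.inl (c.1 (L[k]).1, (L[k]).2) : CnfVar V I S), !(ρ L[k])))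
        (List.mem_cons_of_mem _ (List.mem_cons_of_mem _ (List.mem_map.2 ⟨_, h3, rfl⟩)))
      simpa [satClause, satLit, ih (by omega), hρ] using this
  have h3 := h1 ((y L.length, true), (y L.length, true),
    (y L.length, !(c.2 fun i => bitDec fun s => ρ (i, s))))
    (List.mem_cons_of_mem _ List.mem_cons_self)
  simpa [satClause, satLit, h2 _ le_rfl, satS] using h3

theorem conClauses_complete (σ : V → S) : ∃ τ : ℕ → Bool, ∀ c : ConS V I S, satS c σ = true →
    ∀ d ∈ conClauses c, satClause d τ = true := by
  set L : List (I × S) := Finset.univ.toList with hL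
  let τ' : CnfVar V I S → Bool := fun a => match a with
    | Sum.inl p => decide (σ p.1 = p.2)
    | Sum.inr p => (L.take p.2.2).any fun j => decide (σ (p.1 j.1) = j.2) != p.2.1 j
  refine ⟨Function.extend cnfName τ' fun _ => false, fun c hc d hd => ?_⟩
  have hτ : ∀ a, Function.extend cnfName τ' (fun _ => false) (cnfName a) = τ' a :=
    fun a => cnfName_inj.extend_apply _ _ a
  obtain ⟨ρ, -, hd⟩ := List.mem_flatMap.1 hd
  simp only [rowClauses, List.mem_cons, List.mem_map] at hd
  rcases hd with rfl | rfl | ⟨p, hp, rfl⟩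
  · simp [satClause, satLit, hτ, τ']
  · simp only [satClause, satLit, hτ, τ', ← hL, List.take_length]
    by_cases h1 : (L.any fun j => decide (σ (c.1 j.1) = j.2) != ρ j) = true
    · simp [h1]
    · have h2 : ∀ j, ρ j = decide (σ (c.1 j.1) = j.2) := by
        intro j
        by_contra h3
        exact h1 (List.any_eq_true.2 ⟨j, Finset.mem_toList.2 (Finset.mem_univ _), by
          simpa using Ne.symm h3⟩)
      have h3 : (fun i => bitDec fun s => ρ (i, s)) = fun i => σ (c.1 i) := by
        funext i
        simp only [h2]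
        exact bitDec_spec _
      rw [h3]
      have h4 : (c.2 fun i => σ (c.1 i)) = true := hc
      simp [h1, h4]
  · rw [List.mem_zipIdx_iff_getElem?] at hp
    simp only [satClause, satLit, hτ, τ']
    rw [List.take_add_one, ← hL] at *
    simp only [hp, Option.toList_some, List.any_append, List.any_cons, List.any_nil,
      Bool.or_false]
    cases (L.take p.2).any fun j => decide (σ (c.1 j.1) = j.2) != ρ j <;>
      cases decide (σ (c.1 p.1.1) = p.1.2) <;> cases ρ p.1 <;> rfl

theorem conClauses_occ [Nonempty I] [DecidableEq V] (y : ℕ) : ∃ o : Option V, ∀ c : ConS V I S,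
    ∀ d ∈ conClauses c, occ3 y d = true → ∃ i, o = some (c.1 i) := by
  obtain ⟨i₀⟩ := ‹Nonempty I›
  let w : CnfVar V I S → Option V := fun a => match a with
    | Sum.inl p => some p.1
    | Sum.inr p => some (p.1 i₀)
  have hw : ∀ a, Function.extend cnfName w (fun _ => none) (cnfName a) = w a :=
    fun a => cnfName_inj.extend_apply _ _ a
  refine ⟨Function.extend cnfName w (fun _ => none) y, fun c d hd h => ?_⟩
  obtain ⟨ρ, -, hd⟩ := List.mem_flatMap.1 hd
  simp only [rowClauses, List.mem_cons, List.mem_map] at hd
  simp only [occ3, Bool.or_eq_true, beq_iff_eq] at h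
  rcases hd with rfl | rfl | ⟨p, -, rfl⟩
  · rcases h with (rfl | rfl) | rfl <;> exact ⟨i₀, hw _⟩
  · rcases h with (rfl | rfl) | rfl <;> exact ⟨i₀, hw _⟩
  · rcases h with (rfl | rfl) | rfl
    exacts [⟨i₀, hw _⟩, ⟨i₀, hw _⟩, ⟨_, hw _⟩]

end CNF

/-- Reduction of constraints of constant arity over a constant alphabet to 3-CNF formulas. -/
theorem toCNF (V I S : Type) [Enc V] [EncInj V] [DecidableEq V] [Fintype I] [DecidableEq I]
    [Fintype S] [DecidableEq S] [Nonempty S] [Enc S] [EncInj S] :
    ∃ (K : ℕ) (R : List (ConS V I S) → CNF), 0 < K ∧ PT ∅ R ∧ ∀ l,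
      (R l).length = K * l.length ∧ (Sat satS l ↔ Satisfiable (R l)) ∧
      (∀ ε, Far satS ε l → Far satClause (ε / K) (R l)) ∧
      (Nonempty I → ∀ B, (∀ v, l.countP (fun c => decide (∃ i, c.1 i = v)) ≤ B) →
        ∀ y, (R l).countP (occ3 y) ≤ K * B) := by
  have hK : 0 < (Fintype.card (I × S) + 2) * Fintype.card (I × S → Bool) :=
    Nat.mul_pos (by omega) Fintype.card_pos
  refine ⟨_, fun l => l.flatMap conClauses, hK,
    PT.flatMap (f := fun _ c => conClauses c) PT.id (pt_conClauses.comp PT.snd'), fun l =>
    ⟨length_flatMap_gadget _ length_conClauses l, ⟨?_, ?_⟩, fun ε h => ?_, fun _ B hB y => ?_⟩⟩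
  · rintro ⟨σ, hσ⟩
    obtain ⟨τ, hτ⟩ := conClauses_complete (I := I) σ
    refine ⟨τ, fun d hd => ?_⟩
    obtain ⟨c, hc, hd⟩ := List.mem_flatMap.1 hd
    exact hτ c (hσ c hc) d hd
  · rintro ⟨τ, hτ⟩
    exact ⟨_, fun c hc => conClauses_sound τ c fun d hd => hτ d (List.mem_flatMap.2 ⟨c, hc, hd⟩)⟩
  · refine Far.flatMap _ hK length_conClauses (fun τ => ⟨fun v => bitDec fun s =>
      τ (cnfName (Sum.inl (v, s) : CnfVar V I S)), fun c _ hc => ?_⟩) h
    by_contra h1
    push Not at h1
    have := conClauses_sound τ c fun d hd => by simpa using h1 d hd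
    rw [this] at hc
    exact Bool.noConfusion hc
  · obtain ⟨o, ho⟩ := conClauses_occ (V := V) (I := I) (S := S) y
    rcases o with _ | v
    · have : (l.flatMap conClauses).countP (occ3 y) = 0 := by
        refine List.countP_eq_zero.2 fun d hd h => ?_
        obtain ⟨c, -, hd⟩ := List.mem_flatMap.1 hd
        obtain ⟨i, hi⟩ := ho c d hd h
        cases hi
      show (l.flatMap conClauses).countP (occ3 y) ≤ _
      omega
    · refine (countP_flatMap_le _ length_conClauses (fun c => decide (∃ i, c.1 i = v)) _ l
        fun c _ d hd h => ?_).trans (Nat.mul_le_mul_left _ (hB v))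
      obtain ⟨i, hi⟩ := ho c d hd h
      exact decide_eq_true ⟨i, (Option.some.inj hi).symm⟩

end Vale.Agent.Lib.PCP
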