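import Vale.Agent.Lib.PCP.CookLevinSM
import Vale.Agent.Lib.PCP.ToCNF

/-!
The theorem of Cook and Levin: tableaux of stack machines are described by local constraints.
-/

namespace Vale.Agent.Lib.PCP

open Vale.Agent.Lib.PolyTime Function

section Tableau

variable {Q : Type} {N : ℕ}

/-- The content of a cell of the tableau: the state, and one symbol of every stack. -/
abbrev TabCell (Q : Type) (N : ℕ) : Type := Q × (Fin (N + 1) → Option Bool)

/-- The row of the tableau of a configuration. -/
def tabRow (c : Q × (Fin (N + 1) → Word)) (i : ℕ) : TabCell Q N := (c.1, fun k => (c.2 k)[i]?)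

variable (δ : Q → (Fin (N + 1) → Option Bool) → Q × (Fin (N + 1) → Option (Option Bool)))

/-- The local rule. -/
def tabRule (first : Bool) (c0 cl c cr : TabCell Q N) : TabCell Q N :=
  ((δ c0.1 c0.2).1, fun k => match (δ c0.1 c0.2).2 k with
    | none => c.2 k
    | some none => cr.2 k
    | some (some b) => bif first then some b else cl.2 k)

theorem tabRow_step (c : Q × (Fin (N + 1) → Word)) (i : ℕ) :
    tabRow (smStep δ c) i = tabRule δ (decide (i = 0)) (tabRow c 0) (tabRow c (i - 1)) (tabRow c i)
      (tabRow c (i + 1)) := by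
  have h0 : (tabRow c 0).2 = fun k => (c.2 k).head? := by
    funext k
    simp [tabRow, List.head?_eq_getElem?]
  have h1 : (tabRow c 0).1 = c.1 := rfl
  simp only [tabRule, h0, h1]
  refine Prod.ext rfl (funext fun k => ?_)
  simp only [tabRow, smStep]
  rcases (δ c.1 fun k => (c.2 k).head?).2 k with _ | _ | b
  · rfl
  · simp [actAp]
  · cases i <;> simp [actAp]

variable [DecidableEq Q]

/-- The constraint of the local rule. -/
def ruleCon (t i : ℕ) : ConS (ℕ × ℕ) (Fin 5) (TabCell Q N) :=
  (![(t, 0), (t, i - 1), (t, i), (t, i + 1), (t + 1, i)],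
    fun a => decide (a 4 = tabRule δ (decide (i = 0)) (a 0) (a 1) (a 2) (a 3)))

/-- The predicate for the first row. -/
def initPred (q₀ : Q) (o : Option (Option Bool)) (a : Fin 5 → TabCell Q N) : Bool :=
  decide ((a 0).1 = q₀ ∧ (∀ k, k ≠ 0 → (a 0).2 k = none) ∧ (∀ v, o = some v → (a 0).2 0 = v) ∧
    (o = none → (a 0).2 0 = none → (a 1).2 0 = none))

/-- What is known about the position `i` of the input. -/
def initSym (u : Word) (q i : ℕ) : Option (Option Bool) :=
  if i < u.length then some u[i]? else if i < u.length + q then none else some none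

/-- The constraints for the first row. -/
def initCon (q₀ : Q) (u : Word) (q i : ℕ) : ConS (ℕ × ℕ) (Fin 5) (TabCell Q N) :=
  (![(0, i), (0, i + 1), (0, i), (0, i), (0, i)], initPred q₀ (initSym u q i))

/-- The constraint for the last row. -/
def finCon (T : ℕ) : ConS (ℕ × ℕ) (Fin 5) (TabCell Q N) :=
  (fun _ => (T, 0), fun a => decide ((a 0).2 0 = some true))

/-- All constraints of the tableau. -/
def tabCons (q₀ : Q) (u : Word) (q T : ℕ) : List (ConS (ℕ × ℕ) (Fin 5) (TabCell Q N)) :=
  finCon T :: ((List.range (T + (u.length + q) + 1)).map (initCon q₀ u q) ++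
    (List.range T).flatMap fun t => (List.range T).map (ruleCon δ t))

theorem exists_word (f : ℕ → Option Bool) (q : ℕ) (h1 : ∀ i < q, f i = none → f (i + 1) = none)
    (h2 : f q = none) : ∃ w : Word, w.length ≤ q ∧ ∀ i < q, f i = w[i]? := by
  classical
  have hex : ∃ i, f i = none := ⟨q, h2⟩
  refine ⟨(List.range (Nat.find hex)).map fun i => (f i).getD false, ?_, fun i hi => ?_⟩
  · simpa using Nat.find_min' hex h2
  · by_cases h3 : i < Nat.find hex
    · have h4 := Nat.find_min hex h3
      rw [List.getElem?_map, List.getElem?_range h3]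
      cases h5 : f i with
      | none => exact absurd h5 h4
      | some b => simp [h5]
    · rw [List.getElem?_eq_none (by simpa using h3)]
      have h4 : ∀ j, Nat.find hex ≤ j → j ≤ q → f j = none := by
        intro j hj
        induction j, hj using Nat.le_induction with
        | base => exact fun _ => Nat.find_spec hex
        | succ j _ ih => exact fun h5 => h1 j (by omega) (ih (by omega))
      exact h4 i (by omega) (by omega)

theorem tabCons_sat (q₀ : Q) (u : Word) (q T : ℕ) : Sat satS (tabCons δ q₀ u q T) ↔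
    ∃ w : Word, w.length ≤ q ∧
      (((smStep δ)^[T] (q₀, fun k => if k = 0 then u ++ w else [])).2 0).head? = some true := by
  constructor
  · rintro ⟨σ, hσ⟩
    have hfin : (σ (T, 0)).2 0 = some true := by
      simpa [satS, finCon] using hσ _ List.mem_cons_self
    have hinit : ∀ i ≤ T + (u.length + q), (σ (0, i)).1 = q₀ ∧
        (∀ k, k ≠ 0 → (σ (0, i)).2 k = none) ∧
        (∀ v, initSym u q i = some v → (σ (0, i)).2 0 = v) ∧
        (initSym u q i = none → (σ (0, i)).2 0 = none → (σ (0, i + 1)).2 0 = none) := by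
      intro i hi
      have := hσ (initCon q₀ u q i) (List.mem_cons_of_mem _ (List.mem_append_left _
        (List.mem_map.2 ⟨i, List.mem_range.2 (by omega), rfl⟩)))
      exact of_decide_eq_true this
    have hrule : ∀ t < T, ∀ i < T, σ (t + 1, i) = tabRule δ (decide (i = 0)) (σ (t, 0))
        (σ (t, i - 1)) (σ (t, i)) (σ (t, i + 1)) := by
      intro t ht i hi
      have := hσ (ruleCon δ t i) (List.mem_cons_of_mem _ (List.mem_append_right _
        (List.mem_flatMap.2 ⟨t, List.mem_range.2 ht,
          List.mem_map.2 ⟨i, List.mem_range.2 hi, rfl⟩⟩)))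
      exact of_decide_eq_true this
    obtain ⟨w, hw, hw'⟩ := exists_word (fun i => (σ (0, u.length + i)).2 0) q
      (fun i hi => (hinit (u.length + i) (by omega)).2.2.2 (by
        rw [initSym, if_neg (by omega), if_pos (by omega)]))
      ((hinit (u.length + q) (by omega)).2.2.1 none (by
        rw [initSym, if_neg (by omega), if_neg (by omega)]))
    refine ⟨w, hw, ?_⟩
    set c₀ : Q × (Fin (N + 1) → Word) := (q₀, fun k => if k = 0 then u ++ w else []) with hc₀
    have key : ∀ t, ∀ i, i + t ≤ T → σ (t, i) = tabRow ((smStep δ)^[t] c₀) i := by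
      intro t
      induction t with
      | zero =>
        intro i hi
        obtain ⟨h1, h2, h3, -⟩ := hinit i (by omega)
        refine Prod.ext h1 (funext fun k => ?_)
        by_cases hk : k = 0
        · subst hk
          simp only [tabRow, hc₀, iterate_zero, id, if_true]
          by_cases h4 : i < u.length
          · rw [h3 u[i]? (by rw [initSym, if_pos h4]), List.getElem?_append_left h4]
          · rw [List.getElem?_append_right (by omega)]
            by_cases h5 : i < u.length + q
            · rw [← hw' _ (by omega), show u.length + (i - u.length) = i by omega]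
            · rw [h3 none (by rw [initSym, if_neg h4, if_neg h5]),
                List.getElem?_eq_none (by omega)]
        · simp [tabRow, hc₀, hk, h2 k hk]
      | succ t ih =>
        intro i hi
        rw [iterate_succ_apply', tabRow_step, hrule t (by omega) i (by omega), ih 0 (by omega),
          ih (i - 1) (by omega), ih i (by omega), ih (i + 1) (by omega)]
    rw [key T 0 (by omega)] at hfin
    rw [List.head?_eq_getElem?]
    exact hfin
  · rintro ⟨w, hw, h⟩
    set c₀ : Q × (Fin (N + 1) → Word) := (q₀, fun k => if k = 0 then u ++ w else []) with hc₀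
    refine ⟨fun p => tabRow ((smStep δ)^[p.1] c₀) p.2, fun c hc => ?_⟩
    simp only [tabCons, List.mem_cons, List.mem_append, List.mem_map, List.mem_flatMap] at hc
    rcases hc with rfl | ⟨i, -, rfl⟩ | ⟨t, -, i, -, rfl⟩
    · rw [List.head?_eq_getElem?] at h
      exact decide_eq_true h
    · refine decide_eq_true ⟨rfl, fun k hk => ?_, fun v hv => ?_, fun _ h1 => ?_⟩
      · simp [initCon, tabRow, hc₀, hk]
      · show (u ++ w)[i]? = v
        unfold initSym at hv
        split_ifs at hv with h1 h2
        · rw [List.getElem?_append_left h1]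
          exact Option.some.inj hv
        · rw [← Option.some.inj hv, List.getElem?_eq_none (by simp; omega)]
      · have h2 : (u ++ w)[i]? = none := h1
        show (u ++ w)[i + 1]? = none
        rw [List.getElem?_eq_none_iff] at h2 ⊢
        omega
    · refine decide_eq_true ?_
      show tabRow ((smStep δ)^[t + 1] c₀) i = _
      rw [iterate_succ_apply', tabRow_step]
      rfl

variable [Fintype Q]

theorem pt_tabCons {α : Type} [Enc α] (q₀ : Q) {u : α → Word} {q T : α → ℕ} (hu : PT ∅ u)
    (hq : PT ∅ q) (hqb : PBd q) (hT : PT ∅ T) (hTb : PBd T) :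
    PT ∅ fun x => tabCons δ q₀ (u x) (q x) (T x) := by
  refine PT.cons (PT.pair (PT.funMk fun _ => hT.pair (PT.const 0)) (PT.const _)) (PT.append ?_ ?_)
  · refine PT.map (f := fun x i => initCon q₀ (u x) (q x) i)
      (PT.range ((hT.add (hu.length.add hq)).add (PT.const 1))
        ((hTb.add ((PBd.length hu).add hqb)).add (PBd.const 1))) (PT.pair (PT.funMk fun s => ?_) ?_)
    · have h1 : PT ∅ fun p : α × ℕ => ((0, p.2) : ℕ × ℕ) := (PT.const 0).pair PT.snd'
      have h2 : PT ∅ fun p : α × ℕ => ((0, p.2 + 1) : ℕ × ℕ) :=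
        (PT.const 0).pair (PT.snd'.add (PT.const 1))
      fin_cases s
      exacts [h1, h2, h1, h1, h1]
    · have h1 : PT ∅ fun p : α × ℕ => u p.1 := hu.comp PT.fst'
      exact PT.finComp (initPred q₀) (c := fun p : α × ℕ => initSym (u p.1) (q p.1) p.2)
        (PT.ite (PT.lt PT.snd' h1.length) (PT.some (PT.getElem? h1 PT.snd'))
          (PT.ite (PT.lt PT.snd' (h1.length.add (hq.comp PT.fst'))) (PT.const _) (PT.const _)))
  · refine PT.flatMap (f := fun x t => (List.range (T x)).map (ruleCon δ t)) (PT.range hT hTb)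
      (PT.map (f := fun (p : α × ℕ) i => ruleCon δ p.2 i)
        (PT.range (hT.comp PT.fst') (hTb.comp (A := ∅) PT.fst'))
        (PT.pair (PT.funMk fun s => ?_) ?_))
    · have h1 : PT ∅ fun p : (α × ℕ) × ℕ => p.1.2 := PT.fst'.snd
      have h2 : PT ∅ fun p : (α × ℕ) × ℕ => p.2 := PT.snd'
      fin_cases s
      exacts [h1.pair (PT.const 0), h1.pair (h2.sub (PT.const 1)), h1.pair h2,
        h1.pair (h2.add (PT.const 1)), (h1.add (PT.const 1)).pair h2]
    · exact PT.finComp (fun (b : Bool) (a : Fin 5 → TabCell Q N) =>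
        decide (a 4 = tabRule δ b (a 0) (a 1) (a 2) (a 3)))
        (c := fun p : (α × ℕ) × ℕ => decide (p.2 = 0)) (PT.eqNat PT.snd' (PT.const 0))

end Tableau

/-- **Cook and Levin.** -/
theorem cook_levin {α : Type} [Enc α] (V : α × Raw → Bool) (hV : PT ∅ V) (q : α → ℕ)
    (hq : PT ∅ q) (hqb : PBd q) :
    ∃ f : α → CNF, PT ∅ f ∧
      ∀ x, ((∃ w : Raw, w.w.length ≤ q x ∧ V (x, w) = true) ↔ Satisfiable (f x)) := by
  classical
  obtain ⟨g, hg, hgV⟩ := hV
  obtain ⟨Q, _, N, δ, q₀, c, hc⟩ := exists_sm hg
  let _ : Enc Q := ⟨fun y => enc (Fintype.equivFin Q y)⟩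
  have : EncInj Q := ⟨fun y y' h => (Fintype.equivFin Q).injective (EncInj.inj h)⟩
  have : Nonempty Q := ⟨q₀⟩
  obtain ⟨K, R, -, hR, hR'⟩ := toCNF (ℕ × ℕ) (Fin 5) (TabCell Q N)
  have hu : PT ∅ fun x : α => (pr (enc x) [] : List Bool) := by
    have h1 : PT ∅ fun x : α => Raw.mk (pr (enc x) []) := by
      obtain ⟨F, hF, hF'⟩ := (PT.id.pair (PT.const (Raw.mk [])) :
        PT ∅ fun x : α => (x, Raw.mk []))
      exact ⟨F, hF, hF'⟩
    exact PT.listOfRaw h1
  have hL : PT ∅ fun x : α => (pr (enc x) []).length + q x := hu.length.add hq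
  have hLb : PBd fun x : α => (pr (enc x) []).length + q x := (PBd.length hu).add hqb
  refine ⟨fun x => R (tabCons δ q₀ (pr (enc x) []) (q x) (pb c ((pr (enc x) []).length + q x))),
    hR.comp (pt_tabCons δ q₀ hu hq hqb ((hL.add (PT.const 2)).powConst c)
      ((hLb.add (PBd.const 2)).pow c)), fun x => ?_⟩
  rw [← (hR' _).2.1, tabCons_sat]
  have key : ∀ w : Word, w.length ≤ q x →
      ((smStep δ)^[pb c ((pr (enc x) []).length + q x)]
        (q₀, fun k => if k = 0 then pr (enc x) [] ++ w else [])).2 0 = [V (x, Raw.mk w)] := by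
    intro w hw
    rw [hc _ _ (pb_mono c (by rw [List.length_append]; omega))]
    have h1 : pr (enc x) [] ++ w = enc (x, Raw.mk w) := by
      rw [enc_pair, pr_eq, pr_eq, List.append_assoc]
      rfl
    rw [h1, hgV, enc_bool]
  constructor
  · rintro ⟨w, hw, h⟩
    refine ⟨w.w, hw, ?_⟩
    rw [key _ hw]
    exact congrArg some h
  · rintro ⟨w, hw, h⟩
    rw [key _ hw] at h
    exact ⟨Raw.mk w, hw, Option.some.inj h⟩

end Vale.Agent.Lib.PCP
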