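import Vale.Agent.Lib.PolyTime.Official
import Vale.Agent.Lib.PolyTime.TM2

/-!
Finite state machines with finitely many stacks, acting in one step on every stack by a push, a pop
or not at all. Every function computable in polynomial time is computed by such a machine.
-/

namespace Vale.Agent.Lib.PCP

open Vale.Agent.Lib.PolyTime Vale.Agent.Lib.PolyTime.ToTM2 Function

/-- The action on a stack: nothing, pop, or push a bit. -/
def actAp : Option (Option Bool) → Word → Word
  | none, w => w
  | some none, w => w.tail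
  | some (some b), w => b :: w

/-- One step of the machine with transition function `δ`. -/
def smStep {Q K : Type} (δ : Q → (K → Option Bool) → Q × (K → Option (Option Bool)))
    (c : Q × (K → Word)) : Q × (K → Word) :=
  ((δ c.1 fun k => (c.2 k).head?).1, fun k => actAp ((δ c.1 fun k => (c.2 k).head?).2 k) (c.2 k))

/-- The transition function on continuations. -/
def smCtl (N : ℕ) : List Prog → (Fin (N + 1) → Option Bool) →
    List Prog × (Fin (N + 1) → Option (Option Bool))
  | [], _ => ([], fun _ => none)
  | .skip :: ks, _ => (ks, fun _ => none)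
  | .push i b :: ks, _ => (ks, update (fun _ => none) (stk N i) (some (some b)))
  | .pop i :: ks, _ => (ks, update (fun _ => none) (stk N i) (some none))
  | .query _ j :: ks, _ => (ks, update (fun _ => none) (stk N j) (some (some false)))
  | .seq p q :: ks, _ => (p :: q :: ks, fun _ => none)
  | .ite i p q r :: ks, o => ((match o (stk N i) with
      | none => p :: ks
      | some false => q :: ks
      | some true => r :: ks), fun _ => none)
  | .loop i p :: ks, o => ((match o (stk N i) with
      | none => ks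
      | some _ => p :: .loop i p :: ks), fun _ => none)

/-- The transition function on a set of continuations. -/
noncomputable def smDelta (N : ℕ) (R : Set (List Prog)) (h0 : [] ∈ R) (q : R)
    (o : Fin (N + 1) → Option Bool) : R × (Fin (N + 1) → Option (Option Bool)) :=
  (lab R h0 (smCtl N q.1 o).1, (smCtl N q.1 o).2)

section Sim

variable {N : ℕ} {R : Set (List Prog)} {h0 : [] ∈ R}

theorem actAp_update (s : Fin (N + 1) → Word) (i : Fin (N + 1)) (a : Option (Option Bool)) :
    (fun k => actAp (update (fun _ => none : Fin (N + 1) → Option (Option Bool)) i a k) (s k)) =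
      update s i (actAp a (s i)) := by
  funext k
  by_cases h : k = i
  · subst h; simp
  · simp [update_of_ne h, actAp]

theorem smStep_lab {l : List Prog} (hl : l ∈ R) (s : Fin (N + 1) → Word) :
    smStep (smDelta N R h0) (lab R h0 l, s) =
      (lab R h0 (smCtl N l fun k => (s k).head?).1,
        fun k => actAp ((smCtl N l fun k => (s k).head?).2 k) (s k)) := by
  rw [lab_of_mem hl]
  rfl

theorem sm_sim {p : Prog} {s s' : ℕ → Word} {t : ℕ} (h : Eval ∅ p s t s')
    (hb : bounded (N + 1) p) (ks : List Prog) (hR : reach p ks ⊆ R) (hks : ks ∈ R) :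
    ∃ n, n + 1 ≤ 2 * t ∧ (smStep (smDelta N R h0))^[n] (lab R h0 (p :: ks), restr N s) =
      (lab R h0 ks, restr N s') := by
  induction h generalizing ks with
  | skip s =>
    refine ⟨1, by norm_num, ?_⟩
    rw [iterate_one, smStep_lab (hR (self_mem_reach _ _))]
    rfl
  | push s i b =>
    refine ⟨1, by norm_num, ?_⟩
    rw [iterate_one, smStep_lab (hR (self_mem_reach _ _))]
    simp only [smCtl]
    rw [actAp_update, restr_update N hb, restr_stk N hb]
    rfl
  | pop s i =>
    refine ⟨1, by norm_num, ?_⟩
    rw [iterate_one, smStep_lab (hR (self_mem_reach _ _))]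
    simp only [smCtl]
    rw [actAp_update, restr_update N hb, restr_stk N hb]
    rfl
  | query_yes s i j hi => exact absurd hi (by simp)
  | query_no s i j hi =>
    refine ⟨1, by norm_num, ?_⟩
    rw [iterate_one, smStep_lab (hR (self_mem_reach _ _))]
    simp only [smCtl]
    rw [actAp_update, restr_update N hb.2, restr_stk N hb.2]
    rfl
  | @seq p q s s' s'' t t' _ _ ih₁ ih₂ =>
    have hq : reach q ks ⊆ R := fun x hx => hR (Or.inr (Or.inr hx))
    have hp : reach p (q :: ks) ⊆ R := fun x hx => hR (Or.inr (Or.inl hx))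
    obtain ⟨n₁, hn₁, e₁⟩ := ih₁ hb.1 (q :: ks) hp (hq (self_mem_reach _ _))
    obtain ⟨n₂, hn₂, e₂⟩ := ih₂ hb.2 ks hq hks
    refine ⟨n₂ + (n₁ + 1), by omega, ?_⟩
    rw [iterate_add_apply, iterate_succ_apply, smStep_lab (hR (self_mem_reach _ _))]
    exact (congrArg _ e₁).trans e₂
  | @ite_nil p q r s s' t i hi _ ih =>
    have hp : reach p ks ⊆ R := fun x hx => hR (Or.inr (Or.inl hx))
    obtain ⟨n₁, hn₁, e₁⟩ := ih hb.2.1 ks hp hks
    refine ⟨n₁ + 1, by omega, ?_⟩
    rw [iterate_succ_apply, smStep_lab (hR (self_mem_reach _ _))]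
    simp only [smCtl, restr_stk N hb.1, hi, List.head?_nil]
    exact e₁
  | @ite_false p q r s s' t i hi _ ih =>
    have hp : reach q ks ⊆ R := fun x hx => hR (Or.inr (Or.inr (Or.inl hx)))
    obtain ⟨n₁, hn₁, e₁⟩ := ih hb.2.2.1 ks hp hks
    refine ⟨n₁ + 1, by omega, ?_⟩
    rw [iterate_succ_apply, smStep_lab (hR (self_mem_reach _ _))]
    simp only [smCtl, restr_stk N hb.1, hi]
    exact e₁
  | @ite_true p q r s s' t i hi _ ih =>
    have hp : reach r ks ⊆ R := fun x hx => hR (Or.inr (Or.inr (Or.inr hx)))
    obtain ⟨n₁, hn₁, e₁⟩ := ih hb.2.2.2 ks hp hks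
    refine ⟨n₁ + 1, by omega, ?_⟩
    rw [iterate_succ_apply, smStep_lab (hR (self_mem_reach _ _))]
    simp only [smCtl, restr_stk N hb.1, hi]
    exact e₁
  | @loop_stop p s i hi =>
    refine ⟨1, by norm_num, ?_⟩
    rw [iterate_one, smStep_lab (hR (self_mem_reach _ _))]
    simp only [smCtl, restr_stk N hb.1, hi, List.head?_nil]
    rfl
  | @loop_step p s s' s'' t t' i hi _ _ ih₁ ih₂ =>
    have hl : Prog.loop i p :: ks ∈ R := hR (self_mem_reach _ _)
    have hp : reach p (.loop i p :: ks) ⊆ R := fun x hx => hR (Or.inr hx)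
    obtain ⟨b, hbh⟩ : ∃ b, (s i).head? = some b := by
      cases hs : s i with
      | nil => exact absurd hs hi
      | cons b w => exact ⟨b, by simp⟩
    obtain ⟨n₁, hn₁, e₁⟩ := ih₁ hb.2 (.loop i p :: ks) hp hl
    obtain ⟨n₂, hn₂, e₂⟩ := ih₂ hb ks hR hks
    refine ⟨n₂ + (n₁ + 1), by omega, ?_⟩
    rw [iterate_add_apply, iterate_succ_apply, smStep_lab hl]
    simp only [smCtl, restr_stk N hb.1, hbh]
    exact (congrArg _ e₁).trans e₂

end Sim

/-- Every polynomial time function is computed by a finite state machine with stacks; the result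
stays on the stack `0` after the machine has finished. -/
theorem exists_sm {g : Word → Word} (hg : FP ∅ g) :
    ∃ (Q : Type) (_ : Fintype Q) (N : ℕ)
      (δ : Q → (Fin (N + 1) → Option Bool) → Q × (Fin (N + 1) → Option (Option Bool))) (q₀ : Q)
      (c : ℕ), ∀ z n, pb c z.length ≤ n →
        ((smStep δ)^[n] (q₀, fun k => if k = 0 then z else [])).2 0 = g z := by
  obtain ⟨p, T, hT⟩ := hg.exists_prog
  obtain ⟨N, hN⟩ := exists_bounded p
  have hN' : bounded (N + 1) p := bounded_mono (Nat.le_succ N) hN
  set R : Set (List Prog) := insert [] (reach p []) with hR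
  have h0 : [] ∈ R := Set.mem_insert _ _
  have hRfin : R.Finite := (reach_finite p []).insert []
  obtain ⟨c, hc⟩ := ((PB.const 2).mul (PB.of_polynomial T)).exists_pb
  refine ⟨R, hRfin.fintype, N, smDelta N R h0, lab R h0 [p], c, fun z n hn => ?_⟩
  obtain ⟨t, s, he, ht, hs⟩ := hT z
  obtain ⟨m, hm, e⟩ := sm_sim (h0 := h0) he hN' [] (Set.subset_insert _ _) h0
  have h1 : (fun k : Fin (N + 1) => if k = 0 then z else []) = restr N (start z []) := by
    funext k
    show _ = start z [] k
    rw [start_apply]
    by_cases hk : k = 0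
    · rw [if_pos hk, if_pos (by rw [hk]; rfl)]
    · rw [if_neg hk, if_neg (show ¬ (k : ℕ) = 0 from fun e => hk (Fin.ext e)), ite_self]
  have h2 : m ≤ n := by
    have := hc z.length
    omega
  obtain ⟨d, rfl⟩ := Nat.exists_eq_add_of_le' h2
  rw [h1, iterate_add_apply, e, iterate_fixed]
  · exact hs
  · rw [smStep_lab h0]
    rfl

end Vale.Agent.Lib.PCP
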