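import Vale.Agent.Lib.PCP.PT.Fin

/-!
Interface of the PCP library: promise problems, polynomial time reductions, 3-SAT, gap problems of
constraint languages, binary constraints, regular constraint graphs given by permutations,
expander families, projection games (label cover), linear equations in three variables.
-/

namespace Vale.Agent.Lib.PCP

open Vale.Agent.Lib.PolyTime Finset
open scoped BigOperators

/-! ### Promise problems and reductions -/

/-- A promise problem: yes instances and no instances. -/
structure Promise (α : Type) where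
  /-- the yes instances -/
  yes : α → Prop
  /-- the no instances -/
  no : α → Prop

/-- Polynomial time many-one reductions between promise problems. -/
def Red {α β : Type} [Enc α] [Enc β] (P : Promise α) (Q : Promise β) : Prop :=
  ∃ f : α → β, PT ∅ f ∧ (∀ x, P.yes x → Q.yes (f x)) ∧ (∀ x, P.no x → Q.no (f x))

theorem Red.refl {α : Type} [Enc α] (P : Promise α) : Red P P :=
  ⟨fun x => x, PT.id, fun _ h => h, fun _ h => h⟩

theorem Red.trans {α β γ : Type} [Enc α] [Enc β] [Enc γ] {P : Promise α} {Q : Promise β}
    {R : Promise γ} (h₁ : Red P Q) (h₂ : Red Q R) : Red P R := by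
  obtain ⟨f, hf, f1, f2⟩ := h₁
  obtain ⟨g, hg, g1, g2⟩ := h₂
  exact ⟨fun x => g (f x), hg.comp hf, fun x h => g1 _ (f1 x h), fun x h => g2 _ (f2 x h)⟩

theorem Red.mono {α β : Type} [Enc α] [Enc β] {P : Promise α} {Q Q' : Promise β} (h : Red P Q)
    (h1 : ∀ x, Q.yes x → Q'.yes x) (h2 : ∀ x, Q.no x → Q'.no x) : Red P Q' := by
  obtain ⟨f, hf, f1, f2⟩ := h
  exact ⟨f, hf, fun x h => h1 _ (f1 x h), fun x h => h2 _ (f2 x h)⟩

/-! ### 3-SAT -/

/-- A literal: a variable and the value that makes the literal true. -/
abbrev Lit : Type := ℕ × Bool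

/-- A clause with three literals (repetitions are allowed). -/
abbrev Clause : Type := Lit × Lit × Lit

/-- A 3-CNF formula. -/
abbrev CNF : Type := List Clause

/-- The literal is true under the assignment. -/
def satLit (l : Lit) (σ : ℕ → Bool) : Bool := σ l.1 == l.2

/-- The clause is true under the assignment. -/
def satClause (c : Clause) (σ : ℕ → Bool) : Bool := satLit c.1 σ || satLit c.2.1 σ || satLit c.2.2 σ

/-- Satisfiable formulas. -/
def Satisfiable (φ : CNF) : Prop := ∃ σ : ℕ → Bool, ∀ c ∈ φ, satClause c σ = true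

/-- 3-SAT. -/
def SAT3 : Promise CNF := ⟨Satisfiable, fun φ => ¬ Satisfiable φ⟩

/-- 3-SAT reduces to the promise problem. -/
def Hard {β : Type} [Enc β] (Q : Promise β) : Prop := Red SAT3 Q

theorem Hard.red {β γ : Type} [Enc β] [Enc γ] {Q : Promise β} {R : Promise γ} (h : Hard Q)
    (h' : Red Q R) : Hard R := Red.trans h h'

/-! ### Lists of constraints -/

section Gap

variable {C A : Type}

/-- Number of constraints of the list satisfied by the assignment `a`. -/
def cnt (sat : C → A → Bool) (l : List C) (a : A) : ℕ := l.countP fun c => sat c a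

/-- Number of constraints of the list violated by the assignment `a`. -/
def viol (sat : C → A → Bool) (l : List C) (a : A) : ℕ := l.countP fun c => !sat c a

/-- Some assignment satisfies all constraints. -/
def Sat (sat : C → A → Bool) (l : List C) : Prop := ∃ a, ∀ c ∈ l, sat c a = true

/-- Every assignment violates at least an `ε` fraction of the constraints. -/
def Far (sat : C → A → Bool) (ε : ℝ) (l : List C) : Prop :=
  ∀ a, ε * l.length ≤ (viol sat l a : ℝ)

/-- The gap problem of a constraint language: nonempty lists of value at least `c` against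
nonempty lists of value at most `s`. -/
def Gap (sat : C → A → Bool) (c s : ℝ) : Promise (List C) where
  yes l := l ≠ [] ∧ ∃ a, c * l.length ≤ (cnt sat l a : ℝ)
  no l := l ≠ [] ∧ ∀ a, (cnt sat l a : ℝ) ≤ s * l.length

end Gap

/-- Binary constraints: two variables and a relation. -/
abbrev Con2 (V S : Type) : Type := V × V × (S → S → Bool)

/-- Satisfaction of a binary constraint. -/
def sat2 {V S : Type} (c : Con2 V S) (σ : V → S) : Bool := c.2.2 (σ c.1) (σ c.2.1)

/-- Every single relation of the list is nonempty. -/
def AllSat2 {V S : Type} (l : List (Con2 V S)) : Prop := ∀ c ∈ l, ∃ a b, c.2.2 a b = true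

/-- The fixed alphabet of the gap amplification rounds. -/
abbrev S0 : Type := Fin 10 → Bool

/-- Linear equations `x + y + z = b` over the field with two elements. -/
abbrev Eq3 (V : Type) : Type := V × V × V × Bool

/-- Satisfaction of a linear equation. -/
def satLin {V : Type} (c : Eq3 V) (σ : V → Bool) : Bool :=
  (Bool.xor (Bool.xor (σ c.1) (σ c.2.1)) (σ c.2.2.1)) == c.2.2.2

/-- Edges `(u, v, π)` of a projection game: the label of `v` (alphabet `A`) has to project to the
label of `u` (alphabet `B`). -/
abbrev PEdge (U V A B : Type) : Type := U × V × (A → B)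

/-- Satisfaction of an edge of a projection game by labelings `(g, f)` of the two sides. -/
def satP {U V A B : Type} [DecidableEq B] (c : PEdge U V A B) (l : (U → B) × (V → A)) : Bool :=
  decide (c.2.2 (l.2 c.2.1) = l.1 c.1)

/-! ### Regular graphs given by permutations -/

/-- Index sets of generators, with the involution which sends a generator to its inverse. -/
class Rev (D : Type) where
  /-- the index of the inverse generator -/
  rev : D → D
  rev_rev : ∀ i, rev (rev i) = i

export Rev (rev rev_rev)

instance : Rev Unit := ⟨fun i => i, fun _ => rfl⟩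

instance {D D' : Type} [Rev D] [Rev D'] : Rev (D ⊕ D') :=
  ⟨Sum.map rev rev, fun i => by cases i <;> simp [rev_rev]⟩

instance {κ : Type} : Rev (κ × Bool) := ⟨fun p => (p.1, !p.2), fun p => by simp⟩

section Graph

variable {D : Type}

/-- `nxt i` is a permutation of `range n` with inverse `nxt (rev i)`. -/
structure Schreier [Rev D] (n : ℕ) (nxt : D → ℕ → ℕ) : Prop where
  lt : ∀ i v, v < n → nxt i v < n
  inv : ∀ i v, v < n → nxt (rev i) (nxt i v) = v

/-- Poincare inequality with constant `γ`. -/
def Poinc [Fintype D] (γ : ℝ) (n : ℕ) (nxt : D → ℕ → ℕ) : Prop :=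
  ∀ f : ℕ → ℝ, γ * ∑ x ∈ range n, ∑ y ∈ range n, (f x - f y) ^ 2 ≤
    n * ∑ x ∈ range n, ∑ i, (f x - f (nxt i x)) ^ 2

/-- The averaging operator has norm at most `lam` on functions with sum zero. -/
def Spec [Fintype D] (lam : ℝ) (n : ℕ) (nxt : D → ℕ → ℕ) : Prop :=
  ∀ f : ℕ → ℝ, ∑ x ∈ range n, f x = 0 →
    ∑ x ∈ range n, (𝔼 i, f (nxt i x)) ^ 2 ≤ lam ^ 2 * ∑ x ∈ range n, f x ^ 2

/-- A family of expanders, one for every number of vertices, computable in polynomial time. -/
structure Expanders (E : Type) [Fintype E] [Rev E] where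
  /-- `ex n i` is the generator `i` of the graph on `range n` -/
  ex : ℕ → E → ℕ → ℕ
  /-- the Poincare constant -/
  γ : ℝ
  pos : 0 < γ
  sch : ∀ n, Schreier n (ex n)
  poinc : ∀ n, Poinc γ n (ex n)
  pt : ∀ i, PT ∅ fun p : ℕ × ℕ => ex p.1 i p.2

end Graph

/-- Regular constraint graphs: vertices `range n`, edges `(v, nxt i v)` with relation `con i v`. -/
structure RG (D S : Type) where
  /-- number of vertices -/
  n : ℕ
  /-- the generators -/
  nxt : D → ℕ → ℕ
  /-- the relations -/
  con : D → ℕ → S → S → Bool

namespace RG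

variable {D S : Type}

/-- The edge `(v, i)` is satisfied by `σ`. -/
def ok (G : RG D S) (σ : ℕ → S) (v : ℕ) (i : D) : Bool := G.con i v (σ v) (σ (G.nxt i v))

/-- Well formed graphs. -/
structure WF [Rev D] (G : RG D S) : Prop where
  pos : 0 < G.n
  sch : Schreier G.n G.nxt

/-- Some assignment satisfies all edges. -/
def Sat (G : RG D S) : Prop := ∃ σ : ℕ → S, ∀ v < G.n, ∀ i, G.ok σ v i = true

/-- Every assignment violates at least an `ε` fraction of the edges. -/
def Far [Fintype D] (G : RG D S) (ε : ℝ) : Prop :=
  ∀ σ : ℕ → S, ε * (G.n * Fintype.card D) ≤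
    ∑ v ∈ range G.n, ∑ i, if G.ok σ v i = true then (0 : ℝ) else 1

/-- Every single relation is nonempty. -/
def AllSat (G : RG D S) : Prop := ∀ v < G.n, ∀ i, ∃ a b, G.con i v a b = true

/-- A family of regular constraint graphs is computable in polynomial time. -/
structure IsPT [Fintype S] {α : Type} [Enc α] (F : α → RG D S) : Prop where
  n : PT ∅ fun a => (F a).n
  nb : PBd fun a => (F a).n
  nxt : ∀ i, PT ∅ fun p : α × ℕ => (F p.1).nxt i p.2
  con : ∀ i, PT ∅ fun p : α × ℕ => (F p.1).con i p.2

theorem IsPT.comp [Fintype S] {α β : Type} [Enc α] [Enc β] {F : α → RG D S} (h : IsPT F)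
    {g : β → α} (hg : PT ∅ g) : IsPT fun b => F (g b) where
  n := h.n.comp hg
  nb := h.nb.comp hg
  nxt i := (h.nxt i).comp ((hg.comp PT.fst').pair PT.snd')
  con i := (h.con i).comp ((hg.comp PT.fst').pair PT.snd')

end RG

/-! ### Projection games in regular form -/

/-- Projection games (label cover): every `u < nU` has the neighbours `nbr u i`; labels of the
side `V` are in `A`, labels of the side `U` are in `B`, and `proj u i : A → B`. -/
structure LC (D A B : Type) where
  /-- number of vertices on the side of the small alphabet -/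
  nU : ℕ
  /-- number of vertices on the side of the large alphabet -/
  nV : ℕ
  /-- the neighbours -/
  nbr : ℕ → D → ℕ
  /-- the projections -/
  proj : ℕ → D → A → B

namespace LC

variable {D A B : Type}

/-- Well formed games in which every vertex `v < nV` has degree `dV`. -/
structure WF [Fintype D] (G : LC D A B) (dV : ℕ) : Prop where
  pos : 0 < G.nU
  lt : ∀ u < G.nU, ∀ i, G.nbr u i < G.nV
  reg : ∀ v < G.nV, ∑ u ∈ range G.nU, ∑ i, (if G.nbr u i = v then 1 else 0) = dV

/-- Some labeling satisfies all edges. -/
def Sat (G : LC D A B) : Prop :=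
  ∃ (g : ℕ → B) (f : ℕ → A), ∀ u < G.nU, ∀ i, G.proj u i (f (G.nbr u i)) = g u

/-- The value is at most `s`. -/
def ValLE [Fintype D] [DecidableEq B] (G : LC D A B) (s : ℝ) : Prop :=
  ∀ (g : ℕ → B) (f : ℕ → A),
    ∑ u ∈ range G.nU, ∑ i, (if G.proj u i (f (G.nbr u i)) = g u then (1 : ℝ) else 0) ≤
      s * (G.nU * Fintype.card D)

/-- A family of projection games is computable in polynomial time. -/
structure IsPT [Fintype A] [Enc B] {α : Type} [Enc α] (F : α → LC D A B) : Prop where
  nU : PT ∅ fun a => (F a).nU
  nUb : PBd fun a => (F a).nU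
  nV : PT ∅ fun a => (F a).nV
  nVb : PBd fun a => (F a).nV
  nbr : ∀ i, PT ∅ fun p : α × ℕ => (F p.1).nbr p.2 i
  proj : ∀ i, PT ∅ fun p : α × ℕ => (F p.1).proj p.2 i

/-- The list of edges. -/
noncomputable def edges [Fintype D] (G : LC D A B) : List (PEdge ℕ ℕ A B) :=
  (List.range G.nU).flatMap fun u =>
    (univ : Finset D).toList.map fun i => (u, G.nbr u i, G.proj u i)

end LC

end Vale.Agent.Lib.PCP
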