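import Vale.Agent.Lib.MathlibUsed
import Mathlib.Analysis.SpecialFunctions.Complex.CircleAddChar
import Mathlib.Analysis.SpecialFunctions.Trigonometric.Bounds
import Mathlib.NumberTheory.LegendreSymbol.AddCharacter
import Mathlib.Data.ZMod.ValMinAbs

/-!
The Margulis-Gabber-Galil expander on the discrete torus `(ZMod N)²`: Poincare inequality for the
translation `(x, y) ↦ (x + 1, y)`, the shear `(x, y) ↦ (x + 2 y, y)` and the rotation
`(x, y) ↦ (y, -x)`. The combinatorial core is taken from the development of P135.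
-/

namespace Vale.Agent.Lib.PCP.MGG

open Finset ComplexConjugate

section Weights

variable {X : Type*} [Fintype X]

open Classical in
/-- mass of the set of points satisfying `P` -/
noncomputable def mass (w : X → ℝ) (P : X → Prop) : ℝ := ∑ p, if P p then w p else 0

theorem mass_le_add {w : X → ℝ} (hw : ∀ p, 0 ≤ w p) {P Q R : X → Prop}
    (h : ∀ p, P p → Q p ∨ R p) : mass w P ≤ mass w Q + mass w R := by
  unfold mass
  rw [← Finset.sum_add_distrib]
  refine Finset.sum_le_sum fun p _ => ?_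
  by_cases hP : P p
  · rw [if_pos hP]
    rcases h p hP with hQ | hR
    · rw [if_pos hQ]
      split_ifs
      · linarith [hw p]
      · linarith
    · rw [if_pos hR]
      split_ifs
      · linarith [hw p]
      · linarith
  · rw [if_neg hP]
    have := hw p
    split_ifs <;> linarith

theorem mass_shift {w : X → ℝ} (hw : ∀ p, 0 ≤ w p) (T : X ≃ X) {δ : ℝ}
    (h : ∑ p, |w (T p) - w p| ≤ δ) {P Q : X → Prop} (hPQ : ∀ p, P p → Q (T p)) :
    mass w P ≤ mass w Q + δ := by
  classical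
  have h1 : mass w P ≤ ∑ p, (if Q (T p) then w (T p) else 0) + ∑ p, |w (T p) - w p| := by
    unfold mass
    rw [← Finset.sum_add_distrib]
    refine Finset.sum_le_sum fun p _ => ?_
    by_cases hP : P p
    · rw [if_pos hP, if_pos (hPQ p hP)]
      have := neg_abs_le (w (T p) - w p)
      linarith
    · rw [if_neg hP]
      have h2 := abs_nonneg (w (T p) - w p)
      have h3 := hw (T p)
      split_ifs <;> linarith
  have h2 : ∑ p, (if Q (T p) then w (T p) else 0) = mass w Q := by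
    unfold mass
    rw [← Equiv.sum_comp T (fun p => if Q p then w p else 0)]
  linarith

theorem mass_shift_symm {w : X → ℝ} (hw : ∀ p, 0 ≤ w p) (T : X ≃ X) {δ : ℝ}
    (h : ∑ p, |w (T p) - w p| ≤ δ) {P Q : X → Prop} (hPQ : ∀ p, P p → Q (T.symm p)) :
    mass w P ≤ mass w Q + δ := by
  apply mass_shift hw T.symm _ hPQ
  rw [← Equiv.sum_comp T]
  simp only [Equiv.symm_apply_apply]
  refine le_trans (le_of_eq ?_) h
  exact Finset.sum_congr rfl fun p _ => abs_sub_comm _ _

end Weights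

section Pure

variable {N : ℕ} [NeZero N]

/-- the shear `(a, b) ↦ (a, b - 2 a)` -/
def shear (N : ℕ) : ZMod N × ZMod N ≃ ZMod N × ZMod N where
  toFun p := (p.1, p.2 - 2 * p.1)
  invFun p := (p.1, p.2 + 2 * p.1)
  left_inv p := by simp
  right_inv p := by simp

/-- the rotation `(a, b) ↦ (b, -a)` -/
def rot (N : ℕ) : ZMod N × ZMod N ≃ ZMod N × ZMod N where
  toFun p := (p.2, -p.1)
  invFun p := (-p.2, p.1)
  left_inv p := by simp
  right_inv p := by simp

/-- centred representative of the first coordinate -/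
def va (p : ZMod N × ZMod N) : ℤ := p.1.valMinAbs

/-- centred representative of the second coordinate -/
def vb (p : ZMod N × ZMod N) : ℤ := p.2.valMinAbs

/-- both coordinates are close to `0` -/
def InBox (p : ZMod N × ZMod N) : Prop := 8 * |va p| < N ∧ 8 * |vb p| < N

omit [NeZero N] in
theorem va_rot (p : ZMod N × ZMod N) : va (rot N p) = vb p := rfl

theorem vb_rot {p : ZMod N × ZMod N} (h : 8 * |va p| < N) : vb (rot N p) = -va p := by
  unfold vb va rot at *
  simp only [Equiv.coe_fn_mk] at *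
  rw [ZMod.valMinAbs_spec]
  have h1 := neg_abs_le p.1.valMinAbs
  have h2 := le_abs_self p.1.valMinAbs
  refine ⟨?_, ?_⟩
  · rw [Int.cast_neg, ZMod.coe_valMinAbs]
  · rw [Set.mem_Ioc]
    constructor <;> linarith only [h, h1, h2]

omit [NeZero N] in
theorem va_shear_symm (p : ZMod N × ZMod N) : va ((shear N).symm p) = va p := rfl

omit [NeZero N] in
theorem va_shear (p : ZMod N × ZMod N) : va (shear N p) = va p := rfl

theorem vb_shear_symm {p : ZMod N × ZMod N} (h : InBox p) :
    vb ((shear N).symm p) = vb p + 2 * va p := by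
  obtain ⟨h1, h2⟩ := h
  unfold vb va shear at *
  simp only [Equiv.coe_fn_symm_mk] at *
  rw [ZMod.valMinAbs_spec]
  have h3 := neg_abs_le p.1.valMinAbs
  have h4 := le_abs_self p.1.valMinAbs
  have h5 := neg_abs_le p.2.valMinAbs
  have h6 := le_abs_self p.2.valMinAbs
  refine ⟨?_, ?_⟩
  · simp
  · rw [Set.mem_Ioc]
    constructor <;> linarith only [h1, h2, h3, h5, h4, h6]

theorem vb_shear {p : ZMod N × ZMod N} (h : InBox p) :
    vb (shear N p) = vb p - 2 * va p := by
  obtain ⟨h1, h2⟩ := h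
  unfold vb va shear at *
  simp only [Equiv.coe_fn_mk] at *
  rw [ZMod.valMinAbs_spec]
  have h3 := neg_abs_le p.1.valMinAbs
  have h4 := le_abs_self p.1.valMinAbs
  have h5 := neg_abs_le p.2.valMinAbs
  have h6 := le_abs_self p.2.valMinAbs
  refine ⟨?_, ?_⟩
  · simp
  · rw [Set.mem_Ioc]
    constructor <;> linarith only [h1, h2, h3, h6, h4, h5]

/-- The combinatorial core: a weight on `(ZMod N)²` which is nearly invariant under the shear and
the rotation and has small mass far from the axis `a = 0` is concentrated at the origin. -/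
theorem core {w : ZMod N × ZMod N → ℝ} (hw : ∀ p, 0 ≤ w p) {δ η : ℝ}
    (hS : ∑ p, |w (shear N p) - w p| ≤ δ) (hR : ∑ p, |w (rot N p) - w p| ≤ δ)
    (hfar : mass w (fun p => (N : ℤ) ≤ 8 * |va p|) ≤ η) :
    ∑ p, w p ≤ w (0, 0) + 29 * δ + 28 * η := by
  classical
  have hN : (0 : ℤ) < N := by
    have := NeZero.pos N
    exact_mod_cast this
  have hδ : 0 ≤ δ := le_trans (Finset.sum_nonneg fun p _ => abs_nonneg _) hS
  -- far in the second coordinate
  have hfarb : mass w (fun p => (N : ℤ) ≤ 8 * |vb p|) ≤ η + δ := by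
    refine (mass_shift hw (rot N) hR (Q := fun p => (N : ℤ) ≤ 8 * |va p|) ?_).trans (by linarith)
    intro p hp
    rw [va_rot]
    exact hp
  set β : ℝ := mass w (fun p => ¬ InBox p) with hβdef
  have hβ : β ≤ 2 * η + δ := by
    have h1 : β ≤ mass w (fun p => (N : ℤ) ≤ 8 * |va p|) + mass w (fun p => (N : ℤ) ≤ 8 * |vb p|) := by
      apply mass_le_add hw
      intro p hp
      unfold InBox at hp
      by_cases h : 8 * |va p| < N
      · right
        by_contra h2
        exact hp ⟨h, not_le.1 h2⟩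
      · left
        exact not_lt.1 h
    (clear hS hN hδ hβdef; linarith)
  -- C and C' near the horizontal axis
  have hC1 : mass w (fun p => 0 < va p * vb p) ≤ mass w (fun p => 0 < va p * vb p ∧ |va p| < |vb p|)
      + δ + β := by
    have h1 : mass w (fun p => 0 < va p * vb p) ≤ mass w (fun p => 0 < va p * vb p ∧ InBox p) + β := by
      apply mass_le_add hw
      intro p hp
      by_cases h : InBox p
      · exact Or.inl ⟨hp, h⟩
      · exact Or.inr h
    have h2 : mass w (fun p => 0 < va p * vb p ∧ InBox p)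
        ≤ mass w (fun p => 0 < va p * vb p ∧ |va p| < |vb p|) + δ := by
      apply mass_shift_symm hw (shear N) hS
      rintro p ⟨hp, hb⟩
      rw [va_shear_symm, vb_shear_symm hb]
      rcases lt_trichotomy (va p) 0 with h | h | h
      · have h3 : vb p < 0 := by
          by_contra hcon
          push Not at hcon
          nlinarith only [hp, hcon, h]
        refine ⟨by nlinarith only [hp, h], ?_⟩
        rw [abs_of_neg h, abs_of_neg (by linarith)]
        linarith
      · rw [h] at hp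
        simp at hp
      · have h3 : 0 < vb p := by
          by_contra hcon
          push Not at hcon
          nlinarith only [hp, hcon, h]
        refine ⟨by nlinarith only [hp, h], ?_⟩
        rw [abs_of_pos h, abs_of_pos (by linarith)]
        linarith
    linarith
  have hC1' : mass w (fun p => va p * vb p < 0) ≤ mass w (fun p => va p * vb p < 0 ∧ |va p| < |vb p|)
      + δ + β := by
    have h1 : mass w (fun p => va p * vb p < 0) ≤ mass w (fun p => va p * vb p < 0 ∧ InBox p) + β := by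
      apply mass_le_add hw
      intro p hp
      by_cases h : InBox p
      · exact Or.inl ⟨hp, h⟩
      · exact Or.inr h
    have h2 : mass w (fun p => va p * vb p < 0 ∧ InBox p)
        ≤ mass w (fun p => va p * vb p < 0 ∧ |va p| < |vb p|) + δ := by
      apply mass_shift hw (shear N) hS
      rintro p ⟨hp, hb⟩
      rw [va_shear, vb_shear hb]
      rcases lt_trichotomy (va p) 0 with h | h | h
      · have h3 : 0 < vb p := by
          by_contra hcon
          push Not at hcon
          nlinarith only [hp, hcon, h]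
        refine ⟨by nlinarith only [hp, h], ?_⟩
        rw [abs_of_neg h, abs_of_pos (by linarith)]
        linarith
      · rw [h] at hp
        simp at hp
      · have h3 : vb p < 0 := by
          by_contra hcon
          push Not at hcon
          nlinarith only [hp, hcon, h]
        refine ⟨by nlinarith only [hp, h], ?_⟩
        rw [abs_of_pos h, abs_of_neg (by linarith)]
        linarith
    (clear η hR hfar hN hδ hfarb hβdef hβ hC1; linarith)
  -- disjointness
  have hsplit : ∀ P : ZMod N × ZMod N → Prop, mass w (fun p => P p ∧ |va p| < |vb p|)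
      + mass w (fun p => P p ∧ |vb p| ≤ |va p|) = mass w P := by
    intro P
    unfold mass
    rw [← Finset.sum_add_distrib]
    refine Finset.sum_congr rfl fun p _ => ?_
    by_cases hP : P p
    · rcases lt_or_ge |va p| |vb p| with h | h
      · simp [hP, h, not_le.2 h]
      · simp [hP, h, not_lt.2 h]
    · simp [hP]
  have hsC := hsplit (fun p => 0 < va p * vb p)
  have hsC' := hsplit (fun p => va p * vb p < 0)
  -- use the rotation
  have hC2 : mass w (fun p => 0 < va p * vb p ∧ |va p| < |vb p|)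
      ≤ mass w (fun p => va p * vb p < 0 ∧ |vb p| ≤ |va p|) + δ + β := by
    have h1 : mass w (fun p => 0 < va p * vb p ∧ |va p| < |vb p|)
        ≤ mass w (fun p => (0 < va p * vb p ∧ |va p| < |vb p|) ∧ InBox p) + β := by
      apply mass_le_add hw
      intro p hp
      by_cases h : InBox p
      · exact Or.inl ⟨hp, h⟩
      · exact Or.inr h
    have h2 : mass w (fun p => (0 < va p * vb p ∧ |va p| < |vb p|) ∧ InBox p)
        ≤ mass w (fun p => va p * vb p < 0 ∧ |vb p| ≤ |va p|) + δ := by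
      apply mass_shift hw (rot N) hR
      rintro p ⟨⟨hp, hlt⟩, hb⟩
      rw [va_rot, vb_rot hb.1]
      refine ⟨by nlinarith only [hp], ?_⟩
      rw [abs_neg]
      exact hlt.le
    (clear η hS hfar hN hδ hfarb hβdef hβ hC1 hC1' hsplit hsC hsC'; linarith)
  have hC2' : mass w (fun p => va p * vb p < 0 ∧ |va p| < |vb p|)
      ≤ mass w (fun p => 0 < va p * vb p ∧ |vb p| ≤ |va p|) + δ + β := by
    have h1 : mass w (fun p => va p * vb p < 0 ∧ |va p| < |vb p|)
        ≤ mass w (fun p => (va p * vb p < 0 ∧ |va p| < |vb p|) ∧ InBox p) + β := by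
      apply mass_le_add hw
      intro p hp
      by_cases h : InBox p
      · exact Or.inl ⟨hp, h⟩
      · exact Or.inr h
    have h2 : mass w (fun p => (va p * vb p < 0 ∧ |va p| < |vb p|) ∧ InBox p)
        ≤ mass w (fun p => 0 < va p * vb p ∧ |vb p| ≤ |va p|) + δ := by
      apply mass_shift hw (rot N) hR
      rintro p ⟨⟨hp, hlt⟩, hb⟩
      rw [va_rot, vb_rot hb.1]
      refine ⟨by nlinarith only [hp], ?_⟩
      rw [abs_neg]
      exact hlt.le
    (clear η hS hfar hN hδ hfarb hβdef hβ hC1 hC1' hsplit hsC hsC' hC2; linarith)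
  -- hence C and C' are small
  have hC : mass w (fun p => 0 < va p * vb p) ≤ 3 * δ + 3 * β := by linarith
  have hC' : mass w (fun p => va p * vb p < 0) ≤ 3 * δ + 3 * β := by (clear η hfar hN hδ hfarb hβdef hβ hsC' hC2 hC; linarith)
  -- axes
  have hX : mass w (fun p => vb p = 0 ∧ va p ≠ 0) ≤ 4 * δ + 4 * β := by
    have h1 : mass w (fun p => vb p = 0 ∧ va p ≠ 0)
        ≤ mass w (fun p => (vb p = 0 ∧ va p ≠ 0) ∧ InBox p) + β := by
      apply mass_le_add hw
      intro p hp
      by_cases h : InBox p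
      · exact Or.inl ⟨hp, h⟩
      · exact Or.inr h
    have h2 : mass w (fun p => (vb p = 0 ∧ va p ≠ 0) ∧ InBox p)
        ≤ mass w (fun p => 0 < va p * vb p) + δ := by
      apply mass_shift_symm hw (shear N) hS
      rintro p ⟨⟨hp, hne⟩, hb⟩
      rw [va_shear_symm, vb_shear_symm hb, hp]
      have : 0 < va p * va p := mul_self_pos.2 hne
      nlinarith only [this]
    (clear η hfar hN hδ hfarb hβdef hβ hsC hC2' hC hC'; linarith)
  have hY : mass w (fun p => va p = 0 ∧ vb p ≠ 0) ≤ 5 * δ + 4 * β := by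
    have h2 : mass w (fun p => va p = 0 ∧ vb p ≠ 0)
        ≤ mass w (fun p => vb p = 0 ∧ va p ≠ 0) + δ := by
      apply mass_shift hw (rot N) hR
      rintro p ⟨hp, hne⟩
      have h3 : 8 * |va p| < N := by
        rw [hp]
        simpa using hN
      rw [va_rot, vb_rot h3, hp]
      exact ⟨by simp, hne⟩
    (clear η hfar hδ hfarb hβdef hβ hsC hC2' hC hC'; linarith)
  -- total
  have htot : ∑ p, w p ≤ w (0, 0) + (mass w (fun p => 0 < va p * vb p)
      + mass w (fun p => va p * vb p < 0) + mass w (fun p => vb p = 0 ∧ va p ≠ 0)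
      + mass w (fun p => va p = 0 ∧ vb p ≠ 0)) := by
    have h0 : w (0, 0) = ∑ p : ZMod N × ZMod N, if p = (0, 0) then w p else 0 := by
      rw [Finset.sum_ite_eq' Finset.univ ((0, 0) : ZMod N × ZMod N) w]
      simp
    rw [h0]
    unfold mass
    rw [← Finset.sum_add_distrib, ← Finset.sum_add_distrib, ← Finset.sum_add_distrib,
      ← Finset.sum_add_distrib]
    refine Finset.sum_le_sum fun p _ => ?_
    have hwp := hw p
    rcases lt_trichotomy (va p * vb p) 0 with h | h | h
    · rw [if_pos h]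
      split_ifs <;> linarith only [hwp]
    · rcases mul_eq_zero.1 h with h1 | h1
      · by_cases h2 : vb p = 0
        · have h3 : p = (0, 0) := by
            apply Prod.ext
            · exact (ZMod.valMinAbs_eq_zero _).1 h1
            · exact (ZMod.valMinAbs_eq_zero _).1 h2
          rw [if_pos h3]
          split_ifs <;> linarith only [hwp]
        · rw [if_pos (show va p = 0 ∧ vb p ≠ 0 from ⟨h1, h2⟩)]
          split_ifs <;> linarith only [hwp]
      · by_cases h2 : va p = 0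
        · have h3 : p = (0, 0) := by
            apply Prod.ext
            · exact (ZMod.valMinAbs_eq_zero _).1 h2
            · exact (ZMod.valMinAbs_eq_zero _).1 h1
          rw [if_pos h3]
          split_ifs <;> linarith only [hwp]
        · rw [if_pos (show vb p = 0 ∧ va p ≠ 0 from ⟨h1, h2⟩)]
          split_ifs <;> linarith only [hwp]
    · rw [if_pos h]
      split_ifs <;> linarith only [hwp]
  linarith

end Pure

section Fourier

variable {N : ℕ} [NeZero N]

/-- the standard character -/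
noncomputable abbrev ec (a : ZMod N) : ℂ := ZMod.stdAddChar a

theorem ec_add (a b : ZMod N) : ec (a + b) = ec a * ec b := AddChar.map_add_eq_mul _ _ _

theorem ec_zero : ec (0 : ZMod N) = 1 := AddChar.map_zero_eq_one _

theorem ec_neg (a : ZMod N) : ec (-a) = conj (ec a) := AddChar.map_neg_eq_conj _ _

theorem norm_ec (a : ZMod N) : ‖ec a‖ = 1 := by
  rw [ec, ZMod.stdAddChar_apply]
  exact Circle.norm_coe _

theorem sum_ec_mul (b : ZMod N) : ∑ x : ZMod N, ec (x * b) = if b = 0 then (N : ℂ) else 0 := by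
  have h := AddChar.sum_mulShift b (ZMod.isPrimitive_stdAddChar N)
  rw [ZMod.card] at h
  rw [show (∑ x : ZMod N, ec (x * b)) = ∑ x : ZMod N, ZMod.stdAddChar (x * b) from rfl, h]
  split_ifs <;> simp

/-- Parseval on `ZMod N` -/
theorem parseval (g : ZMod N → ℂ) :
    ∑ b : ZMod N, ‖∑ k, ec (-(b * k)) * g k‖ ^ 2 = N * ∑ k, ‖g k‖ ^ 2 := by
  have h1 : ((∑ b : ZMod N, ‖∑ k, ec (-(b * k)) * g k‖ ^ 2 : ℝ) : ℂ)
      = ((N * ∑ k, ‖g k‖ ^ 2 : ℝ) : ℂ) := by
    push_cast
    have h2 : ∀ z : ℂ, ((‖z‖ : ℂ)) ^ 2 = z * conj z := fun z => (Complex.mul_conj' z).symm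
    simp only [h2]
    have h3 : ∀ b : ZMod N, (∑ k, ec (-(b * k)) * g k) * conj (∑ k, ec (-(b * k)) * g k)
        = ∑ k, ∑ l, (g k * conj (g l)) * ec (b * (l - k)) := by
      intro b
      rw [map_sum, Finset.sum_mul_sum]
      refine Finset.sum_congr rfl fun k _ => Finset.sum_congr rfl fun l _ => ?_
      rw [map_mul, ← ec_neg, neg_neg, mul_sub, sub_eq_add_neg, ec_add]
      ring
    rw [Finset.sum_congr rfl fun b _ => h3 b, Finset.sum_comm, Finset.mul_sum]
    refine Finset.sum_congr rfl fun k _ => ?_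
    rw [Finset.sum_comm]
    have h4 : ∀ l : ZMod N, ∑ b : ZMod N, g k * conj (g l) * ec (b * (l - k))
        = if l = k then g k * conj (g k) * N else 0 := by
      intro l
      rw [← Finset.mul_sum, sum_ec_mul]
      by_cases h : l = k
      · subst h
        simp
      · rw [if_neg (sub_ne_zero.2 h), if_neg h, mul_zero]
    rw [Finset.sum_congr rfl fun l _ => h4 l, Finset.sum_ite_eq' Finset.univ k]
    simp only [Finset.mem_univ, if_true]
    ring
  exact_mod_cast h1

theorem sum_abs_sq_sub_le {X : Type*} [Fintype X] (f g : X → ℂ) {ε : ℝ} (hε : 0 < ε) :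
    ∑ p, |‖g p‖ ^ 2 - ‖f p‖ ^ 2|
      ≤ (1 / ε) * ∑ p, ‖g p - f p‖ ^ 2 + (ε / 2) * (∑ p, ‖g p‖ ^ 2 + ∑ p, ‖f p‖ ^ 2) := by
  rw [← Finset.sum_add_distrib, Finset.mul_sum, Finset.mul_sum, ← Finset.sum_add_distrib]
  refine Finset.sum_le_sum fun p _ => ?_
  have h1 : |‖g p‖ ^ 2 - ‖f p‖ ^ 2| = |‖g p‖ - ‖f p‖| * (‖g p‖ + ‖f p‖) := by
    rw [show ‖g p‖ ^ 2 - ‖f p‖ ^ 2 = (‖g p‖ - ‖f p‖) * (‖g p‖ + ‖f p‖) by ring, abs_mul,
      abs_of_nonneg (a := ‖g p‖ + ‖f p‖) (by positivity)]
  have h2 : |‖g p‖ - ‖f p‖| ≤ ‖g p - f p‖ := abs_norm_sub_norm_le _ _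
  have h3 : |‖g p‖ - ‖f p‖| * (‖g p‖ + ‖f p‖) ≤ ‖g p - f p‖ * (‖g p‖ + ‖f p‖) := by gcongr
  rw [h1]
  refine h3.trans ?_
  set a := ‖g p - f p‖
  set b := ‖g p‖
  set c := ‖f p‖
  have h4 : a * (b + c) ≤ (1 / ε) * a ^ 2 + (ε / 4) * (b + c) ^ 2 := by
    have h5 : 0 ≤ (1 / ε) * (a - (ε / 2) * (b + c)) ^ 2 := by positivity
    have h6 : (1 / ε) * (a - (ε / 2) * (b + c)) ^ 2
        = (1 / ε) * a ^ 2 - a * (b + c) + (ε / 4) * (b + c) ^ 2 := by
      field_simp
      ring
    linarith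
  have h7 : (ε / 4) * (b + c) ^ 2 ≤ (ε / 2) * (b ^ 2 + c ^ 2) := by
    nlinarith only [mul_nonneg hε.le (sq_nonneg (b - c))]
  linarith

/-- characters are far from `1` away from `0` -/
theorem norm_ec_sub_one (a : ZMod N) : 4 * |(a.valMinAbs : ℝ)| / N ≤ ‖ec a - 1‖ := by
  have hN : (0 : ℝ) < N := by
    have := NeZero.pos N
    exact_mod_cast this
  have h1 : ec a = Complex.exp (Complex.I * ((2 * Real.pi * (a.valMinAbs : ℝ) / N : ℝ) : ℂ)) := by
    conv_lhs => rw [← ZMod.coe_valMinAbs a]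
    rw [ec, ZMod.stdAddChar_coe]
    congr 1
    push_cast
    ring
  rw [h1, Complex.norm_exp_I_mul_ofReal_sub_one]
  set t : ℝ := (a.valMinAbs : ℝ) with ht
  have hle : 2 * |t| ≤ N := by
    have h2 := ZMod.valMinAbs_mem_Ioc a
    have h3 : |a.valMinAbs| * 2 ≤ N := by
      rcases abs_cases a.valMinAbs with ⟨h4, _⟩ | ⟨h4, _⟩
      · rw [h4]; exact h2.2
      · rw [h4]; have := h2.1; linarith only [this]
    have h5 : ((|a.valMinAbs| * 2 : ℤ) : ℝ) ≤ ((N : ℤ) : ℝ) := by exact_mod_cast h3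
    push_cast at h5
    rw [ht]
    linarith only [h5]
  have hx0 : 0 ≤ Real.pi * |t| / N := by (clear * - hN; positivity)
  have hx1 : Real.pi * |t| / N ≤ Real.pi / 2 := by
    rw [div_le_div_iff₀ hN (by norm_num)]
    nlinarith only [hle, Real.pi_pos]
  have h6 := Real.mul_le_sin hx0 hx1
  have h7 : 2 / Real.pi * (Real.pi * |t| / N) = 2 * |t| / N := by
    field_simp
  rw [h7] at h6
  have h8 : |Real.sin (2 * Real.pi * t / N / 2)| = Real.sin (Real.pi * |t| / N) := by
    have h9 : 0 ≤ Real.sin (Real.pi * |t| / N) :=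
      Real.sin_nonneg_of_nonneg_of_le_pi hx0 (by linarith only [hx0, hx1])
    rcases abs_cases t with ⟨h10, _⟩ | ⟨h10, _⟩
    · rw [h10] at h9 ⊢
      rw [show 2 * Real.pi * t / N / 2 = Real.pi * t / N by ring, abs_of_nonneg h9]
    · rw [h10] at h9 ⊢
      rw [show 2 * Real.pi * t / N / 2 = -(Real.pi * (-t) / N) by ring, Real.sin_neg, abs_neg,
        abs_of_nonneg h9]
  rw [norm_mul, Real.norm_eq_abs, Real.norm_eq_abs, h8]
  rw [abs_of_pos (by norm_num : (0:ℝ) < 2)]
  have : 4 * |t| / N = 2 * (2 * |t| / N) := by ring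
  rw [this]
  linarith only [h6]

/-- Fourier coefficients on the torus. -/
noncomputable def fh (f : ZMod N × ZMod N → ℂ) (p : ZMod N × ZMod N) : ℂ :=
  ∑ q : ZMod N × ZMod N, ec (-(p.1 * q.1 + p.2 * q.2)) * f q

theorem fh_sub (f g : ZMod N × ZMod N → ℂ) (p : ZMod N × ZMod N) :
    fh (fun q => f q - g q) p = fh f p - fh g p := by
  unfold fh
  rw [← Finset.sum_sub_distrib]
  exact Finset.sum_congr rfl fun q _ => by ring

theorem fh_zero (f : ZMod N × ZMod N → ℂ) : fh f (0, 0) = ∑ q, f q := by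
  unfold fh
  refine Finset.sum_congr rfl fun q _ => ?_
  simp

/-- Parseval on the torus. -/
theorem sum_fh (f : ZMod N × ZMod N → ℂ) :
    ∑ p, ‖fh f p‖ ^ 2 = (N : ℝ) ^ 2 * ∑ q, ‖f q‖ ^ 2 := by
  have h1 : ∀ a b : ZMod N, fh f (a, b) =
      ∑ x : ZMod N, ec (-(a * x)) * ∑ y : ZMod N, ec (-(b * y)) * f (x, y) := by
    intro a b
    unfold fh
    rw [Fintype.sum_prod_type]
    refine Finset.sum_congr rfl fun x _ => ?_
    rw [Finset.mul_sum]
    refine Finset.sum_congr rfl fun y _ => ?_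
    rw [← mul_assoc, ← ec_add, neg_add]
  rw [Fintype.sum_prod_type, Finset.sum_comm]
  simp only [h1]
  have h2 : ∀ b : ZMod N, ∑ a : ZMod N, ‖∑ x : ZMod N, ec (-(a * x)) *
      ∑ y : ZMod N, ec (-(b * y)) * f (x, y)‖ ^ 2 =
      N * ∑ x : ZMod N, ‖∑ y : ZMod N, ec (-(b * y)) * f (x, y)‖ ^ 2 := fun b =>
    parseval (fun x => ∑ y : ZMod N, ec (-(b * y)) * f (x, y))
  rw [Finset.sum_congr rfl fun b _ => h2 b, ← Finset.mul_sum, Finset.sum_comm]
  have h3 : ∀ x : ZMod N, ∑ b : ZMod N, ‖∑ y : ZMod N, ec (-(b * y)) * f (x, y)‖ ^ 2 =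
      N * ∑ y : ZMod N, ‖f (x, y)‖ ^ 2 := fun x => parseval (fun y => f (x, y))
  rw [Finset.sum_congr rfl fun x _ => h3 x, ← Finset.mul_sum, Fintype.sum_prod_type]
  ring

/-- the translation `(x, y) ↦ (x + 1, y)` -/
def gT (N : ℕ) : ZMod N × ZMod N ≃ ZMod N × ZMod N where
  toFun p := (p.1 + 1, p.2)
  invFun p := (p.1 - 1, p.2)
  left_inv p := by simp
  right_inv p := by simp

/-- the shear `(x, y) ↦ (x + 2 y, y)` -/
def gS (N : ℕ) : ZMod N × ZMod N ≃ ZMod N × ZMod N where
  toFun p := (p.1 + 2 * p.2, p.2)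
  invFun p := (p.1 - 2 * p.2, p.2)
  left_inv p := by simp
  right_inv p := by simp

theorem fh_T (f : ZMod N × ZMod N → ℂ) (p : ZMod N × ZMod N) :
    fh (fun q => f (gT N q)) p = ec p.1 * fh f p := by
  unfold fh
  rw [Finset.mul_sum, ← Equiv.sum_comp (gT N)
    (fun q => ec p.1 * (ec (-(p.1 * q.1 + p.2 * q.2)) * f q))]
  refine Finset.sum_congr rfl fun q _ => ?_
  rw [← mul_assoc, ← ec_add]
  congr 2
  simp only [gT, Equiv.coe_fn_mk]
  ring

theorem fh_S (f : ZMod N × ZMod N → ℂ) (p : ZMod N × ZMod N) :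
    fh (fun q => f (gS N q)) p = fh f (shear N p) := by
  unfold fh
  rw [← Equiv.sum_comp (gS N)
    (fun q => ec (-((shear N p).1 * q.1 + (shear N p).2 * q.2)) * f q)]
  refine Finset.sum_congr rfl fun q _ => ?_
  congr 2
  simp only [gS, shear, Equiv.coe_fn_mk]
  ring

theorem fh_R (f : ZMod N × ZMod N → ℂ) (p : ZMod N × ZMod N) :
    fh (fun q => f (rot N q)) p = fh f (rot N p) := by
  unfold fh
  rw [← Equiv.sum_comp (rot N)
    (fun q => ec (-((rot N p).1 * q.1 + (rot N p).2 * q.2)) * f q)]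
  refine Finset.sum_congr rfl fun q _ => ?_
  congr 2
  simp only [rot, Equiv.coe_fn_mk]
  ring

/-- The spectral gap for functions with sum zero. -/
theorem gap (f : ZMod N × ZMod N → ℂ) (hf : ∑ q, f q = 0) :
    (∑ q, ‖f q‖ ^ 2) / 10000 ≤ ∑ q, ‖f (gT N q) - f q‖ ^ 2 + ∑ q, ‖f (gS N q) - f q‖ ^ 2
      + ∑ q, ‖f (rot N q) - f q‖ ^ 2 := by
  by_contra hcon
  push Not at hcon
  have hN : (0 : ℝ) < N := by
    have := NeZero.pos N
    exact_mod_cast this
  have hN2 : (0 : ℝ) < (N : ℝ) ^ 2 := by positivity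
  set M : ℝ := (N : ℝ) ^ 2 with hM
  set H : ℝ := ∑ q, ‖f q‖ ^ 2 with hH
  set eT : ℝ := ∑ q, ‖f (gT N q) - f q‖ ^ 2 with heT
  set eS : ℝ := ∑ q, ‖f (gS N q) - f q‖ ^ 2 with heS
  set eR : ℝ := ∑ q, ‖f (rot N q) - f q‖ ^ 2 with heR
  have hT0 : 0 ≤ eT := Finset.sum_nonneg fun _ _ => sq_nonneg _
  have hS0 : 0 ≤ eS := Finset.sum_nonneg fun _ _ => sq_nonneg _
  have hR0 : 0 ≤ eR := Finset.sum_nonneg fun _ _ => sq_nonneg _
  have hHpos : 0 < H := by linarith only [hcon, hT0, hS0, hR0]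
  have hT : M * eT ≤ M * (H / 10000) :=
    mul_le_mul_of_nonneg_left (by linarith only [hcon, hT0, hS0, hR0]) hN2.le
  have hS : M * eS ≤ M * (H / 10000) :=
    mul_le_mul_of_nonneg_left (by linarith only [hcon, hT0, hS0, hR0]) hN2.le
  have hR : M * eR ≤ M * (H / 10000) :=
    mul_le_mul_of_nonneg_left (by linarith only [hcon, hT0, hS0, hR0]) hN2.le
  have hw0 : ∀ p, 0 ≤ ‖fh f p‖ ^ 2 := fun p => sq_nonneg _
  have hsum : ∑ p, ‖fh f p‖ ^ 2 = M * H := sum_fh f
  have key : ∀ (g : ZMod N × ZMod N ≃ ZMod N × ZMod N) (g' : ZMod N × ZMod N ≃ ZMod N × ZMod N),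
      (∀ p, fh (fun q => f (g q)) p = fh f (g' p)) →
      M * ∑ q, ‖f (g q) - f q‖ ^ 2 ≤ M * (H / 10000) →
      ∑ p, |‖fh f (g' p)‖ ^ 2 - ‖fh f p‖ ^ 2| ≤ M * H / 50 := by
    intro g g' hg hb
    have h1 := sum_abs_sq_sub_le (fh f) (fun p => fh f (g' p)) (ε := 1 / 100) (by norm_num)
    have h2 : ∑ p, ‖fh f (g' p) - fh f p‖ ^ 2 = M * ∑ q, ‖f (g q) - f q‖ ^ 2 := by
      rw [← sum_fh (fun q => f (g q) - f q)]
      exact Finset.sum_congr rfl fun p _ => by rw [fh_sub, hg]
    rw [h2, Equiv.sum_comp g' (fun p => ‖fh f p‖ ^ 2), hsum] at h1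
    linarith only [h1, hb]
  have hS' := key (gS N) (shear N) (fh_S f) hS
  have hR' := key (rot N) (rot N) (fh_R f) hR
  have hfar : mass (fun p => ‖fh f p‖ ^ 2) (fun p => (N : ℤ) ≤ 8 * |va p|) ≤ M * H / 2500 := by
    have h2 : ∑ p, ‖ec p.1 * fh f p - fh f p‖ ^ 2 = M * eT := by
      rw [heT, ← sum_fh (fun q => f (gT N q) - f q)]
      exact Finset.sum_congr rfl fun p _ => by rw [fh_sub, fh_T]
    have h3 : mass (fun p => ‖fh f p‖ ^ 2) (fun p => (N : ℤ) ≤ 8 * |va p|)
        ≤ 4 * ∑ p, ‖ec p.1 * fh f p - fh f p‖ ^ 2 := by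
      unfold mass
      rw [Finset.mul_sum]
      refine Finset.sum_le_sum fun p _ => ?_
      split_ifs with h
      · rw [show ec p.1 * fh f p - fh f p = (ec p.1 - 1) * fh f p by ring, norm_mul, mul_pow]
        have h4 := norm_ec_sub_one p.1
        have h5 : (1 : ℝ) / 2 ≤ 4 * |(p.1.valMinAbs : ℝ)| / N := by
          rw [div_le_div_iff₀ (by norm_num) hN]
          have h6 : ((N : ℤ) : ℝ) ≤ ((8 * |va p| : ℤ) : ℝ) := by exact_mod_cast h
          unfold va at h6
          push_cast at h6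
          linarith only [h6]
        have h7 : (1 : ℝ) / 4 ≤ ‖ec p.1 - 1‖ ^ 2 := by nlinarith only [h4, h5]
        have h8 := hw0 p
        nlinarith only [h7, h8]
      · positivity
    rw [h2] at h3
    linarith only [h3, hT]
  have hcore := core (w := fun p => ‖fh f p‖ ^ 2) hw0 hS' hR' hfar
  rw [hsum, fh_zero, hf] at hcore
  have hNH : 0 < M * H := mul_pos hN2 hHpos
  simp only [norm_zero, ne_eq, OfNat.ofNat_ne_zero, not_false_eq_true, zero_pow] at hcore
  linarith only [hcore, hNH]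

/-- The variance identity. -/
theorem sum_sum_sq_sub {X : Type*} [Fintype X] (f : X → ℝ) (hf : ∑ x, f x = 0) :
    ∑ x, ∑ y, (f x - f y) ^ 2 = 2 * Fintype.card X * ∑ x, f x ^ 2 := by
  have h1 : ∀ x, ∑ y, (f x - f y) ^ 2 = Fintype.card X * f x ^ 2 + ∑ y, f y ^ 2 := by
    intro x
    have h2 : ∀ y, (f x - f y) ^ 2 = f x ^ 2 + f y ^ 2 - 2 * f x * f y := fun y => by ring
    simp only [h2, Finset.sum_sub_distrib, Finset.sum_add_distrib, ← Finset.mul_sum, hf,
      Finset.sum_const, Finset.card_univ, nsmul_eq_mul]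
    ring
  simp only [h1, Finset.sum_add_distrib, ← Finset.mul_sum, Finset.sum_const, Finset.card_univ,
    nsmul_eq_mul]
  ring

/-- **Poincare inequality** on the torus. -/
theorem poincare (f : ZMod N × ZMod N → ℝ) :
    ∑ p, ∑ q, (f p - f q) ^ 2 ≤ 20000 * (N : ℝ) ^ 2 *
      (∑ q, (f q - f (gT N q)) ^ 2 + ∑ q, (f q - f (gS N q)) ^ 2
        + ∑ q, (f q - f (rot N q)) ^ 2) := by
  have hN : (0 : ℝ) < N := by
    have := NeZero.pos N
    exact_mod_cast this
  have hc : (Fintype.card (ZMod N × ZMod N) : ℝ) = (N : ℝ) ^ 2 := by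
    rw [Fintype.card_prod, ZMod.card]
    push_cast
    ring
  set μ : ℝ := (∑ q, f q) / (N : ℝ) ^ 2 with hμ
  have h0 : ∑ q, (f q - μ) = 0 := by
    rw [Finset.sum_sub_distrib, Finset.sum_const, Finset.card_univ, nsmul_eq_mul, hc, hμ]
    field_simp
    ring
  have h1 := sum_sum_sq_sub (fun q => f q - μ) h0
  have h2 := gap (fun q => ((f q - μ : ℝ) : ℂ)) (by rw [← Complex.ofReal_sum, h0]; simp)
  have h3 : ∀ a b : ℝ, ‖((a - μ : ℝ) : ℂ) - ((b - μ : ℝ) : ℂ)‖ ^ 2 = (b - a) ^ 2 := by
    intro a b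
    rw [← Complex.ofReal_sub, Complex.norm_real, Real.norm_eq_abs, sq_abs]
    ring
  have h4 : ∀ a : ℝ, ‖((a - μ : ℝ) : ℂ)‖ ^ 2 = (a - μ) ^ 2 := by
    intro a
    rw [Complex.norm_real, Real.norm_eq_abs, sq_abs]
  simp only [h3, h4] at h2
  have h5 : ∀ a b : ℝ, (a - μ - (b - μ)) = a - b := fun a b => by ring
  simp only [h5] at h1
  rw [h1, hc]
  have h6 : (0 : ℝ) ≤ (N : ℝ) ^ 2 := by positivity
  nlinarith only [h2, h6]

end Fourier

end Vale.Agent.Lib.PCP.MGG
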