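import Vale.Agent.Lib.PCP.Defs
import Vale.Agent.Lib.PCP.ExpCore

/-!
An explicit family of expanders on `range n` for every `n`: the Margulis-Gabber-Galil graph on the
first `m²` vertices (`m` the integer square root of `n`) together with two involutions which match
the vertices `x ≥ m²` with `x % m²`.
-/

namespace Vale.Agent.Lib.PCP

open Vale.Agent.Lib.PolyTime Finset
open scoped BigOperators

/-! ### The integer square root in polynomial time -/

section Sqrt

open Function

variable {A : Set Word} {α : Type*} [Enc α]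

/-- Step of the binary search for the square root. -/
def sqrtStep (n : ℕ) (p : ℕ × ℕ) : ℕ × ℕ :=
  (if (p.1 + p.2) * (p.1 + p.2) ≤ n then p.1 + p.2 else p.1, p.2 / 2)

theorem sqrtStep_iterate (n : ℕ) (m : ℕ) (hm : n < 2 ^ m * 2 ^ m) (j : ℕ) (hj : j ≤ m) :
    ∃ r, (sqrtStep n)^[j] (0, 2 ^ m / 2) = (r, 2 ^ (m - j) / 2) ∧ r * r ≤ n ∧
      n < (r + 2 ^ (m - j)) * (r + 2 ^ (m - j)) := by
  induction j with
  | zero => exact ⟨0, by simp, by simp, by simpa using hm⟩
  | succ j ih =>
    obtain ⟨r, e, h1, h2⟩ := ih (by omega)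
    rw [iterate_succ_apply', e]
    obtain ⟨k, hk⟩ : ∃ k, m - j = k + 1 := ⟨m - j - 1, by omega⟩
    have hk' : m - (j + 1) = k := by omega
    rw [hk] at h2
    rw [hk, hk']
    have e2 : 2 ^ (k + 1) / 2 = 2 ^ k := by rw [pow_succ]; simp
    rw [e2]
    simp only [sqrtStep]
    by_cases h : (r + 2 ^ k) * (r + 2 ^ k) ≤ n
    · refine ⟨r + 2 ^ k, by rw [if_pos h], h, ?_⟩
      have : r + 2 ^ k + 2 ^ k = r + 2 ^ (k + 1) := by rw [pow_succ]; ring
      rw [this]
      exact h2
    · exact ⟨r, by rw [if_neg h], h1, not_le.1 h⟩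

/-- The integer square root is computable in polynomial time. -/
theorem pt_sqrt {f : α → ℕ} (hf : PT A f) : PT A (fun a => Nat.sqrt (f a)) := by
  have hs : PT A (fun a => Nat.size (f a)) := hf.natSize
  have hsb : PBd (fun a => Nat.size (f a)) := hf.pbd.mono fun a => by rw [esize_nat]
  have hst : PT A (fun p : α × ℕ × ℕ => sqrtStep (f p.1) p.2) := by
    have h1 : PT A (fun p : α × ℕ × ℕ => p.2.1 + p.2.2) := by fun_prop
    have h0 : PT A (fun p : α × ℕ × ℕ => f p.1) := hf.comp PT.fst'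
    exact (PT.ite ((h1.mul h1).le h0) h1 (PT.snd'.fst)).pair (PT.snd'.snd.div (PT.const 2))
  have hi : PT A (fun a => ((0 : ℕ), 2 ^ Nat.size (f a) / 2)) :=
    (PT.const 0).pair ((PT.pow (PT.const 2) hs hsb).div (PT.const 2))
  have hn : ∀ a, f a < 2 ^ Nat.size (f a) * 2 ^ Nat.size (f a) := fun a => by
    have h1 := Nat.lt_size_self (f a)
    have h2 : 1 ≤ 2 ^ Nat.size (f a) := Nat.one_le_two_pow
    nlinarith
  have key := PT.iterate' (step := fun a p => sqrtStep (f a) p) hs hsb hi hst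
    (b := fun a => 2 * PolyTime.esize (f a) + (Nat.size (f a) + 1) + 1)
    (by have := hf.pbd; fun_prop) (fun a j hj => by
      obtain ⟨r, e, h1, h2⟩ := sqrtStep_iterate (f a) _ (hn a) j hj
      rw [e, esize_pair]
      have h3 : PolyTime.esize r ≤ PolyTime.esize (f a) := esize_nat_mono (by nlinarith)
      have h4 : PolyTime.esize (2 ^ (Nat.size (f a) - j) / 2) ≤ Nat.size (f a) + 1 :=
        esize_nat_le ((Nat.div_le_self _ _).trans_lt
          (Nat.pow_lt_pow_right (by norm_num) (by omega)))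
      omega)
  refine key.fst.congr fun a => ?_
  obtain ⟨r, e, h1, h2⟩ := sqrtStep_iterate (f a) _ (hn a) (Nat.size (f a)) le_rfl
  rw [e]
  simp only [Nat.sub_self, pow_zero] at h2
  exact Nat.eq_sqrt.2 ⟨h1, h2⟩

end Sqrt

namespace MGG

/-! ### The torus as `range (m * m)` -/

section Torus

variable {m : ℕ} [NeZero m]

/-- number of a point of the torus -/
def enT (p : ZMod m × ZMod m) : ℕ := p.1.val * m + p.2.val

/-- point of the torus with a given number -/
def deT (m : ℕ) (v : ℕ) : ZMod m × ZMod m := (((v / m : ℕ) : ZMod m), ((v % m : ℕ) : ZMod m))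

theorem enT_lt (p : ZMod m × ZMod m) : enT p < m * m := by
  have h1 := ZMod.val_lt p.1
  have h2 := ZMod.val_lt p.2
  unfold enT
  nlinarith

theorem deT_enT (p : ZMod m × ZMod m) : deT m (enT p) = p := by
  have h2 := ZMod.val_lt p.2
  have h0 : 0 < m := NeZero.pos m
  have e1 : enT p / m = p.1.val := by
    unfold enT
    rw [mul_comm, Nat.mul_add_div h0, Nat.div_eq_of_lt h2, add_zero]
  have e2 : enT p % m = p.2.val := by
    unfold enT
    rw [mul_comm, Nat.mul_add_mod, Nat.mod_eq_of_lt h2]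
  unfold deT
  rw [e1, e2, ZMod.natCast_zmod_val, ZMod.natCast_zmod_val]

theorem enT_deT {v : ℕ} (hv : v < m * m) : enT (deT m v) = v := by
  have h0 : 0 < m := NeZero.pos m
  unfold enT deT
  simp only [ZMod.val_natCast]
  rw [Nat.mod_eq_of_lt (Nat.div_lt_of_lt_mul hv), Nat.mod_mod, Nat.div_add_mod']

theorem sum_range_torus (F : ℕ → ℝ) :
    ∑ v ∈ range (m * m), F v = ∑ p : ZMod m × ZMod m, F (enT p) := by
  refine Finset.sum_nbij' (deT m) enT (fun _ _ => mem_univ _)
    (fun p _ => mem_range.2 (enT_lt p)) (fun v hv => enT_deT (mem_range.1 hv))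
    (fun p _ => deT_enT p) (fun v hv => ?_)
  rw [enT_deT (mem_range.1 hv)]

/-- the generators of the graph on the torus -/
def gen (m : ℕ) : Fin 3 → (ZMod m × ZMod m ≃ ZMod m × ZMod m)
  | 0 => gT m
  | 1 => gS m
  | 2 => rot m

/-- the generators and their inverses -/
def genB (m : ℕ) (k : Fin 3) : Bool → ZMod m × ZMod m → ZMod m × ZMod m
  | true => gen m k
  | false => (gen m k).symm

omit [NeZero m] in
theorem genB_not (k : Fin 3) (b : Bool) (p : ZMod m × ZMod m) :
    genB m k (!b) (genB m k b p) = p := by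
  cases b <;> simp [genB]

/-- first coordinate of the generators, not reduced -/
def c1 : Fin 3 → Bool → ℕ → ℕ → ℕ → ℕ
  | 0, true => fun _ x _ => x + 1
  | 0, false => fun m x _ => x + (m - 1)
  | 1, true => fun _ x y => x + 2 * y
  | 1, false => fun m x y => x + 2 * ((m - 1) * y)
  | 2, true => fun _ _ y => y
  | 2, false => fun m _ y => (m - 1) * y

/-- second coordinate of the generators, not reduced -/
def c2 : Fin 3 → Bool → ℕ → ℕ → ℕ → ℕ
  | 0, _ => fun _ _ y => y
  | 1, _ => fun _ _ y => y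
  | 2, true => fun m x _ => (m - 1) * x
  | 2, false => fun _ x _ => x

/-- the generators acting on numbers -/
def mg (k : Fin 3) (b : Bool) (m v : ℕ) : ℕ :=
  c1 k b m (v / m) (v % m) % m * m + c2 k b m (v / m) (v % m) % m

theorem cast_pred : ((m - 1 : ℕ) : ZMod m) = -1 := by
  have h0 : 1 ≤ m := NeZero.pos m
  rw [Nat.cast_sub h0]
  simp

theorem mg_eq (k : Fin 3) (b : Bool) (v : ℕ) : mg k b m v = enT (genB m k b (deT m v)) := by
  have h1 : ((c1 k b m (v / m) (v % m) : ℕ) : ZMod m) = (genB m k b (deT m v)).1 := by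
    fin_cases k <;> cases b <;>
      simp [c1, genB, gen, gT, gS, rot, deT, cast_pred, sub_eq_add_neg]
  have h2 : ((c2 k b m (v / m) (v % m) : ℕ) : ZMod m) = (genB m k b (deT m v)).2 := by
    fin_cases k <;> cases b <;>
      simp [c2, genB, gen, gT, gS, rot, deT, cast_pred]
  unfold mg enT
  rw [← h1, ← h2, ZMod.val_natCast, ZMod.val_natCast]

theorem mg_lt (k : Fin 3) (b : Bool) (v : ℕ) : mg k b m v < m * m := by
  rw [mg_eq]
  exact enT_lt _

theorem mg_mg (k : Fin 3) (b : Bool) {v : ℕ} (hv : v < m * m) : mg k (!b) m (mg k b m v) = v := by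
  rw [mg_eq, mg_eq, deT_enT, genB_not, enT_deT hv]

/-- Poincare inequality on `range (m * m)`. -/
theorem poincare_range (f : ℕ → ℝ) :
    ∑ x ∈ range (m * m), ∑ y ∈ range (m * m), (f x - f y) ^ 2 ≤
      20000 * ((m * m : ℕ) : ℝ) * ∑ x ∈ range (m * m), ∑ k : Fin 3, (f x - f (mg k true m x)) ^ 2 := by
  have h := poincare (N := m) (fun p => f (enT p))
  simp only [sum_range_torus, mg_eq, deT_enT, Fin.sum_univ_three, Finset.sum_add_distrib]
  push_cast
  rw [← pow_two]
  exact h

end Torus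

theorem pt_mg (k : Fin 3) (b : Bool) : PT ∅ fun p : ℕ × ℕ => mg k b p.1 p.2 := by
  unfold mg
  fin_cases k <;> cases b <;> simp only [c1, c2] <;> fun_prop

/-! ### All numbers of vertices -/

/-- the involution which exchanges `x < M` and `x + s` -/
def sw (n M s v : ℕ) : ℕ :=
  if v < M then (if v + s < n then v + s else v) else
    if s ≤ v then (if v < s + M then v - s else v) else v

theorem sw_lt {n M s v : ℕ} (hv : v < n) : sw n M s v < n := by
  unfold sw
  split_ifs <;> omega

theorem sw_sw {n M s v : ℕ} (hs : M ≤ s) (hv : v < n) : sw n M s (sw n M s v) = v := by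
  unfold sw
  split_ifs <;> omega

/-- the generators on `range n`, where `m` is the side of the torus -/
def exm (n m : ℕ) (i : (Fin 3 ⊕ Bool) × Bool) (v : ℕ) : ℕ :=
  match i.1 with
  | Sum.inl k => if v < m * m then mg k i.2 m v else v
  | Sum.inr false => sw n (m * m) (m * m) v
  | Sum.inr true => sw n (m * m) (2 * (m * m)) v

theorem exm_schreier {n m : ℕ} (h : m * m ≤ n) : Schreier n (exm n m) where
  lt i v hv := by
    obtain ⟨k | c, b⟩ := i
    · simp only [exm]
      split_ifs with h1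
      · have : NeZero m := ⟨by rintro rfl; simp at h1⟩
        exact (mg_lt k b v).trans_le h
      · exact hv
    · cases c <;> exact sw_lt hv
  inv i v hv := by
    obtain ⟨k | c, b⟩ := i
    · simp only [exm, rev]
      by_cases h1 : v < m * m
      · have : NeZero m := ⟨by rintro rfl; simp at h1⟩
        rw [if_pos h1, if_pos (mg_lt k b v), mg_mg k b h1]
      · rw [if_neg h1, if_neg h1]
    · cases c
      · exact sw_sw le_rfl hv
      · exact sw_sw (by omega) hv

theorem sum_mod_le {n M : ℕ} (h : n ≤ 3 * M) {g : ℕ → ℝ} (hg : ∀ x, 0 ≤ g x) :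
    ∑ x ∈ range n, g (x % M) ≤ 3 * ∑ x ∈ range M, g x := by
  have h1 : ∑ x ∈ range n, g (x % M) ≤ ∑ x ∈ range (M + M + M), g (x % M) :=
    Finset.sum_le_sum_of_subset_of_nonneg (Finset.range_mono (by omega)) fun _ _ _ => hg _
  rw [Finset.sum_range_add, Finset.sum_range_add] at h1
  have h2 : ∑ x ∈ range M, g (x % M) = ∑ x ∈ range M, g x :=
    Finset.sum_congr rfl fun x hx => by rw [Nat.mod_eq_of_lt (mem_range.1 hx)]
  simp only [add_assoc, Nat.add_mod_left, h2] at h1
  linarith

theorem exm_poinc {n m : ℕ} (h : m * m ≤ n) (h3 : n ≤ 3 * (m * m)) :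
    Poinc (1 / 540000) n (exm n m) := by
  intro f
  rcases Nat.eq_zero_or_pos n with rfl | hn
  · simp
  have : NeZero m := ⟨by rintro rfl; omega⟩
  set M := m * m with hM
  -- the energies
  set a : ℕ → ℝ := fun x => ∑ k : Fin 3, (f x - f (exm n m (Sum.inl k, true) x)) ^ 2 with ha
  set b : ℕ → ℝ := fun x => (f x - f (sw n M M x)) ^ 2 + (f x - f (sw n M (2 * M) x)) ^ 2 with hb
  have ha0 : ∀ x, 0 ≤ a x := fun x => Finset.sum_nonneg fun _ _ => sq_nonneg _
  have hb0 : ∀ x, 0 ≤ b x := fun x => add_nonneg (sq_nonneg _) (sq_nonneg _)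
  have hE : ∀ x, a x + b x ≤ ∑ i, (f x - f (exm n m i x)) ^ 2 := by
    intro x
    rw [Fintype.sum_prod_type, Fintype.sum_sum_type]
    refine add_le_add (Finset.sum_le_sum fun k _ => ?_) ?_
    · rw [Fintype.sum_bool]
      exact le_add_of_nonneg_right (sq_nonneg _)
    · simp only [Fintype.sum_bool, exm, hb]
      nlinarith [sq_nonneg (f x - f (sw n M M x)), sq_nonneg (f x - f (sw n M (2 * M) x))]
  have hmod : ∀ x < n, (f x - f (x % M)) ^ 2 ≤ b x := by
    intro x hx
    have hb1 := sq_nonneg (f x - f (sw n M M x))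
    have hb2 := sq_nonneg (f x - f (sw n M (2 * M) x))
    by_cases h1 : x < M
    · rw [Nat.mod_eq_of_lt h1, sub_self]
      simpa using hb0 x
    by_cases h2 : x < M + M
    · have e1 : x % M = x - M := by
        rw [Nat.mod_eq_sub_mod (by omega), Nat.mod_eq_of_lt (by omega)]
      have e2 : sw n M M x = x - M := by
        unfold sw
        split_ifs <;> omega
      simp only [hb]
      rw [e1, ← e2]
      linarith
    · have e1 : x % M = x - 2 * M := by
        rw [Nat.mod_eq_sub_mod (by omega), Nat.mod_eq_sub_mod (by omega),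
          Nat.mod_eq_of_lt (by omega)]
        omega
      have e2 : sw n M (2 * M) x = x - 2 * M := by
        unfold sw
        split_ifs <;> omega
      simp only [hb]
      rw [e1, ← e2]
      linarith
  have hA : ∑ x ∈ range M, ∑ y ∈ range M, (f x - f y) ^ 2 ≤
      20000 * n * ∑ x ∈ range n, a x := by
    refine (poincare_range (m := m) f).trans ?_
    have h1 : ∑ x ∈ range M, ∑ k : Fin 3, (f x - f (mg k true m x)) ^ 2 = ∑ x ∈ range M, a x :=
      Finset.sum_congr rfl fun x hx => Finset.sum_congr rfl fun k _ => by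
        simp only [exm]
        rw [if_pos (mem_range.1 hx)]
    rw [h1]
    have h2 : ∑ x ∈ range M, a x ≤ ∑ x ∈ range n, a x :=
      Finset.sum_le_sum_of_subset_of_nonneg (Finset.range_mono h) fun _ _ _ => ha0 _
    have h4 : ((m * m : ℕ) : ℝ) ≤ n := by exact_mod_cast h
    have h5 : 0 ≤ ∑ x ∈ range M, a x := Finset.sum_nonneg fun _ _ => ha0 _
    gcongr
  have hB : ∑ x ∈ range n, ∑ y ∈ range n, (f (x % M) - f (y % M)) ^ 2 ≤
      9 * ∑ x ∈ range M, ∑ y ∈ range M, (f x - f y) ^ 2 := by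
    have h1 : ∀ x, ∑ y ∈ range n, (f x - f (y % M)) ^ 2 ≤ 3 * ∑ y ∈ range M, (f x - f y) ^ 2 :=
      fun x => sum_mod_le h3 (g := fun y => (f x - f y) ^ 2) fun _ => sq_nonneg _
    have h2 := sum_mod_le h3 (g := fun x => ∑ y ∈ range M, (f x - f y) ^ 2)
      fun _ => Finset.sum_nonneg fun _ _ => sq_nonneg _
    have h4 := Finset.sum_le_sum (s := range n) fun x _ => h1 (x % M)
    rw [← Finset.mul_sum] at h4
    linarith
  have hC : ∑ x ∈ range n, ∑ y ∈ range n, (f x - f y) ^ 2 ≤
      ∑ x ∈ range n, ∑ y ∈ range n, (3 * b x + 3 * b y + 3 * (f (x % M) - f (y % M)) ^ 2) := by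
    refine Finset.sum_le_sum fun x hx => Finset.sum_le_sum fun y hy => ?_
    have h1 := hmod x (mem_range.1 hx)
    have h2 := hmod y (mem_range.1 hy)
    nlinarith [sq_nonneg ((f x - f (x % M)) + (f y - f (y % M))),
      sq_nonneg ((f x - f (x % M)) - (f (x % M) - f (y % M))),
      sq_nonneg ((f y - f (y % M)) + (f (x % M) - f (y % M)))]
  simp only [Finset.sum_add_distrib, ← Finset.mul_sum, Finset.sum_const, card_range,
    nsmul_eq_mul] at hC
  have hD : ∑ x ∈ range n, a x + ∑ x ∈ range n, b x ≤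
      ∑ x ∈ range n, ∑ i, (f x - f (exm n m i x)) ^ 2 := by
    rw [← Finset.sum_add_distrib]
    exact Finset.sum_le_sum fun x _ => hE x
  have hn' : (0 : ℝ) ≤ n := Nat.cast_nonneg n
  have hb1 : 0 ≤ ∑ x ∈ range n, b x := Finset.sum_nonneg fun _ _ => hb0 _
  have hF := mul_le_mul_of_nonneg_left hD hn'
  have hb2 := mul_nonneg hn' hb1
  nlinarith only [hA, hB, hC, hF, hb2]

theorem pt_sw {α : Type} [Enc α] {n M s v : α → ℕ} (hn : PT ∅ n) (hM : PT ∅ M) (hs : PT ∅ s)
    (hv : PT ∅ v) : PT ∅ fun a => sw (n a) (M a) (s a) (v a) :=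
  PT.ite (hv.lt hM) (PT.ite ((hv.add hs).lt hn) (hv.add hs) hv)
    (PT.ite (hs.le hv) (PT.ite (hv.lt (hs.add hM)) (hv.sub hs) hv) hv)

theorem pt_exm {α : Type} [Enc α] {n m v : α → ℕ} (hn : PT ∅ n) (hm : PT ∅ m) (hv : PT ∅ v)
    (i : (Fin 3 ⊕ Bool) × Bool) : PT ∅ fun a => exm (n a) (m a) i (v a) := by
  obtain ⟨k | c, b⟩ := i
  · exact PT.ite (hv.lt (hm.mul hm)) ((pt_mg k b).comp (hm.pair hv)) hv
  · cases c
    · exact pt_sw hn (hm.mul hm) (hm.mul hm) hv
    · exact pt_sw hn (hm.mul hm) ((PT.const 2).mul (hm.mul hm)) hv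

theorem le_three_mul_sqrt (n : ℕ) : n ≤ 3 * (Nat.sqrt n * Nat.sqrt n) := by
  have h1 := Nat.lt_succ_sqrt n
  rcases Nat.eq_zero_or_pos n with rfl | hn
  · simp
  have h2 : 1 ≤ Nat.sqrt n := Nat.sqrt_pos.2 hn
  simp only [Nat.succ_eq_add_one] at h1
  nlinarith

end MGG

/-- The index set of the generators of the explicit expanders. -/
abbrev ExpIx : Type := (Fin 3 ⊕ Bool) × Bool

/-- **An explicit family of expanders of degree 10**, for every number of vertices. -/
noncomputable def expanders : Expanders ExpIx where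
  ex n := MGG.exm n (Nat.sqrt n)
  γ := 1 / 540000
  pos := by norm_num
  sch n := MGG.exm_schreier (Nat.sqrt_le n)
  poinc n := MGG.exm_poinc (Nat.sqrt_le n) (MGG.le_three_mul_sqrt n)
  pt i := MGG.pt_exm PT.fst' (pt_sqrt PT.fst') PT.snd' i

theorem exists_expanders :
    ∃ (E : Type) (_ : Fintype E) (_ : Rev E) (_ : Nonempty E), Nonempty (Expanders E) :=
  ⟨ExpIx, inferInstance, inferInstance, inferInstance, ⟨expanders⟩⟩

end Vale.Agent.Lib.PCP
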