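import Vale.Agent.Lib.PCP.Fourier

/-!
The Fourier analysis of the three query linear test of Hastad, and the randomised decoding of long
codes.
-/

namespace Vale.Agent.Lib.PCP

open Finset
open scoped BigOperators

/-- Expectation of a product of functions of independent coordinates. -/
theorem expect_pi_prod {A T : Type*} [Fintype A] [DecidableEq A] [Fintype T] (φ : A → T → ℝ) :
    𝔼 w : A → T, ∏ a, φ a (w a) = ∏ a, 𝔼 t, φ a t := by
  simp only [Fintype.expect_eq_sum_div_card]
  rw [prod_div_distrib, prod_univ_sum, Fintype.piFinset_univ, prod_const, Fintype.card_fun,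
    card_univ]
  push_cast
  rfl

theorem pow_mul_le_of_noise {η : ℝ} (h0 : 0 ≤ η) (h1 : η ≤ 1) (n : ℕ) : (1 - η) ^ n * (n * η) ≤ 1 := by
  have h2 : 1 + n * η ≤ (1 + η) ^ n := one_add_mul_le_pow (by linarith) n
  have h3 : (1 - η) ^ n * (1 + η) ^ n ≤ 1 := by
    rw [← mul_pow]
    exact pow_le_one₀ (mul_nonneg (by linarith) (by linarith)) (by nlinarith)
  have h4 : 0 ≤ (1 - η) ^ n := pow_nonneg (by linarith) n
  calc (1 - η) ^ n * (n * η) ≤ (1 - η) ^ n * (1 + η) ^ n :=
        mul_le_mul_of_nonneg_left (by linarith) h4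
    _ ≤ 1 := h3

section

variable {A B : Type*} [Fintype A] [DecidableEq A] [Fintype B] [DecidableEq B]

/-- The size of the support. -/
def wt (β : A → ZMod 2) : ℕ := (univ.filter fun a => β a = 1).card

omit [DecidableEq A] in
theorem wt_pos {β : A → ZMod 2} {a : A} (h : β a = 1) : 0 < wt β :=
  card_pos.2 ⟨a, by simp [h]⟩

omit [DecidableEq A] in
theorem sum_ite_wt (β : A → ZMod 2) (c : ℝ) : ∑ a, (if β a = 1 then c else 0) = wt β * c := by
  rw [← sum_filter, sum_const, nsmul_eq_mul, wt]

/-- The image of a vector under a projection of the coordinates. -/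
def push (π : A → B) (β : A → ZMod 2) : B → ZMod 2 := fun b => ∑ a, if π a = b then β a else 0

omit [DecidableEq A] in
theorem dot_comp (π : A → B) (β : A → ZMod 2) (x : B → ZMod 2) :
    β ⬝ᵥ (fun a => x (π a)) = push π β ⬝ᵥ x := by
  simp only [dotProduct, push, sum_mul]
  rw [sum_comm]
  refine sum_congr rfl fun a _ => ?_
  simp [ite_mul]

omit [DecidableEq A] in
theorem chi_comp (π : A → B) (β : A → ZMod 2) (x : B → ZMod 2) :
    chi β (fun a => x (π a)) = chi (push π β) x := by
  rw [chi, chi, dot_comp]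

omit [DecidableEq A] [Fintype B] in
theorem exists_of_push {π : A → B} {β : A → ZMod 2} {b : B} (h : push π β b = 1) :
    ∃ a, β a = 1 ∧ π a = b := by
  by_contra hc
  push Not at hc
  have : push π β b = 0 := sum_eq_zero fun a _ => by
    split_ifs with e
    · exact f2_ne_one.1 fun h1 => hc a h1 e
    · rfl
  rw [this] at h
  exact zero_ne_one h

/-- The noise vector: every coordinate is `1` with probability `1 / N`. -/
def noise {N : ℕ} (w : A → Fin N) : A → ZMod 2 := fun a => if (w a : ℕ) = 0 then 1 else 0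

theorem expect_fin_zero {N : ℕ} (hN : 0 < N) (c d : ℝ) :
    𝔼 t : Fin N, (if (t : ℕ) = 0 then c else d) = d + (c - d) / N := by
  have h1 : ∀ t : Fin N, (if (t : ℕ) = 0 then c else d) =
      d + if t = ⟨0, hN⟩ then c - d else 0 := by
    intro t
    simp only [Fin.ext_iff]
    split_ifs <;> ring
  have : Nonempty (Fin N) := ⟨⟨0, hN⟩⟩
  simp only [h1, expect_add_distrib, Fintype.expect_const]
  rw [Fintype.expect_eq_sum_div_card]
  simp

theorem expect_chi_noise {N : ℕ} (hN : 0 < N) (β : A → ZMod 2) :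
    𝔼 w : A → Fin N, chi β (noise w) = (1 - 2 / N) ^ wt β := by
  simp only [chi_eq_prod, noise]
  rw [expect_pi_prod fun a (t : Fin N) => sg (β a * if (t : ℕ) = 0 then 1 else 0)]
  have h1 : ∀ a, 𝔼 t : Fin N, sg (β a * if (t : ℕ) = 0 then 1 else 0) =
      if β a = 1 then 1 - 2 / (N : ℝ) else 1 := by
    intro a
    have : Nonempty (Fin N) := ⟨⟨0, hN⟩⟩
    rcases f2_cases (β a) with h | h
    · simp [h]
    · have h2 : ∀ t : Fin N, sg (β a * if (t : ℕ) = 0 then 1 else 0) =
          if (t : ℕ) = 0 then -1 else 1 := by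
        intro t
        rw [h, one_mul]
        split_ifs <;> simp
      simp only [h2]
      rw [expect_fin_zero hN, if_pos h]
      ring
  simp only [h1]
  rw [prod_ite, prod_const, prod_const_one, mul_one, wt]

/-- The Fourier expansion of the three query test. -/
theorem expect_hastad {N : ℕ} (hN : 0 < N) (π : A → B) (f : (B → ZMod 2) → ℝ)
    (g g' : (A → ZMod 2) → ℝ) :
    𝔼 x, 𝔼 y, 𝔼 w : A → Fin N, f x * g y * g' (y + ((fun a => x (π a)) + noise w)) =
      ∑ β, hat g' β * (hat g β * hat f (push π β) * (1 - 2 / N) ^ wt β) := by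
  have h1 : ∀ x : B → ZMod 2,
      𝔼 y, 𝔼 w : A → Fin N, f x * g y * g' (y + ((fun a => x (π a)) + noise w)) =
      ∑ β, hat g β * hat g' β * (1 - 2 / N) ^ wt β * (f x * chi (push π β) x) := by
    intro x
    rw [expect_comm]
    simp only [mul_assoc (f x), ← mul_expect, expect_mul_translate, chi_add, chi_comp]
    rw [expect_sum_comm, mul_sum]
    refine sum_congr rfl fun β _ => ?_
    rw [← mul_expect, ← mul_expect, expect_chi_noise hN]
    ring
  simp only [h1]
  rw [expect_sum_comm]
  refine sum_congr rfl fun β _ => ?_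
  rw [← mul_expect]
  change _ * hat f (push π β) = _
  ring

/-- Decoding on the side of the large alphabet: a random character, then a random element of its
support. -/
noncomputable def decL (g : (A → ZMod 2) → ℝ) (a : A) : ℝ :=
  ∑ β, if β a = 1 then hat g β ^ 2 / wt β else 0

theorem decL_nonneg (g : (A → ZMod 2) → ℝ) (a : A) : 0 ≤ decL g a :=
  sum_nonneg fun β _ => by split_ifs <;> positivity

theorem sum_decL_le {g : (A → ZMod 2) → ℝ} (hg : ∀ x, |g x| ≤ 1) : ∑ a, decL g a ≤ 1 := by
  unfold decL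
  rw [sum_comm]
  refine le_trans (sum_le_sum fun β _ => ?_) (parseval_le_one hg)
  rw [sum_ite_wt]
  rcases eq_or_ne (wt β : ℝ) 0 with h | h
  · rw [h, zero_mul]; positivity
  · rw [mul_div_cancel₀ _ h]

/-- A fixed element of the support. -/
noncomputable def pick [Nonempty B] (α : B → ZMod 2) : B := Classical.epsilon fun b => α b = 1

omit [Fintype B] [DecidableEq B] in
theorem pick_spec [Nonempty B] {α : B → ZMod 2} (h : α ≠ 0) : α (pick α) = 1 := by
  obtain ⟨b, hb⟩ := Function.ne_iff.1 h
  exact Classical.epsilon_spec (p := fun b => α b = 1) ⟨b, f2_ne_zero.1 hb⟩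

/-- Decoding on the side of the small alphabet: a random character, then a fixed element of its
support. -/
noncomputable def decS [Nonempty B] (f : (B → ZMod 2) → ℝ) (b : B) : ℝ :=
  ∑ α, if pick α = b then hat f α ^ 2 else 0

theorem decS_nonneg [Nonempty B] (f : (B → ZMod 2) → ℝ) (b : B) : 0 ≤ decS f b :=
  sum_nonneg fun β _ => by split_ifs <;> positivity

theorem sum_decS_le [Nonempty B] {f : (B → ZMod 2) → ℝ} (hf : ∀ x, |f x| ≤ 1) :
    ∑ b, decS f b ≤ 1 := by
  unfold decS
  rw [sum_comm]
  simpa using parseval_le_one hf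

/-- The success probability of the decoding. -/
theorem dec_ge [Nonempty B] (π : A → B) {f : (B → ZMod 2) → ℝ} (hf : hat f 0 = 0)
    (g : (A → ZMod 2) → ℝ) :
    ∑ β, hat g β ^ 2 * hat f (push π β) ^ 2 / wt β ≤ ∑ a, decL g a * decS f (π a) := by
  simp only [decL, sum_mul]
  rw [sum_comm]
  refine sum_le_sum fun β _ => ?_
  by_cases h : push π β = 0
  · rw [h, hf]
    simp only [ne_eq, OfNat.ofNat_ne_zero, not_false_eq_true, zero_pow, mul_zero, zero_div]
    exact sum_nonneg fun a _ => mul_nonneg (by split_ifs <;> positivity) (decS_nonneg _ _)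
  · obtain ⟨a, ha, ha'⟩ := exists_of_push (pick_spec h)
    refine le_trans ?_ (single_le_sum (f := fun a => (if β a = 1 then hat g β ^ 2 / wt β else 0) *
      decS f (π a)) (fun a _ => mul_nonneg (by split_ifs <;> positivity) (decS_nonneg _ _))
      (mem_univ a))
    rw [if_pos ha, mul_div_right_comm]
    refine mul_le_mul_of_nonneg_left ?_ (by positivity)
    refine le_trans ?_ (single_le_sum (f := fun α => if pick α = π a then hat f α ^ 2 else 0)
      (fun α _ => by split_ifs <;> positivity) (mem_univ (push π β)))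
    rw [if_pos ha'.symm]

/-- The bias of the test is bounded in terms of the success probability of the decoding. -/
theorem hastad_sq_le [Nonempty B] {N : ℕ} (hN : 2 ≤ N) (π : A → B) {f : (B → ZMod 2) → ℝ}
    (hf : hat f 0 = 0) (g : (A → ZMod 2) → ℝ) {g' : (A → ZMod 2) → ℝ} (hg' : ∀ x, |g' x| ≤ 1) :
    (𝔼 x, 𝔼 y, 𝔼 w : A → Fin N, f x * g y * g' (y + ((fun a => x (π a)) + noise w))) ^ 2 ≤
      N / 4 * ∑ a, decL g a * decS f (π a) := by
  have hN' : (2 : ℝ) ≤ N := by exact_mod_cast hN
  rw [expect_hastad (by omega)]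
  refine (sum_mul_sq_le_sq_mul_sq _ _ _).trans ?_
  refine (mul_le_of_le_one_left (sum_nonneg fun _ _ => sq_nonneg _) (parseval_le_one hg')).trans ?_
  refine le_trans ?_ (mul_le_mul_of_nonneg_left (dec_ge π hf g) (by positivity))
  rw [mul_sum]
  refine sum_le_sum fun β _ => ?_
  by_cases h : push π β = 0
  · simp [h, hf]
  · obtain ⟨a, ha, -⟩ := exists_of_push (pick_spec h)
    have h1 : (0 : ℝ) < wt β := Nat.cast_pos.2 (wt_pos ha)
    have h2 := pow_mul_le_of_noise (η := 2 / N) (by positivity)
      (by rw [div_le_one (by linarith)]; exact hN') (wt β * 2)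
    have h3 : ((1 - 2 / (N : ℝ)) ^ wt β) ^ 2 ≤ N / 4 / wt β := by
      rw [← pow_mul, le_div_iff₀ h1, le_div_iff₀ (by norm_num)]
      have h4 : ((wt β * 2 : ℕ) : ℝ) * (2 / N) = wt β * 4 / N := by push_cast; ring
      rw [h4, ← mul_div_assoc, div_le_one (by linarith)] at h2
      linarith
    calc (hat g β * hat f (push π β) * (1 - 2 / N) ^ wt β) ^ 2
        = hat g β ^ 2 * hat f (push π β) ^ 2 * ((1 - 2 / (N : ℝ)) ^ wt β) ^ 2 := by ring
      _ ≤ hat g β ^ 2 * hat f (push π β) ^ 2 * (N / 4 / wt β) :=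
          mul_le_mul_of_nonneg_left h3 (by positivity)
      _ = _ := by ring

/-- Folding: the function `x ↦ F (x + x b₀) + x b₀` is balanced. -/
theorem hat_fold_zero (F : (B → ZMod 2) → ZMod 2) (b₀ : B) :
    hat (fun x => sg (F (fun b => x b + x b₀) + x b₀)) 0 = 0 := by
  refine hat_eq_zero_of_odd (z := fun _ => 1) (fun x => ?_) (by simp)
  have h1 : (fun b => (x + fun _ => 1 : B → ZMod 2) b + (x + fun _ => 1 : B → ZMod 2) b₀) =
      fun b => x b + x b₀ := by
    funext b
    simp only [Pi.add_apply]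
    rw [add_add_add_comm, f2_add_self, add_zero]
  rw [h1, Pi.add_apply, ← add_assoc, sg_add, sg_one, mul_neg, mul_one]

end

/-! ### Rounding of fractional labelings -/

/-- Rounding a fractional labeling against nonnegative weights. -/
theorem exists_round {C V B : Type*} [Fintype B] [Nonempty B] (l : List C) (x : C → V)
    (w : C → B → ℝ) (hw : ∀ c b, 0 ≤ w c b) (p : V → B → ℝ) (hp0 : ∀ v b, 0 ≤ p v b)
    (hp1 : ∀ v, ∑ b, p v b ≤ 1) :
    ∃ g : V → B, (l.map fun c => ∑ b, p (x c) b * w c b).sum ≤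
      (l.map fun c => w c (g (x c))).sum := by
  classical
  let W : V → B → ℝ := fun v b => (l.map fun c => if x c = v then w c b else 0).sum
  have hW : ∀ v b, 0 ≤ W v b := fun v b => List.sum_nonneg fun y hy => by
    obtain ⟨c, -, rfl⟩ := List.mem_map.1 hy
    split_ifs
    exacts [hw _ _, le_rfl]
  have h1 : ∀ v, ∃ b, ∀ b', W v b' ≤ W v b := fun v => by
    obtain ⟨b, -, hb⟩ := exists_max_image univ (W v) univ_nonempty
    exact ⟨b, fun b' => hb b' (mem_univ _)⟩
  choose g hg using h1
  refine ⟨g, ?_⟩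
  have h2 : ∀ (T : Finset V) (φ : C → V → ℝ) (l' : List C), (∀ c ∈ l', x c ∈ T) →
      (l'.map fun c => φ c (x c)).sum =
        ∑ v ∈ T, (l'.map fun c => if x c = v then φ c v else 0).sum := by
    intro T φ l' hl'
    induction l' with
    | nil => simp
    | cons c l' ih =>
      simp only [List.map_cons, List.sum_cons, sum_add_distrib]
      rw [ih fun c' hc' => hl' c' (List.mem_cons_of_mem _ hc'), sum_ite_eq,
        if_pos (hl' c List.mem_cons_self)]
  have hT : ∀ c ∈ l, x c ∈ (l.map x).toFinset := fun c hc =>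
    List.mem_toFinset.2 (List.mem_map.2 ⟨c, hc, rfl⟩)
  rw [h2 _ (fun c v => ∑ b, p v b * w c b) l hT, h2 _ (fun c v => w c (g v)) l hT]
  refine sum_le_sum fun v _ => ?_
  have h3 : ∀ l' : List C, (l'.map fun c => if x c = v then ∑ b, p v b * w c b else 0).sum =
      ∑ b, p v b * (l'.map fun c => if x c = v then w c b else 0).sum := by
    intro l'
    induction l' with
    | nil => simp
    | cons c l' ih =>
      simp only [List.map_cons, List.sum_cons, ih, mul_add, sum_add_distrib]
      split_ifs <;> simp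
  rw [h3]
  calc ∑ b, p v b * W v b ≤ ∑ b, p v b * W v (g v) :=
        sum_le_sum fun b _ => mul_le_mul_of_nonneg_left (hg v b) (hp0 v b)
    _ ≤ W v (g v) := by
        rw [← sum_mul]
        exact mul_le_of_le_one_left (hW _ _) (hp1 v)

end Vale.Agent.Lib.PCP
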