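import Vale.Agent.Lib.PCP.AlphaRed
import Vale.Agent.Lib.PCP.HastadMath

/-!
The reduction of Hastad from projection games to linear equations in three variables.
-/

namespace Vale.Agent.Lib.PCP

open Vale.Agent.Lib.PolyTime Finset
open scoped BigOperators

/-- Rounding of fractional labelings of a list of edges. -/
theorem frac_le_of_cnt_le {U V A B : Type} [Fintype A] [Nonempty A] [Fintype B] [Nonempty B]
    [DecidableEq B] (l : List (PEdge U V A B)) {s : ℝ} (h : ∀ a, (cnt satP l a : ℝ) ≤ s)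
    (pg : U → B → ℝ) (pf : V → A → ℝ) (hg0 : ∀ u b, 0 ≤ pg u b) (hg1 : ∀ u, ∑ b, pg u b ≤ 1)
    (hf0 : ∀ v a, 0 ≤ pf v a) (hf1 : ∀ v, ∑ a, pf v a ≤ 1) :
    (l.map fun c => ∑ a, pf c.2.1 a * pg c.1 (c.2.2 a)).sum ≤ s := by
  obtain ⟨f, hf⟩ := exists_round l (fun c => c.2.1) (fun c a => pg c.1 (c.2.2 a))
    (fun c a => hg0 _ _) pf hf0 hf1
  obtain ⟨g, hg⟩ := exists_round l (fun c => c.1)
    (fun c b => if c.2.2 (f c.2.1) = b then (1 : ℝ) else 0)
    (fun c b => by split_ifs <;> norm_num) pg hg0 hg1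
  refine hf.trans (le_trans (le_of_eq ?_) (hg.trans (le_trans (le_of_eq ?_) (h (g, f)))))
  · simp
  · rw [cnt_eq_sum]
    simp [satP]

theorem ite_satLin {V : Type} (c : Eq3 V) (σ : V → Bool) :
    (if satLin c σ = true then (1 : ℝ) else 0) =
      1 / 2 + 1 / 2 * (sg (b2z (σ c.1) + b2z c.2.2.2) * sg (b2z (σ c.2.1)) *
        sg (b2z (σ c.2.2.1))) := by
  unfold satLin
  generalize σ c.1 = x, σ c.2.1 = y, σ c.2.2.1 = z, c.2.2.2 = b
  cases x <;> cases y <;> cases z <;> cases b <;> simp [b2z, f2_add_self] <;> norm_num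

section

variable {A B : Type}

/-- Variables of the system: the entries of one table for each vertex with small alphabet and of
two tables for each vertex with large alphabet. -/
abbrev HVar (A B : Type) : Type := (ℕ × (B → ZMod 2)) ⊕ (ℕ × Bool × (A → ZMod 2))

/-- The random choices of the test. -/
abbrev HTape (A B : Type) (N : ℕ) : Type := (B → ZMod 2) × (A → ZMod 2) × (A → Fin N)

/-- The equation of the edge `c` for the random choices `r`. -/
def hEq {N : ℕ} (b₀ : B) (c : PEdge ℕ ℕ A B) (r : HTape A B N) : Eq3 (HVar A B) :=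
  (Sum.inl (c.1, fun b => r.1 b + r.1 b₀), Sum.inr (c.2.1, false, r.2.1),
    Sum.inr (c.2.1, true, r.2.1 + ((fun a => r.1 (c.2.2 a)) + noise r.2.2)), z2b (r.1 b₀))

variable [Fintype A] [DecidableEq A] [Fintype B] [DecidableEq B]

/-- The equations of an edge. -/
noncomputable def hBlock (N : ℕ) (b₀ : B) (c : PEdge ℕ ℕ A B) : List (Eq3 (HVar A B)) :=
  (univ : Finset (HTape A B N)).toList.map (hEq b₀ c)

theorem length_hBlock (N : ℕ) (b₀ : B) (c : PEdge ℕ ℕ A B) :
    (hBlock N b₀ c).length = Fintype.card (HTape A B N) := by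
  rw [hBlock, List.length_map, length_univ_toList]

theorem expect_hTape {N : ℕ} (φ : HTape A B N → ℝ) :
    𝔼 r, φ r = 𝔼 x, 𝔼 y, 𝔼 w, φ (x, y, w) := by
  simp only [← univ_product_univ, expect_product]

theorem sum_hBlock (N : ℕ) (b₀ : B) (c : PEdge ℕ ℕ A B) (φ : Eq3 (HVar A B) → ℝ) :
    ((hBlock N b₀ c).map φ).sum =
      Fintype.card (HTape A B N) * 𝔼 r : HTape A B N, φ (hEq b₀ c r) := by
  rw [hBlock, List.map_map, sum_map_univ, Fintype.card_mul_expect]
  rfl

/-- Completeness. -/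
theorem hastad_complete {N : ℕ} (hN : 0 < N) (b₀ : B) (l : List (PEdge ℕ ℕ A B))
    (a : (ℕ → B) × (ℕ → A)) : ∃ σ : HVar A B → Bool,
      (1 - 1 / N) * (Fintype.card (HTape A B N) * cnt satP l a) ≤
        (cnt satLin (l.flatMap (hBlock N b₀)) σ : ℝ) := by
  obtain ⟨g, f⟩ := a
  refine ⟨Sum.elim (fun t => z2b (t.2 (g t.1))) fun t => z2b (t.2.2 (f t.1)), ?_⟩
  rw [cnt_eq_sum, cnt_eq_sum, sum_map_flatMap, ← mul_assoc, ← sum_map_mul_left']
  refine sum_map_le_sum_map _ fun c _ => ?_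
  rw [sum_hBlock]
  split_ifs with hc
  · have hc' : c.2.2 (f c.2.1) = g c.1 := by simpa [satP] using hc
    rw [mul_one, mul_comm]
    refine mul_le_mul_of_nonneg_left (le_of_eq ?_) (Nat.cast_nonneg _)
    have h1 : ∀ r : HTape A B N,
        (if satLin (hEq b₀ c r) (Sum.elim (fun t => z2b (t.2 (g t.1)))
          fun t => z2b (t.2.2 (f t.1))) = true then (1 : ℝ) else 0) =
        1 / 2 + 1 / 2 * chi (Pi.single (f c.2.1) 1) (noise r.2.2) := by
      intro r
      rw [ite_satLin]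
      simp only [hEq, Sum.elim_inl, Sum.elim_inr, b2z_z2b, chi, single_dotProduct, one_mul,
        Pi.add_apply, hc', ← sg_add]
      congr 3
      generalize r.1 (g c.1) = x, r.1 b₀ = y, r.2.1 (f c.2.1) = z, noise r.2.2 (f c.2.1) = w
      revert x y z w
      decide
    have h2 : wt (Pi.single (f c.2.1) 1 : A → ZMod 2) = 1 := by
      rw [wt, card_eq_one]
      refine ⟨f c.2.1, ?_⟩
      ext a
      by_cases e : a = f c.2.1 <;> simp [e]
    have : Nonempty (Fin N) := ⟨⟨0, hN⟩⟩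
    simp only [h1]
    rw [expect_hTape]
    simp only [Fintype.expect_const, expect_add_distrib, ← mul_expect, expect_chi_noise hN, h2]
    ring
  · rw [mul_zero]
    exact mul_nonneg (Nat.cast_nonneg _) (expect_nonneg fun r _ => by split_ifs <;> norm_num)

/-- Soundness. -/
theorem hastad_sound [Nonempty A] {N : ℕ} (hN : 2 ≤ N) (b₀ : B) {δ ε : ℝ} (hε : 0 < ε)
    (hδ : N * δ ≤ 16 * ε ^ 2) (l : List (PEdge ℕ ℕ A B))
    (h : ∀ a, (cnt satP l a : ℝ) ≤ δ * l.length) (σ : HVar A B → Bool) :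
    (cnt satLin (l.flatMap (hBlock N b₀)) σ : ℝ) ≤
      (1 / 2 + ε) * (Fintype.card (HTape A B N) * l.length) := by
  have : Nonempty B := ⟨b₀⟩
  have : Nonempty (Fin N) := ⟨⟨0, by omega⟩⟩
  let f : ℕ → (B → ZMod 2) → ℝ := fun u x =>
    sg (b2z (σ (Sum.inl (u, fun b => x b + x b₀))) + x b₀)
  let g : Bool → ℕ → (A → ZMod 2) → ℝ := fun i v y => sg (b2z (σ (Sum.inr (v, i, y))))
  have h1 := frac_le_of_cnt_le l h (fun u => decS (f u)) (fun v => decL (g false v))
    (fun u => decS_nonneg _) (fun u => sum_decS_le fun x => (abs_sg _).le)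
    (fun v => decL_nonneg _) (fun v => sum_decL_le fun x => (abs_sg _).le)
  have hK : (0 : ℝ) ≤ Fintype.card (HTape A B N) := Nat.cast_nonneg _
  have h2 : ∀ c ∈ l, ((hBlock N b₀ c).map fun e => if satLin e σ = true then (1 : ℝ) else 0).sum ≤
      Fintype.card (HTape A B N) * (1 / 2 + ε / 2) +
        Fintype.card (HTape A B N) * (N / (32 * ε)) *
          ∑ a, decL (g false c.2.1) a * decS (f c.1) (c.2.2 a) := by
    intro c _
    rw [sum_hBlock, mul_assoc, ← mul_add]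
    refine mul_le_mul_of_nonneg_left ?_ hK
    have h3 := hastad_sq_le hN c.2.2 (f := f c.1)
      (hat_fold_zero (fun x => b2z (σ (Sum.inl (c.1, x)))) b₀) (g false c.2.1)
      (g' := g true c.2.1) fun x => (abs_sg _).le
    simp only [ite_satLin]
    rw [expect_hTape]
    simp only [Fintype.expect_const, expect_add_distrib, ← mul_expect, hEq, b2z_z2b]
    simp only [← mul_expect, f, g] at h3 ⊢
    set T := 𝔼 x : B → ZMod 2, 𝔼 y : A → ZMod 2,
      sg (b2z (σ (Sum.inl (c.1, fun b => x b + x b₀))) + x b₀) *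
        sg (b2z (σ (Sum.inr (c.2.1, false, y)))) *
        𝔼 w : A → Fin N, sg (b2z (σ (Sum.inr (c.2.1, true, y + ((fun a => x (c.2.2 a)) + noise w)))))
    set P := ∑ a, decL (fun y => sg (b2z (σ (Sum.inr (c.2.1, false, y))))) a *
      decS (fun x => sg (b2z (σ (Sum.inl (c.1, fun b => x b + x b₀))) + x b₀)) (c.2.2 a)
    have h4 : T ≤ T ^ 2 / (4 * ε) + ε := by
      rw [div_add' _ _ _ (by positivity), le_div_iff₀ (by positivity)]
      nlinarith [sq_nonneg (T - 2 * ε)]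
    have h5 : T ^ 2 / (4 * ε) ≤ N / 4 * P / (4 * ε) := by gcongr
    have h6 : N / 4 * P / (4 * ε) = 2 * (N / (32 * ε) * P) := by field_simp; ring
    linarith
  rw [cnt_eq_sum, sum_map_flatMap]
  refine (sum_map_le_sum_map l h2).trans ?_
  rw [List.sum_map_add, sum_map_const, sum_map_mul_left']
  have h7 : (N : ℝ) / (32 * ε) * (δ * l.length) ≤ ε / 2 * l.length := by
    rw [← mul_assoc]
    refine mul_le_mul_of_nonneg_right ?_ (Nat.cast_nonneg _)
    rw [div_mul_eq_mul_div, div_le_iff₀ (by positivity)]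
    nlinarith
  have h8 := mul_le_mul_of_nonneg_left h1 (show (0 : ℝ) ≤ N / (32 * ε) by positivity)
  have h9 := mul_le_mul_of_nonneg_left (h8.trans h7) hK
  rw [mul_assoc _ (N / (32 * ε) : ℝ)]
  linarith

variable [Enc B] [EncInj B]

omit [DecidableEq A] [DecidableEq B] in
theorem PT_hEq {N : ℕ} (b₀ : B) (r : HTape A B N) :
    PT ∅ fun c : PEdge ℕ ℕ A B => hEq b₀ c r :=
  (PT.inl (PT.fst'.pair (PT.const _))).pair ((PT.inr (PT.snd'.fst.pair (PT.const _))).pair
    ((PT.inr (PT.snd'.fst.pair ((PT.const _).pair (PT.finComp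
      (fun π : A → B => r.2.1 + ((fun a => r.1 (π a)) + noise r.2.2)) PT.snd'.snd)))).pair
        (PT.const _)))

theorem PT_hBlock (N : ℕ) (b₀ : B) : PT ∅ fun c : PEdge ℕ ℕ A B => hBlock N b₀ c :=
  PT.mapConst _ fun r _ => PT_hEq b₀ r

end

/-- The three variables of every equation are distinct. -/
def Distinct3 {V : Type} (l : List (Eq3 V)) : Prop :=
  ∀ e ∈ l, e.1 ≠ e.2.1 ∧ e.1 ≠ e.2.2.1 ∧ e.2.1 ≠ e.2.2.1

/-- The reduction of Hastad, explicit form. -/
theorem hastad_reduction (A B : Type) [Fintype A] [DecidableEq A] [Nonempty A] [Fintype B]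
    [DecidableEq B] [Nonempty B] [Enc B] [EncInj B] {N : ℕ} (hN : 2 ≤ N) :
    ∃ (K : ℕ) (R : List (PEdge ℕ ℕ A B) → List (Eq3 ℕ)), 0 < K ∧ PT ∅ R ∧ ∀ l,
      (R l).length = K * l.length ∧ Distinct3 (R l) ∧
      (∀ a, ∃ σ, (1 - 1 / N) * (K * cnt satP l a) ≤ (cnt satLin (R l) σ : ℝ)) ∧
      ∀ δ ε : ℝ, 0 < ε → N * δ ≤ 16 * ε ^ 2 → (∀ a, (cnt satP l a : ℝ) ≤ δ * l.length) →
        ∀ σ, (cnt satLin (R l) σ : ℝ) ≤ (1 / 2 + ε) * (K * l.length) := by
  obtain ⟨b₀⟩ := ‹Nonempty B›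
  have : Nonempty (Fin N) := ⟨⟨0, by omega⟩⟩
  refine ⟨Fintype.card (HTape A B N), fun l => (l.flatMap (hBlock N b₀)).map (renLin name),
    Fintype.card_pos, ?_, fun l => ⟨?_, ?_, fun a => ?_, fun δ ε hε hδ h σ => ?_⟩⟩
  · exact PT.map (PT.flatMap PT.id ((PT_hBlock N b₀).comp PT.snd'))
      ((PT.name PT.snd'.fst).pair ((PT.name PT.snd'.snd.fst).pair
        ((PT.name PT.snd'.snd.snd.fst).pair PT.snd'.snd.snd.snd)))
  · rw [List.length_map, length_flatMap_const _ _ _ fun c _ => length_hBlock N b₀ c]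
  · intro e he
    simp only [hBlock, List.mem_map, List.mem_flatMap] at he
    obtain ⟨e, ⟨c, -, r, -, rfl⟩, rfl⟩ := he
    simp [renLin, hEq, name_injective.eq_iff]
  · obtain ⟨σ, hσ⟩ := hastad_complete (by omega : 0 < N) b₀ l a
    obtain ⟨σ', h'⟩ := exists_transport' (name_injective (V := HVar A B)) σ
    refine ⟨σ', ?_⟩
    rwa [cnt_map (sat := satLin) _ _ σ σ' fun c _ => by rw [satLin_renLin]; simp only [h']]
  · rw [cnt_map (sat := satLin) _ _ (fun v => σ (name v)) σ fun c _ => rfl]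
    exact hastad_sound hN b₀ hε hδ l h _

/-- The reduction of Hastad between gap problems. -/
theorem red_hastad (A B : Type) [Fintype A] [DecidableEq A] [Nonempty A] [Fintype B]
    [DecidableEq B] [Nonempty B] [Enc B] [EncInj B] {N : ℕ} (hN : 2 ≤ N) {c δ ε : ℝ} (hε : 0 < ε)
    (hδ : N * δ ≤ 16 * ε ^ 2) :
    Red (Gap (satP (U := ℕ) (V := ℕ) (A := A) (B := B)) c δ)
      (Gap (satLin (V := ℕ)) ((1 - 1 / N) * c) (1 / 2 + ε)) := by
  obtain ⟨K, R, hK, hR, h⟩ := hastad_reduction A B hN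
  have hne : ∀ l, l ≠ [] → R l ≠ [] := fun l hl => by
    rw [← List.length_pos_iff, (h l).1]
    exact Nat.mul_pos hK (List.length_pos_iff.2 hl)
  refine ⟨R, hR, fun l hl => ⟨hne l hl.1, ?_⟩, fun l hl => ⟨hne l hl.1, fun σ => ?_⟩⟩
  · obtain ⟨a, ha⟩ := hl.2
    obtain ⟨σ, hσ⟩ := (h l).2.2.1 a
    refine ⟨σ, le_trans ?_ hσ⟩
    have hN' : (2 : ℝ) ≤ N := by exact_mod_cast hN
    have h1 : (0 : ℝ) ≤ 1 - 1 / N := by
      rw [sub_nonneg, div_le_one (by linarith)]; linarith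
    rw [(h l).1, mul_assoc]
    refine mul_le_mul_of_nonneg_left ?_ h1
    push_cast
    rw [mul_left_comm]
    exact mul_le_mul_of_nonneg_left ha (Nat.cast_nonneg _)
  · rw [(h l).1]
    push_cast
    exact (h l).2.2.2 δ ε hε hδ hl.2 σ

/-- Hardness of label cover with arbitrarily small soundness implies the theorem of Hastad. -/
theorem hastad_of_label_cover
    (h : ∀ δ : ℝ, 0 < δ → ∃ a b : ℕ,
      Hard (Gap (satP (U := ℕ) (V := ℕ) (A := Fin (a + 1)) (B := Fin (b + 1))) 1 δ))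
    {ε : ℝ} (hε : 0 < ε) : Hard (Gap (satLin (V := ℕ)) (1 - ε) (1 / 2 + ε)) := by
  obtain ⟨N, hN⟩ := exists_nat_ge (max 2 (1 / ε))
  have h1 : (2 : ℝ) ≤ N := (le_max_left _ _).trans hN
  have h2 : 1 / ε ≤ N := (le_max_right _ _).trans hN
  obtain ⟨a, b, hab⟩ := h (16 * ε ^ 2 / N) (by positivity)
  refine (hab.red (red_hastad _ _ (N := N) (by exact_mod_cast h1) hε
    (le_of_eq (by field_simp)))).gap_mono ?_ le_rfl
  rw [mul_one, sub_le_sub_iff_left, one_div_le (by linarith) hε]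
  exact h2

end Vale.Agent.Lib.PCP
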