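import Vale.Agent.Lib.PCP.LCBase
import Vale.Agent.Lib.PCP.HastadMath
import Mathlib.Analysis.SpecialFunctions.Complex.LogBounds

/-!
The reduction of Feige from projection games to maximum coverage: `k` sets cover everything, or
any `k` sets cover at most a `1 - 1 / e + ε` fraction of the elements.
-/

namespace Vale.Agent.Lib.PCP

open Vale.Agent.Lib.PolyTime Finset
open scoped BigOperators

/-- An element is given by the list of the names of the sets which contain it; it is covered by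
the family `T` of sets if one of these names is in `T`. -/
def covered {W : Type} [DecidableEq W] (e : List W) (T : Finset W) : Bool :=
  e.any fun w => decide (w ∈ T)

theorem covered_iff {W : Type} [DecidableEq W] {e : List W} {T : Finset W} :
    covered e T = true ↔ ∃ w ∈ e, w ∈ T := by
  simp [covered]

/-- The gap version of maximum coverage: `k` sets cover all elements, or any `k` sets cover at most
an `s` fraction of the elements. -/
def MaxCov (W : Type) [DecidableEq W] (s : ℝ) : Promise (ℕ × List (List W)) where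
  yes p := 0 < p.1 ∧ p.2 ≠ [] ∧ ∃ T : Finset W, T.card ≤ p.1 ∧ ∀ e ∈ p.2, covered e T = true
  no p := 0 < p.1 ∧ p.2 ≠ [] ∧
    ∀ T : Finset W, T.card ≤ p.1 → (cnt covered p.2 T : ℝ) ≤ s * p.2.length

/-- Renaming of the sets by natural numbers. -/
theorem red_maxCov_name (W : Type) [DecidableEq W] [Enc W] [EncInj W] (s : ℝ) :
    Red (MaxCov W s) (MaxCov ℕ s) := by
  refine ⟨fun p => (p.1, p.2.map fun e => e.map name), PT.fst'.pair (PT.map PT.snd'
    (PT.map (f := fun _ w => name w) PT.snd' (PT.name PT.snd'))), ?_, ?_⟩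
  · rintro ⟨k, l⟩ ⟨h1, h2, T, h3, h4⟩
    refine ⟨h1, by simpa using h2, T.image name, card_image_le.trans h3, fun e he => ?_⟩
    obtain ⟨e, he', rfl⟩ := List.mem_map.1 he
    obtain ⟨w, hw, hw'⟩ := covered_iff.1 (h4 e he')
    exact covered_iff.2 ⟨name w, List.mem_map_of_mem hw, mem_image_of_mem _ hw'⟩
  · rintro ⟨k, l⟩ ⟨h1, h2, h3⟩
    refine ⟨h1, by simpa using h2, fun T hT => ?_⟩
    have h4 := h3 (T.preimage name name_injective.injOn) (by
      refine le_trans ?_ hT
      refine card_le_card_of_injOn name (fun w hw => ?_) name_injective.injOn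
      simpa using hw)
    rw [cnt_map (sat := covered) (sat' := covered) _ _ (T.preimage name name_injective.injOn) T,
      List.length_map]
    · exact h4
    · intro e _
      rw [Bool.eq_iff_iff, covered_iff, covered_iff]
      simp

namespace MaxCover

/-! ### Partition systems -/

theorem expect_two {D : Type} [Fintype D] [Nonempty D] {l : ℕ} {j j' : Fin l} (h : j' ≠ j)
    (φ ψ : D → ℝ) : 𝔼 i : Fin l → D, φ (i j) * ψ (i j') = (𝔼 d, φ d) * 𝔼 d, ψ d := by
  have key : ∀ (a b : Fin l → ℝ),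
      ∏ k, (if k = j then a k else if k = j' then b k else 1) = a j * b j' := by
    intro a b
    rw [← Finset.mul_prod_erase univ _ (mem_univ j), if_pos rfl,
      ← Finset.mul_prod_erase _ _ (mem_erase.2 ⟨h, mem_univ j'⟩), if_neg h, if_pos rfl,
      Finset.prod_eq_one, mul_one]
    intro k hk
    simp only [mem_erase] at hk
    rw [if_neg hk.2.1, if_neg hk.1]
  have h1 := expect_pi_prod (A := Fin l) (T := D)
    (fun k d => if k = j then φ d else if k = j' then ψ d else 1)
  simp only [key] at h1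
  rw [h1, ← key (fun _ => 𝔼 d, φ d) (fun _ => 𝔼 d, ψ d)]
  refine Finset.prod_congr rfl fun k _ => ?_
  split_ifs <;> simp

theorem expect_one {D : Type} [Fintype D] [Nonempty D] {l : ℕ} (j : Fin l) (φ : D → ℝ) :
    𝔼 i : Fin l → D, φ (i j) = 𝔼 d, φ d := by
  have h1 := expect_pi_prod (A := Fin l) (T := D) (fun k d => if k = j then φ d else 1)
  simp only [Finset.prod_ite_eq', mem_univ, if_true] at h1
  rw [h1, Finset.prod_eq_single j]
  · simp
  · intro k _ hk
    simp [hk]
  · simp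

theorem pow_le_expect {l : ℕ} (hl : 1 ≤ l) (m : Fin l → ℕ)
    (hm : ∀ j j', j' ≠ j → m j = 0 ∨ m j' = 0) :
    (1 - 1 / (l : ℝ)) ^ (∑ j, m j) ≤ 𝔼 y, if m y = 0 then (1 : ℝ) else 0 := by
  have hl' : (1 : ℝ) ≤ l := by exact_mod_cast hl
  have : Nonempty (Fin l) := ⟨⟨0, hl⟩⟩
  have hq0 : 0 ≤ 1 - 1 / (l : ℝ) := by
    rw [sub_nonneg, div_le_one (by linarith)]
    exact hl'
  have hq1 : 1 - 1 / (l : ℝ) ≤ 1 := by
    have : 0 ≤ 1 / (l : ℝ) := by positivity
    linarith
  by_cases h : ∀ j, m j = 0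
  · simp [h]
  push Not at h
  obtain ⟨j₀, h0⟩ := h
  have h1 : 1 ≤ ∑ j, m j := (Nat.one_le_iff_ne_zero.2 h0).trans
    (Finset.single_le_sum (f := m) (fun _ _ => Nat.zero_le _) (mem_univ j₀))
  refine (pow_le_pow_of_le_one hq0 hq1 h1).trans ?_
  have h2 : 𝔼 y : Fin l, (1 - if y = j₀ then (1 : ℝ) else 0) = 1 - 1 / (l : ℝ) := by
    rw [expect_sub_distrib, Fintype.expect_const, Fintype.expect_eq_sum_div_card]
    simp
  rw [pow_one, ← h2]
  refine expect_le_expect fun y _ => ?_
  by_cases e : y = j₀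
  · simp [e, h0]
  · simp [e, (hm j₀ y e).resolve_left h0]

/-- truncated multiplicities -/
noncomputable def trunc {D B : Type} [Fintype B] (n : D → B → ℕ) (R : ℕ) (d : D) (b : B) : ℝ :=
  if ∑ b', n d b' ≤ R then n d b else 0

theorem trunc_nonneg {D B : Type} [Fintype B] (n : D → B → ℕ) (R : ℕ) (d : D) (b : B) :
    0 ≤ trunc n R d b := by
  unfold trunc
  split_ifs
  · exact Nat.cast_nonneg _
  · exact le_rfl

/-- The uncovered fraction for one tuple of neighbours. -/
theorem unc_ge {D B : Type} [Fintype B] [DecidableEq B] {l : ℕ} (hl : 1 ≤ l) (n : D → B → ℕ)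
    (R : ℕ) (i : Fin l → D) :
    (1 - 1 / (l : ℝ)) ^ (∑ j, ∑ b, n (i j) b) - (1 - 1 / (l : ℝ)) ^ R -
      ∑ j, ∑ j' ∈ univ.erase j, ∑ b, trunc n R (i j) b * trunc n R (i j') b ≤
      𝔼 x : B → Fin l, if ∀ b, n (i (x b)) b = 0 then (1 : ℝ) else 0 := by
  have hl' : (1 : ℝ) ≤ l := by exact_mod_cast hl
  have hq0 : 0 ≤ 1 - 1 / (l : ℝ) := by
    rw [sub_nonneg, div_le_one (by linarith)]
    exact hl'
  have hq1 : 1 - 1 / (l : ℝ) ≤ 1 := by
    have : 0 ≤ 1 / (l : ℝ) := by positivity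
    linarith
  have h0 : 0 ≤ 𝔼 x : B → Fin l, if ∀ b, n (i (x b)) b = 0 then (1 : ℝ) else 0 :=
    expect_nonneg fun x _ => by split_ifs <;> norm_num
  have hnn : ∀ j j' b, 0 ≤ trunc n R (i j) b * trunc n R (i j') b := fun j j' b =>
    mul_nonneg (trunc_nonneg _ _ _ _) (trunc_nonneg _ _ _ _)
  have hC : 0 ≤ ∑ j, ∑ j' ∈ univ.erase j, ∑ b, trunc n R (i j) b * trunc n R (i j') b :=
    sum_nonneg fun j _ => sum_nonneg fun j' _ => sum_nonneg fun b _ => hnn j j' b
  have hR := pow_nonneg hq0 R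
  by_cases ht : R ≤ ∑ j, ∑ b, n (i j) b
  · have := pow_le_pow_of_le_one hq0 hq1 ht
    linarith
  by_cases hc : ∀ b j j', j' ≠ j → n (i j) b = 0 ∨ n (i j') b = 0
  · have h1 := expect_pi_prod (A := B) (T := Fin l)
      (fun b y => if n (i y) b = 0 then (1 : ℝ) else 0)
    have h2 : ∀ x : B → Fin l, ∏ b, (if n (i (x b)) b = 0 then (1 : ℝ) else 0) =
        if ∀ b, n (i (x b)) b = 0 then (1 : ℝ) else 0 := fun x => by
      rw [Finset.prod_boole]
      simp
    simp only [h2] at h1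
    have h3 : (1 - 1 / (l : ℝ)) ^ (∑ j, ∑ b, n (i j) b) ≤
        ∏ b, 𝔼 y : Fin l, if n (i y) b = 0 then (1 : ℝ) else 0 := by
      rw [Finset.sum_comm, ← Finset.prod_pow_eq_pow_sum]
      exact Finset.prod_le_prod (fun b _ => pow_nonneg hq0 _)
        fun b _ => pow_le_expect hl (fun y => n (i y) b) (hc b)
    rw [h1]
    linarith
  · push Not at hc
    obtain ⟨b, j, j', hj, h1, h2⟩ := hc
    have h3 : ∀ j, n (i j) b ≠ 0 → 1 ≤ trunc n R (i j) b := by
      intro j hj
      have h4 : ∑ b, n (i j) b ≤ ∑ j, ∑ b, n (i j) b :=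
        Finset.single_le_sum (f := fun j => ∑ b, n (i j) b) (fun _ _ => Nat.zero_le _)
          (mem_univ j)
      unfold trunc
      rw [if_pos (by omega)]
      exact_mod_cast Nat.one_le_iff_ne_zero.2 hj
    have h5 : 1 ≤ ∑ j, ∑ j' ∈ univ.erase j, ∑ b, trunc n R (i j) b * trunc n R (i j') b := by
      refine le_trans ?_ (Finset.single_le_sum (f := fun j => ∑ j' ∈ univ.erase j, ∑ b,
        trunc n R (i j) b * trunc n R (i j') b) (fun j _ => sum_nonneg fun j' _ =>
          sum_nonneg fun b _ => hnn j j' b) (mem_univ j))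
      refine le_trans ?_ (Finset.single_le_sum (f := fun j' => ∑ b,
        trunc n R (i j) b * trunc n R (i j') b) (fun j' _ =>
          sum_nonneg fun b _ => hnn j j' b) (mem_erase.2 ⟨hj, mem_univ j'⟩))
      refine le_trans ?_ (Finset.single_le_sum (f := fun b =>
        trunc n R (i j) b * trunc n R (i j') b) (fun b _ => hnn j j' b) (mem_univ b))
      exact one_le_mul_of_one_le_of_one_le (h3 j h1) (h3 j' h2)
    have h6 := pow_le_one₀ (n := ∑ j, ∑ b, n (i j) b) hq0 hq1
    linarith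

theorem tangent {q : ℝ} (hq : 0 < q) (t l : ℕ) :
    q ^ l * (1 + Real.log q * (t - l)) ≤ q ^ t := by
  have h1 := Real.add_one_le_exp (Real.log q * (t - l))
  have h2 : q ^ t = q ^ l * Real.exp (Real.log q * (t - l)) := by
    rw [mul_sub, Real.exp_sub, mul_comm (Real.log q), mul_comm (Real.log q), Real.exp_nat_mul,
      Real.exp_nat_mul, Real.exp_log hq]
    field_simp
  rw [h2]
  exact mul_le_mul_of_nonneg_left (by linarith) (pow_nonneg hq.le _)

/-- The uncovered fraction for one vertex. -/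
theorem unc_avg {D B : Type} [Fintype D] [Nonempty D] [Fintype B] [DecidableEq B] {l : ℕ}
    (hl : 2 ≤ l) (n : D → B → ℕ) (R : ℕ) :
    (1 - 1 / (l : ℝ)) ^ l * (1 + Real.log (1 - 1 / (l : ℝ)) * l *
        ((𝔼 d, ((∑ b, n d b : ℕ) : ℝ)) - 1)) - (1 - 1 / (l : ℝ)) ^ R -
      (l : ℝ) ^ 2 * ∑ b, (𝔼 d, trunc n R d b) ^ 2 ≤
      𝔼 i : Fin l → D, 𝔼 x : B → Fin l, if ∀ b, n (i (x b)) b = 0 then (1 : ℝ) else 0 := by
  have hl' : (2 : ℝ) ≤ l := by exact_mod_cast hl
  have hq : 0 < 1 - 1 / (l : ℝ) := by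
    rw [sub_pos, div_lt_one (by linarith)]
    linarith
  refine le_trans ?_ (expect_le_expect fun i _ => unc_ge (by omega) n R i)
  rw [expect_sub_distrib, expect_sub_distrib, Fintype.expect_const]
  refine sub_le_sub (sub_le_sub_right ?_ _) ?_
  · refine le_trans (le_of_eq ?_) (expect_le_expect fun i _ => tangent hq _ l)
    rw [← mul_expect, expect_add_distrib, ← mul_expect, expect_sub_distrib, Fintype.expect_const,
      Fintype.expect_const]
    have h1 : 𝔼 i : Fin l → D, ((∑ j, ∑ b, n (i j) b : ℕ) : ℝ) =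
        l * 𝔼 d, ((∑ b, n d b : ℕ) : ℝ) := by
      simp only [Nat.cast_sum (s := (univ : Finset (Fin l)))]
      rw [expect_sum_comm, Finset.sum_congr rfl fun j _ =>
        expect_one j (fun d => ((∑ b, n d b : ℕ) : ℝ))]
      simp
    rw [h1]
    ring
  · rw [expect_sum_comm]
    have h1 : ∀ j : Fin l, 𝔼 i : Fin l → D, ∑ j' ∈ univ.erase j, ∑ b,
        trunc n R (i j) b * trunc n R (i j') b ≤ l * ∑ b, (𝔼 d, trunc n R d b) ^ 2 := by
      intro j
      rw [expect_sum_comm]
      have h2 : ∀ j' ∈ univ.erase j, 𝔼 i : Fin l → D, ∑ b,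
          trunc n R (i j) b * trunc n R (i j') b = ∑ b, (𝔼 d, trunc n R d b) ^ 2 := by
        intro j' hj'
        rw [expect_sum_comm]
        exact Finset.sum_congr rfl fun b _ => by
          rw [expect_two (mem_erase.1 hj').1 (fun d => trunc n R d b) (fun d => trunc n R d b), sq]
      rw [Finset.sum_congr rfl h2, Finset.sum_const, nsmul_eq_mul]
      refine mul_le_mul_of_nonneg_right ?_ (sum_nonneg fun _ _ => sq_nonneg _)
      have : (univ.erase j).card ≤ l := card_erase_le.trans (by simp)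
      exact_mod_cast this
    refine (Finset.sum_le_sum fun j _ => h1 j).trans (le_of_eq ?_)
    simp only [Finset.sum_const, card_univ, Fintype.card_fin, nsmul_eq_mul]
    ring

/-! ### The set system -/

section System

variable {D A B : Type} [Fintype D] [Fintype A] [Fintype B]

omit [Fintype A] [Fintype B] in
/-- Sums over the neighbours in a regular game. -/
theorem sum_nbr {G : LC D A B} {dV : ℕ} (hG : G.WF dV) (φ : ℕ → ℝ) :
    ∑ u ∈ range G.nU, ∑ i, φ (G.nbr u i) = dV * ∑ v ∈ range G.nV, φ v := by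
  have h1 : ∀ u ∈ range G.nU, ∀ i, φ (G.nbr u i) =
      ∑ v ∈ range G.nV, (if G.nbr u i = v then 1 else 0) * φ v := by
    intro u hu i
    simp [hG.lt u (mem_range.1 hu) i]
  rw [Finset.sum_congr rfl fun u hu => Finset.sum_congr rfl fun i _ => h1 u hu i,
    Finset.mul_sum]
  rw [Finset.sum_congr rfl fun u _ => Finset.sum_comm, Finset.sum_comm]
  refine Finset.sum_congr rfl fun v hv => ?_
  simp only [← Finset.sum_mul]
  rw [← hG.reg v (mem_range.1 hv)]
  push_cast
  rfl

/-- The element attached to the vertex `u`, the tuple `r.1` of neighbours and the point `r.2` of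
the partition system. -/
noncomputable def elem (G : LC D A B) {l : ℕ} (u : ℕ) (r : (Fin l → D) × (B → Fin l)) :
    List (ℕ × A) :=
  ((univ : Finset (Fin l × A)).toList.filter
    fun p => decide (r.2 (G.proj u (r.1 p.1) p.2) = p.1)).map fun p => (G.nbr u (r.1 p.1), p.2)

variable [DecidableEq A] [DecidableEq B]

/-- The list of all elements. -/
noncomputable def elems (G : LC D A B) (l : ℕ) : List (List (ℕ × A)) :=
  (List.range G.nU).flatMap fun u =>
    (univ : Finset ((Fin l → D) × (B → Fin l))).toList.map (elem G u)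

omit [Fintype D] [Fintype B] [DecidableEq B] in
theorem covered_elem (G : LC D A B) {l : ℕ} (u : ℕ) (r : (Fin l → D) × (B → Fin l))
    (T : Finset (ℕ × A)) : covered (elem G u r) T = true ↔
      ∃ j a, r.2 (G.proj u (r.1 j) a) = j ∧ (G.nbr u (r.1 j), a) ∈ T := by
  rw [covered_iff]
  simp only [elem, List.mem_map, List.mem_filter, mem_toList, mem_univ, true_and,
    decide_eq_true_eq]
  constructor
  · rintro ⟨w, ⟨p, h1, rfl⟩, h2⟩
    exact ⟨p.1, p.2, h1, h2⟩
  · rintro ⟨j, a, h1, h2⟩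
    exact ⟨_, ⟨(j, a), h1, rfl⟩, h2⟩

omit [DecidableEq A] in
theorem length_elems (G : LC D A B) (l : ℕ) :
    (elems G l).length = Fintype.card ((Fin l → D) × (B → Fin l)) * G.nU := by
  rw [elems, length_flatMap_const _ _ (Fintype.card ((Fin l → D) × (B → Fin l)))
    (fun _ _ => by rw [List.length_map, length_univ_toList]), List.length_range]

theorem complete {G : LC D A B} {dV : ℕ} (hG : G.WF dV) (h : G.Sat) (l : ℕ) :
    ∃ T : Finset (ℕ × A), T.card ≤ G.nV ∧ ∀ e ∈ elems G l, covered e T = true := by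
  obtain ⟨g, f, h⟩ := h
  refine ⟨(range G.nV).image fun v => (v, f v), card_image_le.trans (by simp), fun e he => ?_⟩
  simp only [elems, List.mem_flatMap, List.mem_range, List.mem_map] at he
  obtain ⟨u, hu, r, -, rfl⟩ := he
  refine (covered_elem G u r _).2 ⟨r.2 (g u), f (G.nbr u (r.1 (r.2 (g u)))), by rw [h u hu], ?_⟩
  exact mem_image.2 ⟨_, mem_range.2 (hG.lt u hu _), rfl⟩

theorem sound [Nonempty D] [Nonempty A] [Nonempty B] {G : LC D A B} {dV : ℕ} (hG : G.WF dV)
    {δ : ℝ} (h : G.ValLE δ) {l R : ℕ} (hl : 2 ≤ l) (hR : 0 < R) (T : Finset (ℕ × A))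
    (hT : T.card ≤ G.nV) :
    (cnt covered (elems G l) T : ℝ) ≤ (1 - ((1 - 1 / (l : ℝ)) ^ l - (1 - 1 / (l : ℝ)) ^ R -
      (l : ℝ) ^ 2 * ((R : ℝ) ^ 2 * δ))) * (elems G l).length := by
  have hl' : (2 : ℝ) ≤ l := by exact_mod_cast hl
  have hR' : (0 : ℝ) < R := by exact_mod_cast hR
  have hD : (0 : ℝ) < Fintype.card D := by exact_mod_cast Fintype.card_pos
  have hq : 0 < 1 - 1 / (l : ℝ) := by
    rw [sub_pos, div_lt_one (by linarith)]
    linarith
  have hq1 : 1 - 1 / (l : ℝ) ≤ 1 := by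
    have : 0 ≤ 1 / (l : ℝ) := by positivity
    linarith
  set w : ℕ → ℕ := fun v => ∑ a, if (v, a) ∈ T then 1 else 0 with hw
  set n : ℕ → D → B → ℕ := fun u d b =>
    ∑ a, if (G.nbr u d, a) ∈ T ∧ G.proj u d a = b then 1 else 0 with hn
  have hnw : ∀ u d, ∑ b, n u d b = w (G.nbr u d) := by
    intro u d
    simp only [hn, hw]
    rw [Finset.sum_comm]
    refine Finset.sum_congr rfl fun a _ => ?_
    by_cases e : (G.nbr u d, a) ∈ T <;> simp [e]
  -- the average number of labels
  have hw1 : ∑ v ∈ range G.nV, (w v : ℝ) ≤ G.nV := by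
    have h1 : ∑ v ∈ range G.nV, w v ≤ T.card := by
      simp only [hw]
      rw [← Finset.sum_product', ← Finset.card_filter]
      exact card_le_card fun p hp => (mem_filter.1 hp).2
    exact_mod_cast h1.trans hT
  have hw2 : ∑ u ∈ range G.nU, 𝔼 d, ((∑ b, n u d b : ℕ) : ℝ) ≤ G.nU := by
    simp only [hnw, Fintype.expect_eq_sum_div_card]
    rw [← Finset.sum_div, div_le_iff₀ hD, sum_nbr hG (fun v => (w v : ℝ))]
    have h1 := sum_nbr hG (fun _ => (1 : ℝ))
    simp only [Finset.sum_const, card_univ, card_range, nsmul_eq_mul, mul_one] at h1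
    rw [h1]
    exact mul_le_mul_of_nonneg_left hw1 (Nat.cast_nonneg _)
  -- collisions
  have hcol : ∑ u ∈ range G.nU, ∑ b, (𝔼 d, trunc (n u) R d b) ^ 2 ≤ (R : ℝ) ^ 2 * δ * G.nU := by
    have hpf : ∀ u d b, ∑ a, (if G.proj u d a = b then
        (if w (G.nbr u d) ≤ R ∧ (G.nbr u d, a) ∈ T then 1 / (R : ℝ) else 0) else 0) =
        trunc (n u) R d b / R := by
      intro u d b
      unfold trunc
      rw [hnw]
      by_cases e : w (G.nbr u d) ≤ R
      · rw [if_pos e]
        simp only [hn]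
        push_cast
        rw [Finset.sum_div]
        refine Finset.sum_congr rfl fun a _ => ?_
        by_cases e1 : G.proj u d a = b <;> by_cases e2 : (G.nbr u d, a) ∈ T <;> simp [e, e1, e2]
      · simp [e]
    have h1 := h.frac (fun u b => (𝔼 d, trunc (n u) R d b) / R)
      (fun v a => if w v ≤ R ∧ (v, a) ∈ T then 1 / (R : ℝ) else 0)
      (fun u b => div_nonneg (expect_nonneg fun d _ => trunc_nonneg _ _ _ _) hR'.le)
      (fun u => by
        rw [← Finset.sum_div, div_le_one hR', ← expect_sum_comm]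
        refine (expect_le_expect (g := fun _ => (R : ℝ)) fun d _ => ?_).trans (by simp)
        unfold trunc
        split_ifs with e
        · exact_mod_cast e
        · simp)
      (fun v a => by split_ifs <;> positivity)
      (fun v => by
        by_cases e : w v ≤ R
        · have h2 : ∑ a, (if w v ≤ R ∧ (v, a) ∈ T then 1 / (R : ℝ) else 0) = w v / R := by
            simp only [hw]
            push_cast
            rw [Finset.sum_div]
            refine Finset.sum_congr rfl fun a _ => ?_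
            by_cases e2 : (v, a) ∈ T
            · rw [if_pos ⟨e, e2⟩, if_pos e2]
            · rw [if_neg fun h => e2 h.2, if_neg e2, zero_div]
          rw [h2, div_le_one hR']
          exact_mod_cast e
        · simp [e])
    have h2 : ∀ u, ∑ i, ∑ a, (if w (G.nbr u i) ≤ R ∧ (G.nbr u i, a) ∈ T then 1 / (R : ℝ) else 0) *
        ((𝔼 d, trunc (n u) R d (G.proj u i a)) / R) =
        Fintype.card D / (R : ℝ) ^ 2 * ∑ b, (𝔼 d, trunc (n u) R d b) ^ 2 := by
      intro u
      have h3 : ∀ i, ∑ a, (if w (G.nbr u i) ≤ R ∧ (G.nbr u i, a) ∈ T then 1 / (R : ℝ) else 0) *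
          ((𝔼 d, trunc (n u) R d (G.proj u i a)) / R) =
          ∑ b, trunc (n u) R i b / R * ((𝔼 d, trunc (n u) R d b) / R) := by
        intro i
        simp only [← hpf, Finset.sum_mul]
        rw [Finset.sum_comm]
        refine Finset.sum_congr rfl fun a _ => ?_
        simp only [ite_mul, zero_mul, Finset.sum_ite_eq, mem_univ, if_true]
      rw [Finset.sum_congr rfl fun i _ => h3 i, Finset.sum_comm, Finset.mul_sum]
      refine Finset.sum_congr rfl fun b _ => ?_
      rw [← Finset.sum_mul, ← Finset.sum_div, ← Fintype.card_mul_expect]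
      field_simp
    rw [Finset.sum_congr rfl fun u _ => h2 u, ← Finset.mul_sum, div_mul_eq_mul_div,
      div_le_iff₀ (by positivity)] at h1
    refine le_of_mul_le_mul_left ?_ hD
    linarith only [h1]
  -- the uncovered elements
  have hK : (0 : ℝ) ≤ Fintype.card ((Fin l → D) × (B → Fin l)) := Nat.cast_nonneg _
  have hv : (viol covered (elems G l) T : ℝ) = Fintype.card ((Fin l → D) × (B → Fin l)) *
      ∑ u ∈ range G.nU, 𝔼 i : Fin l → D, 𝔼 x : B → Fin l,
        if ∀ b, n u (i (x b)) b = 0 then (1 : ℝ) else 0 := by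
    rw [viol_eq_sum, elems, sum_map_flatMap, sum_map_range, Finset.mul_sum]
    refine Finset.sum_congr rfl fun u _ => ?_
    rw [List.map_map, sum_map_univ, ← Fintype.card_mul_expect, ← univ_product_univ,
      expect_product]
    congr 1
    refine expect_congr rfl fun i _ => expect_congr rfl fun x _ => ?_
    have h1 : covered (elem G u (i, x)) T = true ↔ ¬ ∀ b, n u (i (x b)) b = 0 := by
      rw [covered_elem]
      simp only [hn, Finset.sum_eq_zero_iff, mem_univ, true_imp_iff, ite_eq_right_iff,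
        one_ne_zero, imp_false, not_forall, not_not]
      constructor
      · rintro ⟨j, a, h1, h2⟩
        exact ⟨G.proj u (i j) a, a, by rw [h1]; exact ⟨h2, rfl⟩⟩
      · rintro ⟨b, a, h1, h2⟩
        exact ⟨x b, a, by rw [h2], h1⟩
    simp only [Function.comp_apply, h1]
    split_ifs <;> rfl
  have hsum := Finset.sum_le_sum (s := range G.nU) fun u _ => unc_avg hl (n u) R
  simp only [Finset.sum_sub_distrib, ← Finset.mul_sum, Finset.sum_add_distrib, Finset.sum_const,
    card_range, nsmul_eq_mul, mul_one] at hsum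
  have hlog : Real.log (1 - 1 / (l : ℝ)) * l ≤ 0 :=
    mul_nonpos_of_nonpos_of_nonneg (Real.log_nonpos hq.le hq1) (by linarith)
  have h1 := mul_nonneg_of_nonpos_of_nonpos hlog (sub_nonpos.2 hw2)
  have h2 := mul_nonneg (pow_nonneg hq.le l) h1
  have h3 := mul_le_mul_of_nonneg_left hcol (show (0 : ℝ) ≤ (l : ℝ) ^ 2 by positivity)
  have h4 : ((1 - 1 / (l : ℝ)) ^ l - (1 - 1 / (l : ℝ)) ^ R - (l : ℝ) ^ 2 * ((R : ℝ) ^ 2 * δ)) *
      G.nU ≤ ∑ u ∈ range G.nU, 𝔼 i : Fin l → D, 𝔼 x : B → Fin l,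
        if ∀ b, n u (i (x b)) b = 0 then (1 : ℝ) else 0 := by
    nlinarith only [hsum, h2, h3]
  have h5 := mul_le_mul_of_nonneg_left h4 hK
  have h6 : (cnt covered (elems G l) T : ℝ) + viol covered (elems G l) T = (elems G l).length := by
    exact_mod_cast cnt_add_viol covered (elems G l) T
  have h7 : ((elems G l).length : ℝ) = Fintype.card ((Fin l → D) × (B → Fin l)) * G.nU := by
    exact_mod_cast length_elems G l
  rw [← hv] at h5
  rw [h7] at h6 ⊢
  nlinarith only [h5, h6]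

omit [DecidableEq A] in
theorem pt_elems [Enc A] [Enc B] [EncInj B] {α : Type} [Enc α] {F : α → LC D A B}
    (h : LC.IsPT F) (l : ℕ) : PT ∅ fun a => elems (F a) l :=
  PT.flatMap (PT.range h.nU h.nUb) (PT.mapConst _ fun r _ => PT.filterMapConst _
    (fun p _ => PT.finComp (fun π : A → B => decide (r.2 (π p.2) = p.1)) (h.proj (r.1 p.1)))
    fun p _ => (h.nbr (r.1 p.1)).pair (PT.const p.2))

end System

theorem exists_params {ε : ℝ} (hε : 0 < ε) : ∃ (l R : ℕ) (δ : ℝ), 2 ≤ l ∧ 0 < R ∧ 0 < δ ∧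
    1 - ((1 - 1 / (l : ℝ)) ^ l - (1 - 1 / (l : ℝ)) ^ R - (l : ℝ) ^ 2 * ((R : ℝ) ^ 2 * δ)) ≤
      1 - 1 / Real.exp 1 + ε := by
  have h1 := Real.tendsto_one_add_div_pow_exp (-1)
  have h2 := h1.eventually (lt_mem_nhds (show Real.exp (-1) - ε / 3 < Real.exp (-1) by linarith))
  obtain ⟨l, hl1, hl2⟩ := (h2.and (Filter.eventually_ge_atTop 2)).exists
  have hl' : (2 : ℝ) ≤ l := by exact_mod_cast hl2
  have hq1 : 1 - 1 / (l : ℝ) < 1 := by
    have : 0 < 1 / (l : ℝ) := by positivity
    linarith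
  have hq0 : 0 ≤ 1 - 1 / (l : ℝ) := by
    rw [sub_nonneg, div_le_one (by linarith)]
    linarith
  obtain ⟨R, hR⟩ := exists_pow_lt_of_lt_one (show 0 < ε / 3 by positivity) hq1
  have hR' : (1 - 1 / (l : ℝ)) ^ (R + 1) ≤ (1 - 1 / (l : ℝ)) ^ R :=
    pow_le_pow_of_le_one hq0 hq1.le (Nat.le_succ R)
  refine ⟨l, R + 1, ε / 3 / ((l : ℝ) ^ 2 * ((R + 1 : ℕ) : ℝ) ^ 2), hl2, Nat.succ_pos R,
    by positivity, ?_⟩
  have h3 : (l : ℝ) ^ 2 * (((R + 1 : ℕ) : ℝ) ^ 2 *
      (ε / 3 / ((l : ℝ) ^ 2 * ((R + 1 : ℕ) : ℝ) ^ 2))) = ε / 3 := by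
    field_simp
  rw [h3]
  rw [Real.exp_neg, neg_div, ← sub_eq_add_neg] at hl1
  rw [one_div (Real.exp 1)]
  linarith

end MaxCover

/-- **The theorem of Feige** on maximum coverage, from the hardness of label cover. -/
theorem maxCov_of_label_cover
    (h : ∀ δ : ℝ, 0 < δ → ∃ (d a b dV : ℕ)
      (F : CNF → LC (Fin (d + 1)) (Fin (a + 1)) (Fin (b + 1))), 0 < dV ∧ LCHard F dV δ)
    {ε : ℝ} (hε : 0 < ε) : Hard (MaxCov ℕ (1 - 1 / Real.exp 1 + ε)) := by
  obtain ⟨l, R, δ, hl, hR, hδ, hs⟩ := MaxCover.exists_params hε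
  obtain ⟨d, a, b, dV, F, -, hF⟩ := h δ hδ
  refine Hard.red ?_ (red_maxCov_name (ℕ × Fin (a + 1)) _)
  have : Nonempty (Fin l) := ⟨⟨0, by omega⟩⟩
  have hk : ∀ φ, 0 < (F φ).nV := fun φ =>
    (Nat.zero_le _).trans_lt ((hF.wf φ).lt 0 (hF.wf φ).pos 0)
  have hne : ∀ φ, MaxCover.elems (F φ) l ≠ [] := fun φ => by
    rw [← List.length_pos_iff, MaxCover.length_elems]
    exact Nat.mul_pos Fintype.card_pos (hF.wf φ).pos
  refine ⟨fun φ => ((F φ).nV, MaxCover.elems (F φ) l), hF.pt.nV.pair (MaxCover.pt_elems hF.pt l),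
    fun φ hφ => ⟨hk φ, hne φ, MaxCover.complete (hF.wf φ) (hF.sat φ hφ) l⟩,
    fun φ hφ => ⟨hk φ, hne φ, fun T hT => ?_⟩⟩
  exact (MaxCover.sound (hF.wf φ) (hF.val φ hφ) hl hR T hT).trans
    (mul_le_mul_of_nonneg_right hs (Nat.cast_nonneg _))

end Vale.Agent.Lib.PCP
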