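import Vale.Agent.Lib.PCP.LabelCover
import Vale.Agent.Lib.PCP.Hastad
import Vale.Agent.Lib.PCP.MaxCover

/-!
Unconditional forms of the theorems of Hastad (linear equations) and Feige (maximum coverage).
-/

namespace Vale.Agent.Lib.PCP

/-- Hastad's theorem on linear equations in three variables. -/
theorem hard_3lin {ε : ℝ} (hε : 0 < ε) : Hard (Gap (satLin (V := ℕ)) (1 - ε) (1 / 2 + ε)) :=
  hastad_of_label_cover hard_label_cover hε

/-- Feige's theorem on maximum coverage. -/
theorem hard_maxCov {ε : ℝ} (hε : 0 < ε) : Hard (MaxCov ℕ (1 - 1 / Real.exp 1 + ε)) :=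
  maxCov_of_label_cover label_cover hε

end Vale.Agent.Lib.PCP
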