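import Vale.Agent.Lib.MathlibUsed
import Mathlib.Algebra.Order.BigOperators.Expect
import Mathlib.Data.ZMod.Basic
import Mathlib.Data.Matrix.Mul

/-!
Fourier analysis on the Boolean cube `ι → ZMod 2`: characters, inversion, Plancherel, Parseval,
convolution (the BLR identity) and the BLR linearity test.
-/

namespace Vale.Agent.Lib.PCP

open Finset
open scoped BigOperators

/-! ### The field with two elements -/

theorem f2_cases (a : ZMod 2) : a = 0 ∨ a = 1 := by
  revert a; decide

theorem f2_add_self (a : ZMod 2) : a + a = 0 := by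
  revert a; decide

theorem f2_ne_zero {a : ZMod 2} : a ≠ 0 ↔ a = 1 := by
  revert a; decide

theorem f2_ne_one {a : ZMod 2} : a ≠ 1 ↔ a = 0 := by
  revert a; decide

theorem f2_add_eq_zero {a b : ZMod 2} : a + b = 0 ↔ a = b := by
  revert a b; decide

theorem f2_add_eq_one {a b : ZMod 2} : a + b = 1 ↔ a ≠ b := by
  revert a b; decide

theorem f2_mul_self (a : ZMod 2) : a * a = a := by
  revert a; decide

theorem f2_vec_add_self {ι : Type*} (x : ι → ZMod 2) : x + x = 0 := by
  funext i; exact f2_add_self _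

theorem f2_vec_add_eq_zero {ι : Type*} {x y : ι → ZMod 2} : x + y = 0 ↔ x = y := by
  constructor
  · intro h; funext i; exact f2_add_eq_zero.1 (congrFun h i)
  · rintro rfl; exact f2_vec_add_self _

/-- The sign `(-1)^a`. -/
def sg (a : ZMod 2) : ℝ := if a = 0 then 1 else -1

@[simp] theorem sg_zero : sg 0 = 1 := by simp [sg]
@[simp] theorem sg_one : sg 1 = -1 := by simp [sg]

theorem sg_add (a b : ZMod 2) : sg (a + b) = sg a * sg b := by
  rcases f2_cases a with rfl | rfl <;> rcases f2_cases b with rfl | rfl <;>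
    simp [f2_add_self]

theorem sg_mul_self (a : ZMod 2) : sg a * sg a = 1 := by
  rcases f2_cases a with rfl | rfl <;> simp

theorem sg_sq (a : ZMod 2) : sg a ^ 2 = 1 := by rw [sq, sg_mul_self]

theorem abs_sg (a : ZMod 2) : |sg a| = 1 := by
  rcases f2_cases a with rfl | rfl <;> simp

theorem sg_le_one (a : ZMod 2) : sg a ≤ 1 := by
  rcases f2_cases a with rfl | rfl <;> simp

theorem neg_one_le_sg (a : ZMod 2) : -1 ≤ sg a := by
  rcases f2_cases a with rfl | rfl <;> simp

theorem sg_eq_ite (a : ZMod 2) : sg a = 1 - 2 * (if a = 0 then 0 else 1) := by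
  rcases f2_cases a with rfl | rfl <;> norm_num

theorem sg_eq_ite' (a : ZMod 2) : sg a = 2 * (if a = 0 then 1 else 0) - 1 := by
  rcases f2_cases a with rfl | rfl <;> norm_num

theorem sg_mul_sg (a b : ZMod 2) : sg a * sg b = 1 - 2 * (if a = b then 0 else 1) := by
  rcases f2_cases a with rfl | rfl <;> rcases f2_cases b with rfl | rfl <;> norm_num

theorem sg_sum {κ : Type*} (s : Finset κ) (f : κ → ZMod 2) :
    sg (∑ i ∈ s, f i) = ∏ i ∈ s, sg (f i) := by
  classical
  induction s using Finset.induction_on with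
  | empty => simp
  | insert a s h ih => rw [sum_insert h, prod_insert h, sg_add, ih]

/-! ### Characters -/

variable {ι : Type*} [Fintype ι]

/-- The character `x ↦ (-1)^(α · x)`. -/
def chi (α x : ι → ZMod 2) : ℝ := sg (α ⬝ᵥ x)

theorem chi_comm (α x : ι → ZMod 2) : chi α x = chi x α := by rw [chi, chi, dotProduct_comm]

theorem chi_add (α x y : ι → ZMod 2) : chi α (x + y) = chi α x * chi α y := by
  rw [chi, dotProduct_add, sg_add]; rfl

theorem chi_add_left (α β x : ι → ZMod 2) : chi (α + β) x = chi α x * chi β x := by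
  rw [chi, add_dotProduct, sg_add]; rfl

@[simp] theorem chi_zero (α : ι → ZMod 2) : chi α 0 = 1 := by simp [chi]
@[simp] theorem chi_zero_left (x : ι → ZMod 2) : chi 0 x = 1 := by simp [chi]

theorem chi_mul_self (α x : ι → ZMod 2) : chi α x * chi α x = 1 := sg_mul_self _
theorem chi_sq (α x : ι → ZMod 2) : chi α x ^ 2 = 1 := sg_sq _
theorem abs_chi (α x : ι → ZMod 2) : |chi α x| = 1 := abs_sg _

theorem chi_eq_prod (α x : ι → ZMod 2) : chi α x = ∏ i, sg (α i * x i) := by
  rw [chi, dotProduct, sg_sum]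

variable [DecidableEq ι]

/-- Translation invariance of the uniform distribution on the cube. -/
theorem expect_add_right {M : Type*} [AddCommMonoid M] [Module ℚ≥0 M] (f : (ι → ZMod 2) → M)
    (z : ι → ZMod 2) : 𝔼 x, f (x + z) = 𝔼 x, f x :=
  Fintype.expect_equiv (Equiv.addRight z) _ _ fun _ => rfl

theorem expect_add_left {M : Type*} [AddCommMonoid M] [Module ℚ≥0 M] (f : (ι → ZMod 2) → M)
    (z : ι → ZMod 2) : 𝔼 x, f (z + x) = 𝔼 x, f x :=
  Fintype.expect_equiv (Equiv.addLeft z) _ _ fun _ => rfl

theorem expect_chi (α : ι → ZMod 2) : 𝔼 x, chi α x = if α = 0 then 1 else 0 := by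
  split_ifs with h
  · subst h; simp
  · obtain ⟨i, hi⟩ := Function.ne_iff.1 h
    have h1 : α i = 1 := f2_ne_zero.1 hi
    have h2 := expect_add_right (fun x => chi α x) (Pi.single i 1)
    have h3 : chi α (Pi.single i 1) = -1 := by simp [chi, h1]
    simp only [chi_add, h3, mul_neg, mul_one, expect_neg_distrib] at h2
    linarith

theorem sum_chi (x : ι → ZMod 2) :
    ∑ α, chi α x = if x = 0 then (Fintype.card (ι → ZMod 2) : ℝ) else 0 := by
  rw [← Fintype.card_mul_expect]
  simp only [chi_comm _ x, expect_chi]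
  split_ifs <;> simp

theorem expect_chi_mul_chi (α β : ι → ZMod 2) :
    𝔼 x, chi α x * chi β x = if α = β then 1 else 0 := by
  simp only [← chi_add_left, expect_chi, f2_vec_add_eq_zero]

/-! ### Fourier coefficients -/

/-- The Fourier coefficient. -/
noncomputable def hat (f : (ι → ZMod 2) → ℝ) (α : ι → ZMod 2) : ℝ := 𝔼 x, f x * chi α x

/-- Fourier inversion. -/
theorem inversion (f : (ι → ZMod 2) → ℝ) (x : ι → ZMod 2) : ∑ α, hat f α * chi α x = f x := by
  have h1 : ∀ α, hat f α * chi α x = 𝔼 y, f y * chi α (y + x) := by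
    intro α
    rw [hat, expect_mul]
    simp only [chi_add, mul_assoc]
  simp only [h1]
  rw [← expect_sum_comm]
  simp only [← mul_sum, sum_chi, f2_vec_add_eq_zero, mul_ite, mul_zero]
  rw [Fintype.expect_eq_sum_div_card, sum_ite_eq']
  have : (Fintype.card (ι → ZMod 2) : ℝ) ≠ 0 := Nat.cast_ne_zero.2 Fintype.card_ne_zero
  simp only [mem_univ, if_true]
  field_simp

theorem plancherel (f g : (ι → ZMod 2) → ℝ) : 𝔼 x, f x * g x = ∑ α, hat f α * hat g α := by
  conv_lhs => enter [2, x]; rw [← inversion g x, mul_sum]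
  rw [expect_sum_comm]
  refine sum_congr rfl fun α _ => ?_
  rw [show hat f α = 𝔼 x, f x * chi α x from rfl, expect_mul]
  exact expect_congr rfl fun x _ => by ring

theorem parseval (f : (ι → ZMod 2) → ℝ) : ∑ α, hat f α ^ 2 = 𝔼 x, f x ^ 2 := by
  simp only [sq, plancherel]

/-- Parseval for sign valued functions. -/
theorem parseval_sg (F : (ι → ZMod 2) → ZMod 2) : ∑ α, hat (fun x => sg (F x)) α ^ 2 = 1 := by
  rw [parseval]
  simp only [sg_sq, Fintype.expect_const]

theorem parseval_le_one {f : (ι → ZMod 2) → ℝ} (hf : ∀ x, |f x| ≤ 1) : ∑ α, hat f α ^ 2 ≤ 1 := by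
  rw [parseval]
  exact expect_le univ_nonempty fun x _ => (sq_le_one_iff_abs_le_one _).2 (hf x)

theorem hat_chi (β α : ι → ZMod 2) : hat (chi β) α = if β = α then 1 else 0 :=
  expect_chi_mul_chi _ _

theorem hat_zero (f : (ι → ZMod 2) → ℝ) : hat f 0 = 𝔼 x, f x := by simp [hat]

theorem hat_translate (f : (ι → ZMod 2) → ℝ) (z α : ι → ZMod 2) :
    hat (fun x => f (x + z)) α = hat f α * chi α z := by
  rw [hat, hat, ← expect_add_right _ z, expect_mul]
  refine expect_congr rfl fun x _ => ?_
  rw [add_assoc, f2_vec_add_self, add_zero, chi_add, mul_assoc]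

/-- The correlation of `g` with a translate of `h`. -/
theorem expect_mul_translate (g h : (ι → ZMod 2) → ℝ) (z : ι → ZMod 2) :
    𝔼 y, g y * h (y + z) = ∑ α, hat g α * hat h α * chi α z := by
  rw [plancherel]
  simp only [hat_translate, mul_assoc]

/-- The convolution identity behind the BLR test. -/
theorem expect_blr (f g h : (ι → ZMod 2) → ℝ) :
    𝔼 x, 𝔼 y, f x * g y * h (x + y) = ∑ α, hat f α * hat g α * hat h α := by
  have h1 : ∀ x, 𝔼 y, f x * g y * h (x + y) = ∑ α, hat g α * hat h α * (f x * chi α x) := by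
    intro x
    have := expect_mul_translate g h x
    simp only [add_comm x, mul_assoc (f x), ← mul_expect, this, mul_sum]
    exact sum_congr rfl fun α _ => by ring
  simp only [h1]
  rw [expect_sum_comm]
  refine sum_congr rfl fun α _ => ?_
  rw [← mul_expect, mul_comm, mul_assoc]
  rfl

/-- A function which changes sign under the translation by `z` has no Fourier weight on the
characters that vanish on `z`. -/
theorem hat_eq_zero_of_odd {f : (ι → ZMod 2) → ℝ} {z : ι → ZMod 2} (hf : ∀ x, f (x + z) = -f x)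
    {α : ι → ZMod 2} (hα : α ⬝ᵥ z = 0) : hat f α = 0 := by
  have h1 := hat_translate f z α
  have h2 : hat (fun x => f (x + z)) α = -hat f α := by
    simp only [hat, hf, neg_mul, expect_neg_distrib]
  rw [h2, chi, hα, sg_zero] at h1
  linarith

/-- A function which is invariant under the translation by `z` has no Fourier weight on the
characters that do not vanish on `z`. -/
theorem hat_eq_zero_of_even {f : (ι → ZMod 2) → ℝ} {z : ι → ZMod 2} (hf : ∀ x, f (x + z) = f x)
    {α : ι → ZMod 2} (hα : α ⬝ᵥ z ≠ 0) : hat f α = 0 := by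
  have h1 := hat_translate f z α
  simp only [hf] at h1
  rw [chi, f2_ne_zero.1 hα, sg_one] at h1
  change hat f α = _ at h1
  linarith

/-! ### The BLR linearity test -/

/-- BLR: some linear function disagrees with `F` with probability at most the rejection
probability of the test. -/
theorem blr (F : (ι → ZMod 2) → ZMod 2) : ∃ α : ι → ZMod 2,
    𝔼 x, (if F x = α ⬝ᵥ x then (0 : ℝ) else 1) ≤
      𝔼 x, 𝔼 y, (if F x + F y = F (x + y) then (0 : ℝ) else 1) := by
  set f : (ι → ZMod 2) → ℝ := fun x => sg (F x) with hf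
  obtain ⟨α, -, hα⟩ := exists_max_image univ (hat f) univ_nonempty
  refine ⟨α, ?_⟩
  have h1 : hat f α = 1 - 2 * 𝔼 x, (if F x = α ⬝ᵥ x then (0 : ℝ) else 1) := by
    simp only [hat, hf, chi, sg_mul_sg, expect_sub_distrib, Fintype.expect_const, ← mul_expect]
  have h2 : 𝔼 x, 𝔼 y, f x * f y * f (x + y) =
      1 - 2 * 𝔼 x, 𝔼 y, (if F x + F y = F (x + y) then (0 : ℝ) else 1) := by
    simp only [hf, ← sg_add (F _) (F _), sg_mul_sg, expect_sub_distrib, Fintype.expect_const,
      ← mul_expect]
  have h3 : ∑ β, hat f β * hat f β * hat f β ≤ hat f α := by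
    calc ∑ β, hat f β * hat f β * hat f β ≤ ∑ β, hat f β ^ 2 * hat f α :=
          sum_le_sum fun β _ => by
            rw [← sq]
            exact mul_le_mul_of_nonneg_left (hα β (mem_univ _)) (sq_nonneg _)
      _ = hat f α := by rw [← sum_mul, hf, parseval_sg, one_mul]
  rw [← expect_blr] at h3
  linarith

end Vale.Agent.Lib.PCP
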