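import Vale.Agent.Lib.PCP.LCPow

/-!
The vertex versus edge projection game of a regular constraint graph, and label cover with
arbitrarily small soundness from a gap for regular constraint graphs.
-/

namespace Vale.Agent.Lib.PCP

open Vale.Agent.Lib.PolyTime Finset
open scoped BigOperators

/-- Reindexing a sum along a generator. -/
theorem Schreier.sum_nxt {D M : Type} [Rev D] [AddCommMonoid M] {n : ℕ} {nxt : D → ℕ → ℕ}
    (h : Schreier n nxt) (i : D) (F : ℕ → M) :
    ∑ v ∈ range n, F (nxt i v) = ∑ v ∈ range n, F v := by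
  refine Finset.sum_nbij' (nxt i) (nxt (rev i)) ?_ ?_ ?_ ?_ fun _ _ => rfl
  · intro v hv
    exact Finset.mem_range.2 (h.lt i v (Finset.mem_range.1 hv))
  · intro v hv
    exact Finset.mem_range.2 (h.lt _ v (Finset.mem_range.1 hv))
  · intro v hv
    exact h.inv i v (Finset.mem_range.1 hv)
  · intro v hv
    have := h.inv (rev i) v (Finset.mem_range.1 hv)
    rwa [rev_rev] at this

theorem Schreier.inv' {D : Type} [Rev D] {n : ℕ} {nxt : D → ℕ → ℕ} (h : Schreier n nxt) (i : D)
    {v : ℕ} (hv : v < n) : nxt i (nxt (rev i) v) = v := by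
  have := h.inv (rev i) v hv
  rwa [rev_rev] at this

/-- The number of the pair `(v, i)`. -/
noncomputable def pcode {D : Type} [Fintype D] (v : ℕ) (i : D) : ℕ :=
  v * Fintype.card D + Fintype.equivFin D i

theorem pcode_lt {D : Type} [Fintype D] {n v : ℕ} (hv : v < n) (i : D) :
    pcode v i < n * Fintype.card D := by
  have := (Fintype.equivFin D i).2
  unfold pcode
  nlinarith

theorem pcode_div {D : Type} [Fintype D] (v : ℕ) (i : D) : pcode v i / Fintype.card D = v := by
  have := (Fintype.equivFin D i).2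
  rw [pcode, add_comm, Nat.add_mul_div_right _ _ (by omega), Nat.div_eq_of_lt this, zero_add]

theorem pcode_mod {D : Type} [Fintype D] (v : ℕ) (i : D) :
    pcode v i % Fintype.card D = Fintype.equivFin D i := by
  have := (Fintype.equivFin D i).2
  rw [pcode, add_comm, Nat.add_mul_mod_self_right, Nat.mod_eq_of_lt this]

theorem pcode_inj {D : Type} [Fintype D] {v v' : ℕ} {i i' : D} (h : pcode v i = pcode v' i') :
    v = v' ∧ i = i' := by
  refine ⟨by rw [← pcode_div v i, h, pcode_div], (Fintype.equivFin D).injective (Fin.ext ?_)⟩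
  rw [← pcode_mod v i, h, pcode_mod]

theorem exists_pcode {D : Type} [Fintype D] {n w : ℕ} (hw : w < n * Fintype.card D) :
    ∃ v < n, ∃ i : D, pcode v i = w := by
  have hd : 0 < Fintype.card D := Nat.pos_of_ne_zero fun e => by simp [e] at hw
  refine ⟨w / Fintype.card D, (Nat.div_lt_iff_lt_mul hd).2 hw,
    (Fintype.equivFin D).symm ⟨w % Fintype.card D, Nat.mod_lt _ hd⟩, ?_⟩
  rw [pcode, Equiv.apply_symm_apply]
  exact Nat.div_add_mod' _ _

theorem sum_pcode_eq {D : Type} [Fintype D] {n w : ℕ} (hw : w < n * Fintype.card D) :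
    ∑ v ∈ range n, ∑ i : D, (if pcode v i = w then 1 else 0) = 1 := by
  classical
  obtain ⟨v0, hv0, i0, rfl⟩ := exists_pcode hw
  rw [Finset.sum_eq_single v0, Finset.sum_eq_single i0, if_pos rfl]
  · intro i _ hi
    exact if_neg fun e => hi (pcode_inj e).2
  · simp
  · intro v _ hv
    exact Finset.sum_eq_zero fun i _ => if_neg fun e => hv (pcode_inj e).1
  · intro h
    exact absurd (Finset.mem_range.2 hv0) h

/-- Sums over `range (n * card D)` as sums over pairs. -/
theorem sum_range_pcode {D M : Type} [Fintype D] [AddCommMonoid M] (n : ℕ) (F : ℕ → M) :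
    ∑ w ∈ range (n * Fintype.card D), F w = ∑ v ∈ range n, ∑ i : D, F (pcode v i) := by
  rw [← Finset.sum_product']
  symm
  refine Finset.sum_bij (fun p _ => pcode p.1 p.2) ?_ ?_ ?_ fun _ _ => rfl
  · intro p hp
    exact Finset.mem_range.2 (pcode_lt (Finset.mem_range.1 (Finset.mem_product.1 hp).1) _)
  · intro p _ q _ h
    exact Prod.ext (pcode_inj h).1 (pcode_inj h).2
  · intro w hw
    obtain ⟨v, hv, i, rfl⟩ := exists_pcode (Finset.mem_range.1 hw)
    exact ⟨(v, i), Finset.mem_product.2 ⟨Finset.mem_range.2 hv, Finset.mem_univ _⟩, rfl⟩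

theorem PT_pcode {α D : Type} [Enc α] [Fintype D] {v : α → ℕ} (hv : PT ∅ v) (i : D) :
    PT ∅ fun a => pcode (v a) i := (hv.mul (PT.const _)).add (PT.const _)

/-- Pairs outside the relation are replaced by a fixed pair of the relation. -/
noncomputable def fixPair {S : Type} (P : S → S → Bool) (p : S × S) : S × S :=
  open Classical in
  if P p.1 p.2 = true then p else if h : ∃ q : S × S, P q.1 q.2 = true then h.choose else p

theorem fixPair_of {S : Type} {P : S → S → Bool} {p : S × S} (h : P p.1 p.2 = true) :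
    fixPair P p = p := by simp [fixPair, h]

theorem fixPair_spec {S : Type} {P : S → S → Bool} (h : ∃ a b, P a b = true) (p : S × S) :
    P (fixPair P p).1 (fixPair P p).2 = true := by
  obtain ⟨a, b, h⟩ := h
  have h' : ∃ q : S × S, P q.1 q.2 = true := ⟨(a, b), h⟩
  unfold fixPair
  split_ifs with h1
  · exact h1
  · exact h'.choose_spec

namespace RG

variable {D S : Type} [Fintype D] [Rev D]

/-- The vertex versus edge game. -/
noncomputable def toLC (G : RG D S) : LC (D × Bool) (S × S) S where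
  nU := G.n
  nV := G.n * Fintype.card D
  nbr x i := bif i.2 then pcode (G.nxt (rev i.1) x) i.1 else pcode x i.1
  proj x i p := bif i.2 then (fixPair (G.con i.1 (G.nxt (rev i.1) x)) p).2
    else (fixPair (G.con i.1 x) p).1

/-- Sums over the edges of the vertex versus edge game. -/
theorem sum_toLC {M : Type} [AddCommMonoid M] {G : RG D S} (hG : G.WF)
    (F : ℕ → ℕ → (S × S → S) → M) :
    ∑ x ∈ range G.n, ∑ i, F x (G.toLC.nbr x i) (G.toLC.proj x i) =
      ∑ v ∈ range G.n, ∑ i : D, (F v (pcode v i) (fun p => (fixPair (G.con i v) p).1) +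
        F (G.nxt i v) (pcode v i) (fun p => (fixPair (G.con i v) p).2)) := by
  simp only [Fintype.sum_prod_type, Fintype.sum_bool, Finset.sum_add_distrib]
  rw [add_comm]
  congr 1
  rw [Finset.sum_comm, Finset.sum_comm (s := range G.n)]
  refine Finset.sum_congr rfl fun i _ => ?_
  rw [← hG.sch.sum_nxt i]
  refine Finset.sum_congr rfl fun v hv => ?_
  simp only [toLC, cond_true, hG.sch.inv i v (Finset.mem_range.1 hv)]

theorem toLC_wf {G : RG D S} (hG : G.WF) : G.toLC.WF 2 where
  pos := hG.pos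
  lt u hu i := by
    obtain ⟨i, b⟩ := i
    cases b
    · exact pcode_lt hu i
    · exact pcode_lt (hG.sch.lt _ _ hu) i
  reg v hv := by
    have := sum_toLC hG (fun _ w _ => if w = v then 1 else 0)
    refine this.trans ?_
    simp only [Finset.sum_add_distrib]
    rw [sum_pcode_eq hv]

theorem toLC_sat {G : RG D S} (hG : G.WF) (h : G.Sat) : G.toLC.Sat := by
  classical
  obtain ⟨σ, hσ⟩ := h
  have : Nonempty (S × S) := ⟨(σ 0, σ 0)⟩
  obtain ⟨f, key⟩ := exists_transport' (S := S × S)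
    (ρ := fun p : ℕ × D => pcode p.1 p.2)
    (fun p q h => Prod.ext (pcode_inj h).1 (pcode_inj h).2) fun p => (σ p.1, σ (G.nxt p.2 p.1))
  have key' : ∀ (v : ℕ) (j : D), f (pcode v j) = (σ v, σ (G.nxt j v)) := fun v j => key (v, j)
  refine ⟨σ, f, fun u hu i => ?_⟩
  obtain ⟨i, b⟩ := i
  cases b
  · simp only [toLC, cond_false, key']
    rw [fixPair_of (hσ u hu i)]
  · simp only [toLC, cond_true, key']
    rw [fixPair_of (hσ _ (hG.sch.lt _ _ hu) i), hG.sch.inv' i hu]

theorem toLC_valLE [DecidableEq S] {G : RG D S} (hG : G.WF) (hs : G.AllSat) {α : ℝ}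
    (h : G.Far α) : G.toLC.ValLE (1 - α / 2) := by
  intro g f
  have e := sum_toLC hG (fun x w π => if π (f w) = g x then (1 : ℝ) else 0)
  refine e.trans_le ?_
  have h1 := h g
  have h2 : ∑ v ∈ range G.n, ∑ i : D,
      ((if (fixPair (G.con i v) (f (pcode v i))).1 = g v then (1 : ℝ) else 0) +
        if (fixPair (G.con i v) (f (pcode v i))).2 = g (G.nxt i v) then (1 : ℝ) else 0) ≤
      ∑ v ∈ range G.n, ∑ i : D, (2 - if G.ok g v i = true then (0 : ℝ) else 1) := by
    refine Finset.sum_le_sum fun v hv => Finset.sum_le_sum fun i _ => ?_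
    have h3 := fixPair_spec (hs v (Finset.mem_range.1 hv) i) (f (pcode v i))
    split_ifs with a1 a2 a3 <;> try norm_num
    rw [a1, a2] at h3
    exact a3 h3
  refine h2.trans ?_
  simp only [Finset.sum_sub_distrib, Finset.sum_const, Finset.card_univ, Finset.card_range,
    nsmul_eq_mul, toLC, Fintype.card_prod, Fintype.card_bool, Nat.cast_mul, Nat.cast_ofNat]
  linarith

omit [Fintype D] [Rev D] in
theorem Far.le_one [Fintype D] [Nonempty D] [Nonempty S] {G : RG D S} (hG : 0 < G.n) {α : ℝ}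
    (h : G.Far α) : α ≤ 1 := by
  have h1 := h fun _ => Classical.arbitrary S
  have h2 : ∑ v ∈ range G.n, ∑ i : D,
      (if G.ok (fun _ => Classical.arbitrary S) v i = true then (0 : ℝ) else 1) ≤
      ∑ v ∈ range G.n, ∑ i : D, 1 :=
    Finset.sum_le_sum fun v _ => Finset.sum_le_sum fun i _ => by split_ifs <;> norm_num
  simp only [Finset.sum_const, Finset.card_univ, Finset.card_range, nsmul_eq_mul, mul_one] at h2
  have h3 : (0 : ℝ) < G.n * Fintype.card D := by
    have : (0 : ℝ) < G.n := by exact_mod_cast hG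
    have : (0 : ℝ) < Fintype.card D := by exact_mod_cast Fintype.card_pos
    positivity
  nlinarith

theorem IsPT.toLC [Fintype S] [Enc S] {α : Type} [Enc α] {F : α → RG D S} (h : IsPT F) :
    LC.IsPT fun a => (F a).toLC where
  nU := h.n
  nUb := h.nb
  nV := h.n.mul (PT.const _)
  nVb := h.nb.mul (PBd.const _)
  nbr i := by
    obtain ⟨i, b⟩ := i
    cases b
    · exact PT_pcode PT.snd' i
    · exact PT_pcode (h.nxt (rev i)) i
  proj i := by
    obtain ⟨i, b⟩ := i
    cases b
    · exact PT.finComp (fun (P : S → S → Bool) (p : S × S) => (fixPair P p).1) (h.con i)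
    · exact PT.finComp (fun (P : S → S → Bool) (p : S × S) => (fixPair P p).2)
        ((h.con i).comp (PT.fst'.pair (h.nxt (rev i))))

end RG

/-- A family of projection games which is a gap reduction from 3-SAT with perfect completeness,
soundness `s` and degree `dV` on the side of the large alphabet. -/
structure LCHard {D A B : Type} [Fintype D] [Fintype A] [Enc B] [DecidableEq B]
    (F : CNF → LC D A B) (dV : ℕ) (s : ℝ) : Prop where
  pt : LC.IsPT F
  wf : ∀ φ, (F φ).WF dV
  sat : ∀ φ, Satisfiable φ → (F φ).Sat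
  val : ∀ φ, ¬ Satisfiable φ → (F φ).ValLE s

namespace LCHard

variable {D A B D' A' B' : Type} [Fintype D] [Fintype A] [Enc B] [DecidableEq B]
  {F : CNF → LC D A B} {dV : ℕ} {s : ℝ}

theorem mono (h : LCHard F dV s) {s' : ℝ} (hs : s ≤ s') : LCHard F dV s' :=
  ⟨h.pt, h.wf, h.sat, fun φ hφ => (h.val φ hφ).mono hs⟩

theorem pow [Nonempty D] [Fintype B] [Nonempty A] [Nonempty B] {ε δ : ℝ} (h : LCHard F dV (1 - ε))
    (h0 : 0 ≤ ε) (h1 : ε ≤ 1) {k : ℕ} (hδ : 0 ≤ δ) (hk : (1 - ε ^ 2 / 10) ^ k ≤ δ ^ 2) :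
    LCHard (fun φ => (F φ).pow k) (dV ^ k) δ :=
  ⟨h.pt.pow k, fun φ => (h.wf φ).pow k, fun φ hφ => (h.sat φ hφ).pow (h.wf φ).pos (h.wf φ).lt k,
    fun φ hφ => (h.val φ hφ).pow (h.wf φ).pos (h.wf φ).lt h0 h1 hδ hk⟩

theorem relabel [Finite B] [EncInj B] [Nonempty B] [Fintype D'] [Fintype A'] [Enc B']
    [DecidableEq B'] (h : LCHard F dV s) (eD : D' ≃ D) {eA : A' → A} (hA : Function.Surjective eA)
    {eB : B → B'} (hB : Function.Injective eB) :
    LCHard (fun φ => (F φ).relabel eD eA eB) dV s :=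
  ⟨h.pt.relabel _ _ _, fun φ => (h.wf φ).relabel _ _ _, fun φ hφ => (h.sat φ hφ).relabel _ hA _,
    fun φ hφ => (h.val φ hφ).relabel _ _ hB⟩

/-- The gap problem on edge lists is hard. -/
theorem hard_gap [Nonempty D] (h : LCHard F dV s) :
    Hard (Gap (satP (U := ℕ) (V := ℕ) (A := A) (B := B)) 1 s) :=
  ⟨fun φ => (F φ).edges, h.pt.edges,
    fun φ hφ => gap_yes_one.2 ⟨LC.edges_ne_nil (h.wf φ).pos, (h.sat φ hφ).edges⟩,
    fun φ hφ => ⟨LC.edges_ne_nil (h.wf φ).pos, (h.val φ hφ).edges⟩⟩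

end LCHard

theorem exists_pow_le_sq {ε δ : ℝ} (h0 : 0 < ε) (hδ : 0 < δ) :
    ∃ k : ℕ, (1 - ε ^ 2 / 10) ^ k ≤ δ ^ 2 := by
  obtain ⟨k, hk⟩ := exists_pow_lt_of_lt_one (show 0 < δ ^ 2 by positivity)
    (show 1 - ε ^ 2 / 10 < 1 by nlinarith [sq_pos_of_pos h0])
  exact ⟨k, hk.le⟩

/-- A nonempty finite type is equivalent to some `Fin (d + 1)`. -/
theorem exists_equiv_fin_succ (D : Type) [Finite D] [Nonempty D] :
    ∃ d, Nonempty (Fin (d + 1) ≃ D) := by
  have := Fintype.ofFinite D
  obtain ⟨d, hd⟩ := Nat.exists_eq_succ_of_ne_zero (Fintype.card_ne_zero (α := D))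
  exact ⟨d, ⟨(Fintype.equivFinOfCardEq hd).symm⟩⟩

/-- The base game attached to a gap reduction to regular constraint graphs. -/
theorem lcHard_of_rg {D S : Type} [Fintype D] [Rev D] [Fintype S] [DecidableEq S] [Enc S]
    {α : ℝ} {F : CNF → RG D S} (hF : RG.IsPT F)
    (h : ∀ φ, (F φ).WF ∧ (F φ).AllSat ∧ (Satisfiable φ → (F φ).Sat) ∧
      (¬ Satisfiable φ → (F φ).Far α)) :
    LCHard (fun φ => (F φ).toLC) 2 (1 - α / 2) :=
  ⟨hF.toLC, fun φ => RG.toLC_wf (h φ).1, fun φ hφ => RG.toLC_sat (h φ).1 ((h φ).2.2.1 hφ),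
    fun φ hφ => RG.toLC_valLE (h φ).1 (h φ).2.1 ((h φ).2.2.2 hφ)⟩

/-- Amplification: from a constant gap to arbitrarily small soundness, with alphabets `Fin _`. -/
theorem LCHard.amplify {D A B : Type} [Fintype D] [Nonempty D] [Fintype A] [Nonempty A]
    [Fintype B] [Nonempty B] [DecidableEq B] [Enc B] [EncInj B] {F : CNF → LC D A B} {dV : ℕ}
    {ε : ℝ} (hd : 0 < dV) (hε : 0 < ε) (h : LCHard F dV (1 - ε)) (δ : ℝ) (hδ : 0 < δ) :
    ∃ (d a b dV : ℕ) (F : CNF → LC (Fin (d + 1)) (Fin (a + 1)) (Fin (b + 1))),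
      0 < dV ∧ LCHard F dV δ := by
  have h' : LCHard F dV (1 - min ε 1) := h.mono (by linarith [min_le_left ε 1])
  have hε' : 0 < min ε 1 := lt_min hε one_pos
  obtain ⟨k, hk⟩ := exists_pow_le_sq hε' hδ
  have h1 := h'.pow hε'.le (min_le_right _ _) hδ.le hk
  obtain ⟨d, ⟨eD⟩⟩ := exists_equiv_fin_succ (Fin k → D)
  obtain ⟨a, ⟨eA⟩⟩ := exists_equiv_fin_succ (Fin k → A)
  obtain ⟨b, ⟨eB⟩⟩ := exists_equiv_fin_succ (Fin k → B)
  exact ⟨d, a, b, dV ^ k, _, pow_pos hd k, h1.relabel eD eA.surjective eB.symm.injective⟩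

end Vale.Agent.Lib.PCP
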