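import Vale.Agent.Lib.PCP.Basic
import Vale.Agent.Lib.PCP.Rep.GenMain

/-!
Parallel repetition of projection games in regular form, relabelling, fractional labelings.
-/

namespace Vale.Agent.Lib.PCP

open Vale.Agent.Lib.PolyTime Finset
open scoped BigOperators

/-- Sums over a fixed finite set are computable in polynomial time. -/
theorem PT_finsetSum {α κ : Type} [Enc α] (s : Finset κ) {f : κ → α → ℕ}
    (hf : ∀ t, PT ∅ (f t)) : PT ∅ fun a => ∑ t ∈ s, f t a := by
  classical
  induction s using Finset.induction_on with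
  | empty => exact (PT.const 0).congr fun a => by simp
  | insert t s ht ih => exact ((hf t).add ih).congr fun a => by rw [Finset.sum_insert ht]

/-- The digit number `t` of `u` in base `n`. -/
def dig (n u t : ℕ) : ℕ := u / n ^ t % n

/-- The number with given digits in base `n`. -/
def undig {k : ℕ} (n : ℕ) (x : Fin k → ℕ) : ℕ := ∑ t, x t * n ^ (t : ℕ)

theorem dig_lt {n : ℕ} (hn : 0 < n) (u t : ℕ) : dig n u t < n := Nat.mod_lt _ hn

theorem undig_fin {k n : ℕ} (x : Fin k → Fin n) :
    undig n (fun t => (x t : ℕ)) = (finFunctionFinEquiv x : ℕ) := rfl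

theorem dig_fin {k n : ℕ} (x : Fin k → Fin n) (t : Fin k) :
    dig n (finFunctionFinEquiv x : ℕ) t = x t := by
  have : (finFunctionFinEquiv.symm (finFunctionFinEquiv x) t : ℕ) = x t := by
    rw [Equiv.symm_apply_apply]
  exact this

theorem undig_lt {k n : ℕ} {x : Fin k → ℕ} (hx : ∀ t, x t < n) : undig n x < n ^ k :=
  (finFunctionFinEquiv fun t => (⟨x t, hx t⟩ : Fin n)).2

theorem dig_undig {k n : ℕ} {x : Fin k → ℕ} (hx : ∀ t, x t < n) (t : Fin k) :
    dig n (undig n x) t = x t :=
  dig_fin (fun t => (⟨x t, hx t⟩ : Fin n)) t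

theorem undig_dig {k n u : ℕ} (hu : u < n ^ k) : undig n (fun t : Fin k => dig n u t) = u :=
  congrArg Fin.val (finFunctionFinEquiv.apply_symm_apply (⟨u, hu⟩ : Fin (n ^ k)))

/-- Sums over `range (n ^ k)` as sums over tuples of digits. -/
theorem sum_range_pow {M : Type*} [AddCommMonoid M] (n k : ℕ) (F : ℕ → M) :
    ∑ u ∈ range (n ^ k), F u = ∑ x : Fin k → Fin n, F (finFunctionFinEquiv x) := by
  rw [Finset.sum_range]
  exact (Fintype.sum_equiv finFunctionFinEquiv _ _ fun _ => rfl).symm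

theorem PT_dig {α : Type} [Enc α] {n u : α → ℕ} (hn : PT ∅ n) (hu : PT ∅ u) (t : ℕ) :
    PT ∅ fun a => dig (n a) (u a) t := (hu.div (hn.powConst t)).mod hn

theorem PT_undig {α : Type} [Enc α] {k : ℕ} {n : α → ℕ} {x : α → Fin k → ℕ} (hn : PT ∅ n)
    (hx : ∀ t, PT ∅ fun a => x a t) : PT ∅ fun a => undig (n a) (x a) :=
  PT_finsetSum univ (f := fun t a => x a t * n a ^ (t : ℕ)) fun t => (hx t).mul (hn.powConst t)

namespace LC

variable {D A B D' A' B' : Type}

/-- The weighted game attached to a game in regular form. -/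
noncomputable def toWG [Fintype D] (G : LC D A B) (h : ∀ u < G.nU, ∀ i, G.nbr u i < G.nV) :
    Rep.WG (Fin G.nU) D (Fin G.nV) A B where
  ν _ := 1 / G.nU
  p _ _ := 1 / Fintype.card D
  nbr u i := ⟨G.nbr u i, h u u.2 i⟩
  proj u i := G.proj u i

theorem toWG_wf [Fintype D] (G : LC D A B) (h : ∀ u < G.nU, ∀ i, G.nbr u i < G.nV) :
    (G.toWG h).WF where
  ν0 _ := by simp only [toWG]; positivity
  ν1 := by
    simp only [toWG, Finset.sum_const, Finset.card_univ, Fintype.card_fin, nsmul_eq_mul]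
    rw [mul_one_div]
    exact div_self_le_one _
  p0 _ _ := by simp only [toWG]; positivity
  p1 _ := by
    simp only [toWG, Finset.sum_const, Finset.card_univ, nsmul_eq_mul]
    rw [mul_one_div]
    exact div_self_le_one _

theorem toWG_val [Fintype D] [DecidableEq B] (G : LC D A B)
    (h : ∀ u < G.nU, ∀ i, G.nbr u i < G.nV) (g : ℕ → B) (f : ℕ → A) :
    (G.toWG h).val (fun u => g u) (fun v => f v) =
      (∑ u ∈ range G.nU, ∑ i, if G.proj u i (f (G.nbr u i)) = g u then (1 : ℝ) else 0) /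
        (G.nU * Fintype.card D) := by
  rw [Finset.sum_range, Finset.sum_div]
  refine Finset.sum_congr rfl fun u _ => ?_
  show (1 / (G.nU : ℝ)) * ∑ i, (1 / (Fintype.card D : ℝ)) *
    (if G.proj u i (f (G.nbr u i)) = g u then (1 : ℝ) else 0) = _
  rw [← Finset.mul_sum]
  ring

theorem ValLE.toWG [Fintype D] [DecidableEq B] [Nonempty A] [Nonempty B] {G : LC D A B} {s : ℝ}
    (hs : G.ValLE s) (h0 : 0 ≤ s) (h : ∀ u < G.nU, ∀ i, G.nbr u i < G.nV) (g : Fin G.nU → B)
    (f : Fin G.nV → A) : (G.toWG h).val g f ≤ s := by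
  obtain ⟨g', hg⟩ := exists_transport' Fin.val_injective g
  obtain ⟨f', hf⟩ := exists_transport' Fin.val_injective f
  have e1 : g = fun u : Fin G.nU => g' u := funext fun u => (hg u).symm
  have e2 : f = fun v : Fin G.nV => f' v := funext fun v => (hf v).symm
  rw [e1, e2, toWG_val]
  exact div_le_of_le_mul₀ (by positivity) h0 (hs g' f')

theorem valLE_of_toWG [Fintype D] [Nonempty D] [DecidableEq B] {G : LC D A B} {s : ℝ}
    (hpos : 0 < G.nU) (h : ∀ u < G.nU, ∀ i, G.nbr u i < G.nV)
    (hs : ∀ g f, (G.toWG h).val g f ≤ s) : G.ValLE s := by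
  intro g f
  have := hs (fun u => g u) (fun v => f v)
  rw [toWG_val, div_le_iff₀] at this
  · exact this
  · have h1 : (0 : ℝ) < G.nU := by exact_mod_cast hpos
    have h2 : (0 : ℝ) < Fintype.card D := by exact_mod_cast Fintype.card_pos
    positivity

theorem ValLE.mono [Fintype D] [DecidableEq B] {G : LC D A B} {s s' : ℝ} (h : G.ValLE s)
    (h' : s ≤ s') : G.ValLE s' :=
  fun g f => (h g f).trans (mul_le_mul_of_nonneg_right h' (by positivity))

/-- The value bound holds for fractional labelings. -/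
theorem ValLE.frac [Fintype D] [Fintype A] [Fintype B] [DecidableEq B] [Nonempty A] [Nonempty B]
    {G : LC D A B} {s : ℝ} (hs : G.ValLE s) (pg : ℕ → B → ℝ) (pf : ℕ → A → ℝ)
    (g0 : ∀ u b, 0 ≤ pg u b) (g1 : ∀ u, ∑ b, pg u b ≤ 1) (f0 : ∀ v a, 0 ≤ pf v a)
    (f1 : ∀ v, ∑ a, pf v a ≤ 1) :
    ∑ u ∈ range G.nU, ∑ i, ∑ a, pf (G.nbr u i) a * pg u (G.proj u i a) ≤
      s * (G.nU * Fintype.card D) := by
  classical
  set y : ℕ → B → ℝ := fun u b => ∑ i, ∑ a, if G.proj u i a = b then pf (G.nbr u i) a else 0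
    with hy
  have y0 : ∀ u b, 0 ≤ y u b := fun u b => Finset.sum_nonneg fun i _ =>
    Finset.sum_nonneg fun a _ => by
      split_ifs
      · exact f0 _ _
      · exact le_rfl
  have hg := fun u => Finite.exists_max (y u)
  choose g hg using hg
  set W : ℕ → A → ℝ := fun v a => ∑ u ∈ range G.nU, ∑ i,
    if G.nbr u i = v ∧ G.proj u i a = g u then 1 else 0 with hW
  have W0 : ∀ v a, 0 ≤ W v a := fun v a => Finset.sum_nonneg fun u _ =>
    Finset.sum_nonneg fun i _ => by split_ifs <;> norm_num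
  have hf := fun v => Finite.exists_max (W v)
  choose f hf using hf
  set T : Finset ℕ := (range G.nU ×ˢ (univ : Finset D)).image fun p => G.nbr p.1 p.2 with hT
  have hmem : ∀ u ∈ range G.nU, ∀ i, G.nbr u i ∈ T := fun u hu i =>
    Finset.mem_image.2 ⟨(u, i), Finset.mem_product.2 ⟨hu, Finset.mem_univ _⟩, rfl⟩
  have key : ∀ q : ℕ → A → ℝ, ∑ v ∈ T, ∑ a, q v a * W v a =
      ∑ u ∈ range G.nU, ∑ i, ∑ a, if G.proj u i a = g u then q (G.nbr u i) a else 0 := by
    intro q
    simp only [hW, Finset.mul_sum]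
    calc ∑ v ∈ T, ∑ a, ∑ u ∈ range G.nU, ∑ i, q v a *
            (if G.nbr u i = v ∧ G.proj u i a = g u then (1 : ℝ) else 0)
        = ∑ a, ∑ v ∈ T, ∑ u ∈ range G.nU, ∑ i, q v a *
            (if G.nbr u i = v ∧ G.proj u i a = g u then (1 : ℝ) else 0) := Finset.sum_comm
      _ = ∑ a, ∑ u ∈ range G.nU, ∑ i, ∑ v ∈ T, q v a *
            (if G.nbr u i = v ∧ G.proj u i a = g u then (1 : ℝ) else 0) := by
          refine Finset.sum_congr rfl fun a _ => ?_
          rw [Finset.sum_comm]
          exact Finset.sum_congr rfl fun u _ => Finset.sum_comm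
      _ = ∑ u ∈ range G.nU, ∑ i, ∑ a, ∑ v ∈ T, q v a *
            (if G.nbr u i = v ∧ G.proj u i a = g u then (1 : ℝ) else 0) := by
          rw [Finset.sum_comm]
          exact Finset.sum_congr rfl fun u _ => Finset.sum_comm
      _ = _ := by
          refine Finset.sum_congr rfl fun u hu => Finset.sum_congr rfl fun i _ =>
            Finset.sum_congr rfl fun a _ => ?_
          rw [Finset.sum_eq_single (G.nbr u i)]
          · by_cases h : G.proj u i a = g u <;> simp [h]
          · intro v _ hv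
            simp [Ne.symm hv]
          · intro h
            exact absurd (hmem u hu i) h
  calc ∑ u ∈ range G.nU, ∑ i, ∑ a, pf (G.nbr u i) a * pg u (G.proj u i a)
      = ∑ u ∈ range G.nU, ∑ b, pg u b * y u b := by
        refine Finset.sum_congr rfl fun u _ => ?_
        simp only [hy, Finset.mul_sum]
        rw [Finset.sum_comm (s := (univ : Finset B))]
        refine Finset.sum_congr rfl fun i _ => ?_
        rw [Finset.sum_comm (s := (univ : Finset B))]
        refine Finset.sum_congr rfl fun a _ => ?_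
        simp [mul_comm]
    _ ≤ ∑ u ∈ range G.nU, y u (g u) := by
        refine Finset.sum_le_sum fun u _ => ?_
        calc ∑ b, pg u b * y u b ≤ ∑ b, pg u b * y u (g u) := Finset.sum_le_sum fun b _ =>
              mul_le_mul_of_nonneg_left (hg u b) (g0 u b)
          _ = (∑ b, pg u b) * y u (g u) := by rw [Finset.sum_mul]
          _ ≤ y u (g u) := mul_le_of_le_one_left (y0 _ _) (g1 u)
    _ = ∑ v ∈ T, ∑ a, pf v a * W v a := (key pf).symm
    _ ≤ ∑ v ∈ T, ∑ a, (if a = f v then (1 : ℝ) else 0) * W v a := by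
        refine Finset.sum_le_sum fun v _ => ?_
        calc ∑ a, pf v a * W v a ≤ ∑ a, pf v a * W v (f v) := Finset.sum_le_sum fun a _ =>
              mul_le_mul_of_nonneg_left (hf v a) (f0 v a)
          _ = (∑ a, pf v a) * W v (f v) := by rw [Finset.sum_mul]
          _ ≤ W v (f v) := mul_le_of_le_one_left (W0 _ _) (f1 v)
          _ = _ := by simp
    _ = ∑ u ∈ range G.nU, ∑ i, (if G.proj u i (f (G.nbr u i)) = g u then (1 : ℝ) else 0) := by
        rw [key]
        refine Finset.sum_congr rfl fun u _ => Finset.sum_congr rfl fun i _ => ?_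
        rw [Finset.sum_eq_single (f (G.nbr u i))]
        · simp
        · intro a _ ha
          simp [ha]
        · simp
    _ ≤ _ := hs g f

/-! ### Parallel repetition -/

/-- The `k`-fold parallel repetition. -/
def pow (k : ℕ) (G : LC D A B) : LC (Fin k → D) (Fin k → A) (Fin k → B) where
  nU := G.nU ^ k
  nV := G.nV ^ k
  nbr u i := undig G.nV fun t => G.nbr (dig G.nU u t) (i t)
  proj u i a := fun t => G.proj (dig G.nU u t) (i t) (a t)

theorem pow_lt {G : LC D A B} (hpos : 0 < G.nU) (h : ∀ u < G.nU, ∀ i, G.nbr u i < G.nV) (k : ℕ)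
    (u : ℕ) (i : Fin k → D) : (G.pow k).nbr u i < (G.pow k).nV :=
  undig_lt fun _ => h _ (dig_lt hpos _ _) _

theorem dig_pow_nbr {G : LC D A B} (hpos : 0 < G.nU) (h : ∀ u < G.nU, ∀ i, G.nbr u i < G.nV)
    {k : ℕ} (u : ℕ) (i : Fin k → D) (t : Fin k) :
    dig G.nV ((G.pow k).nbr u i) t = G.nbr (dig G.nU u t) (i t) :=
  dig_undig (x := fun t => G.nbr (dig G.nU u t) (i t)) (fun _ => h _ (dig_lt hpos _ _) _) t

theorem WF.pow [Fintype D] {G : LC D A B} {dV : ℕ} (hG : G.WF dV) (k : ℕ) :
    (G.pow k).WF (dV ^ k) where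
  pos := pow_pos hG.pos k
  lt u _ i := pow_lt hG.pos hG.lt k u i
  reg v hv := by
    have hv' : ∀ t : Fin k, dig G.nV v t < G.nV := fun t => by
      refine dig_lt (Nat.pos_of_ne_zero fun e => ?_) _ _
      have := hG.lt 0 hG.pos
      have hk : k ≠ 0 := by have := t.2; omega
      simp only [LC.pow, e, zero_pow hk] at hv
      omega
    have e1 : ∀ (x : Fin k → Fin G.nU) (i : Fin k → D),
        (if (G.pow k).nbr (finFunctionFinEquiv x) i = v then 1 else 0) =
          ∏ t, if G.nbr (x t) (i t) = dig G.nV v t then 1 else 0 := by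
      intro x i
      have e0 : (G.pow k).nbr (finFunctionFinEquiv x) i = v ↔
          ∀ t, G.nbr (x t) (i t) = dig G.nV v t := by
        refine ⟨fun e t => ?_, fun e => ?_⟩
        · rw [← e, dig_pow_nbr hG.pos hG.lt, dig_fin]
        · rw [← undig_dig hv]
          simp only [LC.pow, dig_fin]
          congr 1
          funext t
          exact e t
      rw [Fintype.prod_boole]
      simp only [e0]
      congr
    show ∑ u ∈ range (G.nU ^ k), _ = _
    rw [sum_range_pow]
    simp only [e1]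
    have e2 : ∀ x : Fin k → Fin G.nU, ∑ i : Fin k → D,
        ∏ t, (if G.nbr (x t) (i t) = dig G.nV v t then 1 else 0) =
        ∏ t, ∑ i, if G.nbr (x t) i = dig G.nV v t then 1 else 0 := fun x =>
      (Fintype.prod_sum fun (t : Fin k) i =>
        if G.nbr (x t) i = dig G.nV v t then (1 : ℕ) else 0).symm
    simp only [e2]
    rw [← Fintype.prod_sum fun (t : Fin k) (u : Fin G.nU) =>
      ∑ i, if G.nbr u i = dig G.nV v t then (1 : ℕ) else 0]
    have e3 : ∀ t : Fin k, ∑ u : Fin G.nU, ∑ i, (if G.nbr u i = dig G.nV v t then 1 else 0) = dV :=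
      fun t => by
        rw [← hG.reg _ (hv' t), Finset.sum_range]
    simp only [e3]
    simp

theorem Sat.pow {G : LC D A B} (hpos : 0 < G.nU) (h : ∀ u < G.nU, ∀ i, G.nbr u i < G.nV)
    (hG : G.Sat) (k : ℕ) : (G.pow k).Sat := by
  obtain ⟨g, f, hgf⟩ := hG
  refine ⟨fun u t => g (dig G.nU u t), fun v t => f (dig G.nV v t), fun u _ i => ?_⟩
  funext t
  show G.proj _ _ (f (dig G.nV ((G.pow k).nbr u i) t)) = _
  rw [dig_pow_nbr hpos h]
  exact hgf _ (dig_lt hpos _ _) _

/-- Parallel repetition theorem for games in regular form. -/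
theorem ValLE.pow [Fintype D] [Nonempty D] [Fintype A] [Fintype B] [DecidableEq B] [Nonempty A]
    [Nonempty B] {G : LC D A B} (hpos : 0 < G.nU) (h : ∀ u < G.nU, ∀ i, G.nbr u i < G.nV)
    {ε s : ℝ} (h0 : 0 ≤ ε) (h1 : ε ≤ 1) (hG : G.ValLE (1 - ε)) {k : ℕ} (hs0 : 0 ≤ s)
    (hs : (1 - ε ^ 2 / 10) ^ k ≤ s ^ 2) : (G.pow k).ValLE s := by
  intro g f
  have key := Rep.WG.val_pi (fun _ : Fin k => G.toWG h) (fun _ => ε) (fun _ => G.toWG_wf h)
    (fun _ => h0) (fun _ => h1) (fun _ => hG.toWG (by linarith) h)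
    (fun x => g (finFunctionFinEquiv x)) (fun y => f (finFunctionFinEquiv y))
  rw [Finset.prod_const, Finset.card_univ, Fintype.card_fin] at key
  have k2 := abs_le_of_sq_le_sq' (key.trans hs) hs0
  have e : (Rep.WG.pi fun _ : Fin k => G.toWG h).val (fun x => g (finFunctionFinEquiv x))
      (fun y => f (finFunctionFinEquiv y)) = (∑ u ∈ range (G.pow k).nU, ∑ i,
        if (G.pow k).proj u i (f ((G.pow k).nbr u i)) = g u then (1 : ℝ) else 0) /
        ((G.pow k).nU * Fintype.card (Fin k → D)) := by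
    show _ = (∑ u ∈ range (G.nU ^ k), _) / _
    rw [sum_range_pow, Finset.sum_div]
    refine Finset.sum_congr rfl fun x _ => ?_
    have e1 : ∀ i : Fin k → D, (G.pow k).nbr (finFunctionFinEquiv x) i =
        finFunctionFinEquiv fun t => (⟨G.nbr (x t) (i t), h _ (x t).2 _⟩ : Fin G.nV) := by
      intro i
      simp only [LC.pow, dig_fin]
      rfl
    have e2 : ∀ i : Fin k → D, (G.pow k).proj (finFunctionFinEquiv x) i =
        fun a t => G.proj (x t) (i t) (a t) := by
      intro i
      simp only [LC.pow, dig_fin]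
    simp only [e1, e2]
    show (∏ _t : Fin k, 1 / (G.nU : ℝ)) * ∑ i : Fin k → D,
      (∏ _t : Fin k, 1 / (Fintype.card D : ℝ)) *
      (if (fun t => G.proj (x t) (i t) (f (finFunctionFinEquiv fun t =>
        (⟨G.nbr (x t) (i t), h _ (x t).2 _⟩ : Fin G.nV)) t)) = g (finFunctionFinEquiv x)
        then (1 : ℝ) else 0) = _
    rw [← Finset.mul_sum]
    simp only [Finset.prod_const, Finset.card_univ, Fintype.card_fin, LC.pow, Fintype.card_fun,
      Nat.cast_pow]
    ring
  replace k2 := k2.2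
  rw [e, div_le_iff₀] at k2
  · exact k2
  · have h1 : (0 : ℝ) < (G.pow k).nU := by exact_mod_cast pow_pos hpos k
    have h2 : (0 : ℝ) < Fintype.card (Fin k → D) := by exact_mod_cast Fintype.card_pos
    positivity

theorem IsPT.pow [Fintype A] [Enc B] {α : Type} [Enc α] {F : α → LC D A B} (h : IsPT F) (k : ℕ) :
    IsPT fun a => (F a).pow k where
  nU := h.nU.powConst k
  nUb := h.nUb.pow k
  nV := h.nV.powConst k
  nVb := h.nVb.pow k
  nbr i := PT_undig (h.nV.comp PT.fst') fun t =>
    (h.nbr (i t)).comp (PT.fst'.pair (PT_dig (h.nU.comp PT.fst') PT.snd' t))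
  proj i := PT.funMk fun a => PT.funMk fun t =>
    PT.funAt ((h.proj (i t)).comp (PT.fst'.pair (PT_dig (h.nU.comp PT.fst') PT.snd' t))) (a t)

/-! ### Relabelling -/

/-- Change of the index set of the neighbours and of the alphabets. -/
def relabel (eD : D' → D) (eA : A' → A) (eB : B → B') (G : LC D A B) : LC D' A' B' where
  nU := G.nU
  nV := G.nV
  nbr u i := G.nbr u (eD i)
  proj u i a := eB (G.proj u (eD i) (eA a))

theorem WF.relabel [Fintype D] [Fintype D'] {G : LC D A B} {dV : ℕ} (hG : G.WF dV) (eD : D' ≃ D)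
    (eA : A' → A) (eB : B → B') : (G.relabel eD eA eB).WF dV where
  pos := hG.pos
  lt u hu i := hG.lt u hu _
  reg v hv := by
    rw [← hG.reg v hv]
    exact Finset.sum_congr rfl fun u _ => Fintype.sum_equiv eD _ _ fun _ => rfl

theorem Sat.relabel {G : LC D A B} (hG : G.Sat) (eD : D' → D) {eA : A' → A}
    (hA : Function.Surjective eA) (eB : B → B') : (G.relabel eD eA eB).Sat := by
  obtain ⟨g, f, h⟩ := hG
  refine ⟨fun u => eB (g u), fun v => Function.surjInv hA (f v), fun u hu i => ?_⟩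
  simp only [LC.relabel, Function.surjInv_eq]
  rw [h u hu]

theorem ValLE.relabel [Fintype D] [Fintype D'] [DecidableEq B] [DecidableEq B'] [Nonempty B]
    {G : LC D A B} {s : ℝ} (hG : G.ValLE s) (eD : D' ≃ D) (eA : A' → A) {eB : B → B'}
    (hB : Function.Injective eB) : (G.relabel eD eA eB).ValLE s := by
  intro g f
  rw [Fintype.card_congr eD]
  refine le_trans ?_ (hG (fun u => Function.invFun eB (g u)) fun v => eA (f v))
  refine Finset.sum_le_sum fun u _ => ?_
  rw [← Equiv.sum_comp eD]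
  refine Finset.sum_le_sum fun i _ => ?_
  show (if eB (G.proj u (eD i) (eA (f (G.nbr u (eD i))))) = g u then (1 : ℝ) else 0) ≤
    if G.proj u (eD i) (eA (f (G.nbr u (eD i)))) = Function.invFun eB (g u) then (1 : ℝ) else 0
  split_ifs with h1 h2
  · exact le_rfl
  · exact absurd (by rw [← h1, Function.leftInverse_invFun hB]) h2
  · norm_num
  · exact le_rfl

theorem IsPT.relabel [Fintype A] [Enc B] [Finite B] [EncInj B] [Fintype A'] [Enc B'] {α : Type}
    [Enc α] {F : α → LC D A B} (h : IsPT F) (eD : D' → D) (eA : A' → A) (eB : B → B') :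
    IsPT fun a => (F a).relabel eD eA eB where
  nU := h.nU
  nUb := h.nUb
  nV := h.nV
  nVb := h.nVb
  nbr i := h.nbr (eD i)
  proj i := PT.funMk fun a => PT.finComp eB (PT.funAt (h.proj (eD i)) (eA a))

theorem IsPT.comp [Fintype A] [Enc B] {α β : Type} [Enc α] [Enc β] {F : α → LC D A B}
    (h : IsPT F) {g : β → α} (hg : PT ∅ g) : IsPT fun b => F (g b) where
  nU := h.nU.comp hg
  nUb := h.nUb.comp hg
  nV := h.nV.comp hg
  nVb := h.nVb.comp hg
  nbr i := (h.nbr i).comp ((hg.comp PT.fst').pair PT.snd')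
  proj i := (h.proj i).comp ((hg.comp PT.fst').pair PT.snd')

end LC

end Vale.Agent.Lib.PCP
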