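import Vale.Agent.Lib.PCP.PowerMoment

/-!
Soundness of graph powering with a uniformly random length of the walk.
-/

namespace Vale.Agent.Lib.PCP.Power

open Finset
open scoped BigOperators

variable {V D S : Type*}

/-- All ways to write a list as `l₁ ++ d :: l₂`. -/
def splits : List D → List (List D × D × List D)
  | [] => []
  | d :: l => ([], d, l) :: (splits l).map (fun t => (d :: t.1, t.2))

theorem eq_of_mem_splits {q : List D} {t : List D × D × List D} (h : t ∈ splits q) :
    q = t.1 ++ t.2.1 :: t.2.2 := by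
  induction q generalizing t with
  | nil => simp [splits] at h
  | cons d l ih =>
    simp only [splits, List.mem_cons, List.mem_map] at h
    rcases h with rfl | ⟨t', ht', rfl⟩
    · rfl
    · rw [ih ht']
      rfl

theorem sum_splits_marks (s : D → V → V) (y : V → D → ℝ) (a : V) (q : List D) :
    ((splits q).map (fun t => y (walk s a t.1) t.2.1)).sum = marks s y a q := by
  induction q generalizing a with
  | nil => rfl
  | cons d l ih =>
    simp only [splits, List.map_cons, List.sum_cons, List.map_map, marks, walk_nil]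
    rw [← ih]
    rfl

theorem av_splits [Fintype D] (m : ℕ) (f : List D × D × List D → ℝ) :
    av (m + 1) (fun q => ((splits q).map f).sum) =
      ∑ p ∈ antidiagonal m, av p.1 (fun l₁ => 𝔼 d, av p.2 (fun l₂ => f (l₁, d, l₂))) := by
  induction m generalizing f with
  | zero => simp [av_succ, av_zero, splits]
  | succ m ih =>
    rw [av_succ, Nat.sum_antidiagonal_succ]
    simp only [splits, List.map_cons, List.sum_cons, List.map_map]
    simp only [av_add, ih, expect_add_distrib, expect_sum_comm]
    rfl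

theorem sum_sq_le_sum_antidiagonal (B : ℕ) (T : ℕ × ℕ → ℝ) (hT : ∀ p, 0 ≤ T p) :
    ∑ i ∈ range B, ∑ j ∈ range B, T (i, j) ≤
      ∑ m ∈ range (2 * B), ∑ p ∈ antidiagonal m, T p := by
  rw [← sum_product', ← sum_fiberwise_of_maps_to (s := range B ×ˢ range B) (t := range (2 * B))
    (g := fun p => p.1 + p.2)]
  · refine sum_le_sum fun m _ => sum_le_sum_of_subset_of_nonneg ?_ fun p _ _ => hT p
    intro p hp
    exact mem_antidiagonal.2 (mem_filter.1 hp).2
  · intro p hp
    simp only [mem_product, mem_range] at hp ⊢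
    omega

/-- The test of the walk from `a` along `q`: `α` gives the opinions of the start vertex, `β` the
opinions of the end vertex. -/
def acc (s : D → V → V) (inv : D → D) (c : V → D → S → S → Bool) (B : ℕ) (a : V) (q : List D)
    (α β : List D → S) : Bool :=
  (splits q).all fun t => !(decide (t.1.length < B) && decide (t.2.2.length < B)) ||
    c (walk s a t.1) t.2.1 (α t.1) (β (rev inv t.2.2))

variable [Fintype V] [Fintype D] [Fintype S] [Nonempty V] [Nonempty D] [Nonempty S]
  {s : D → V → V} {inv : D → D}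

omit [Fintype V] [Nonempty V] in
/-- The most popular opinion. -/
theorem exists_popular [DecidableEq S] (s : D → V → V) (inv : D → D) (B : ℕ)
    (A : V → List D → S) (u : V) : ∃ x : S, (B : ℝ) / Fintype.card S ≤
      ∑ i ∈ range B, av i (fun l => if A (walk s u l) (rev inv l) = x then (1 : ℝ) else 0) := by
  have hS : (0 : ℝ) < Fintype.card S := by exact_mod_cast Fintype.card_pos
  refine exists_le_of_sum_le (s := univ) univ_nonempty (le_of_eq ?_) |>.imp fun x hx => hx.2
  rw [sum_comm]
  simp only [← av_sum, sum_ite_eq, mem_univ, if_true, av_const, sum_const, card_range, card_univ,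
    nsmul_eq_mul, mul_one]
  field_simp

theorem min_div_le {x x₀ W : ℝ} (h0 : 0 ≤ x₀) (hx : x₀ ≤ x) (hW : 0 < W) :
    min x₀ 1 / (W + 2) ≤ x / (W + 2 * x) := by
  have hx0 : 0 ≤ x := h0.trans hx
  rw [div_le_div_iff₀ (by positivity) (by positivity)]
  have h1 : min x₀ 1 ≤ x := (min_le_left _ _).trans hx
  have h2 : min x₀ 1 ≤ 1 := min_le_right _ _
  nlinarith

/-- Soundness of powering. -/
theorem Sym.soundness (h : Sym s inv) {γ : ℝ} (hγ : 0 < γ) (hP : PoincN s γ)
    (c : V → D → S → S → Bool) {δ₀ : ℝ} (hδ₀ : 0 ≤ δ₀)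
    (far : ∀ σ : V → S, δ₀ ≤ 𝔼 v, 𝔼 d, if c v d (σ v) (σ (s d v)) = true then (0 : ℝ) else 1)
    (B : ℕ) (A : V → List D → S) :
    min (B * δ₀) 1 / (24 * (Fintype.card S : ℝ) ^ 4 * (1 + 1 / γ)) * (2 * B) ≤
      ∑ m ∈ range (2 * B), 𝔼 a, av (m + 1) (fun q =>
        if acc s inv c B a q (A a) (A (walk s a q)) = true then (0 : ℝ) else 1) := by
  classical
  choose σ hσ using exists_popular s inv B A
  set k : ℝ := (Fintype.card S : ℝ) with hk
  have k0 : 0 < k := by rw [hk]; exact_mod_cast Fintype.card_pos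
  set y : V → D → ℝ := fun v d => if c v d (σ v) (σ (s d v)) = true then 0 else 1 with hy
  have y0 : ∀ a d, 0 ≤ y a d := fun a d => by simp only [hy]; split_ifs <;> norm_num
  have y1 : ∀ a d, y a d ≤ 1 := fun a d => by simp only [hy]; split_ifs <;> norm_num
  set δ : ℝ := 𝔼 v, 𝔼 d, y v d with hδ
  have hδ' : δ₀ ≤ δ := far σ
  have δ0 : 0 ≤ δ := hδ₀.trans hδ'
  -- agreement with the popular opinion
  set z : V → List D → ℝ := fun u l => if A (walk s u l) (rev inv l) = σ u then 1 else 0 with hz
  have z0 : ∀ u l, 0 ≤ z u l := fun u l => by simp only [hz]; split_ifs <;> norm_num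
  have z1 : ∀ u l, z u l ≤ 1 := fun u l => by simp only [hz]; split_ifs <;> norm_num
  set x : V → List D × D × List D → ℝ := fun a t =>
    if t.1.length < B ∧ t.2.2.length < B then
      z (walk s a t.1) (rev inv t.1) * (y (walk s a t.1) t.2.1 *
        z (s t.2.1 (walk s a t.1)) t.2.2) else 0 with hx
  have x0 : ∀ a t, 0 ≤ x a t := fun a t => by
    simp only [hx]
    split_ifs
    · exact mul_nonneg (z0 _ _) (mul_nonneg (y0 _ _) (z0 _ _))
    · exact le_rfl
  have xy : ∀ a t, x a t ≤ y (walk s a t.1) t.2.1 := fun a t => by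
    simp only [hx]
    split_ifs
    · exact (mul_le_of_le_one_left (mul_nonneg (y0 _ _) (z0 _ _)) (z1 _ _)).trans
        (mul_le_of_le_one_right (y0 _ _) (z1 _ _))
    · exact y0 _ _
  set N : V → List D → ℝ := fun a q => ((splits q).map (x a)).sum with hN
  have N0 : ∀ a q, 0 ≤ N a q := fun a q => List.sum_nonneg (by
    intro r hr
    obtain ⟨t, -, rfl⟩ := List.mem_map.1 hr
    exact x0 a t)
  have NM : ∀ a q, N a q ≤ marks s y a q := fun a q => by
    rw [← sum_splits_marks]
    exact List.sum_le_sum fun t _ => xy a t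
  have Nacc : ∀ a q, acc s inv c B a q (A a) (A (walk s a q)) = true → N a q = 0 := by
    intro a q hacc
    refine List.sum_eq_zero fun r hr => ?_
    obtain ⟨t, ht, rfl⟩ := List.mem_map.1 hr
    have h1 := List.all_eq_true.1 hacc t ht
    have h2 := eq_of_mem_splits ht
    simp only [hx]
    split_ifs with hl
    · simp only [hl.1, hl.2, decide_true, Bool.and_self, Bool.not_true, Bool.false_or] at h1
      simp only [hz, hy, h.walk_rev, h.rev_rev]
      rw [h2, walk_append, walk_cons] at h1
      split_ifs with e1 e2 e3 e4 e5 <;> try simp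
      rw [e1, e4] at h1
      exact e2 h1
    · rfl
  -- first moment
  have first : δ * (B / k) ^ 2 ≤ ∑ m ∈ range (2 * B), 𝔼 a, av (m + 1) (N a) := by
    have e1 : ∀ m, 𝔼 a, av (m + 1) (N a) = ∑ p ∈ antidiagonal m,
        𝔼 a, av p.1 (fun l₁ => 𝔼 d, av p.2 (fun l₂ => x a (l₁, d, l₂))) := by
      intro m
      simp only [hN, av_splits, expect_sum_comm]
    simp only [e1]
    refine le_trans ?_ (sum_sq_le_sum_antidiagonal B (fun p =>
      𝔼 a, av p.1 (fun l₁ => 𝔼 d, av p.2 (fun l₂ => x a (l₁, d, l₂)))) fun p =>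
        expect_nonneg fun a _ => av_nonneg fun l₁ _ => expect_nonneg fun d _ =>
          av_nonneg fun l₂ _ => x0 _ _)
    have e2 : ∀ i ∈ range B, ∀ j ∈ range B,
        𝔼 a, av i (fun l₁ => 𝔼 d, av j (fun l₂ => x a (l₁, d, l₂))) =
          𝔼 u, 𝔼 d, av i (z u) * (y u d * av j (z (s d u))) := by
      intro i hi j hj
      rw [h.expect_av_rev]
      refine expect_congr rfl fun u _ => ?_
      have e3 : ∀ l₁ : List D, l₁.length = i →
          𝔼 d, av j (fun l₂ => x (walk s u l₁) (rev inv l₁, d, l₂)) =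
            z u l₁ * 𝔼 d, y u d * av j (z (s d u)) := by
        intro l₁ hl₁
        rw [mul_expect]
        refine expect_congr rfl fun d _ => ?_
        rw [← av_mul_left, ← av_mul_left]
        refine av_congr fun l₂ hl₂ => ?_
        simp only [hx, length_rev, hl₁, hl₂, mem_range.1 hi, mem_range.1 hj, and_self, if_true,
          h.walk_rev, h.rev_rev]
      rw [av_congr e3, av_mul_right, mul_expect]
    rw [sum_congr rfl fun i hi => sum_congr rfl fun j hj => e2 i hi j hj]
    simp only [← expect_sum_comm, ← mul_sum, ← sum_mul]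
    rw [hδ, expect_mul]
    refine expect_le_expect fun u _ => ?_
    rw [expect_mul]
    refine expect_le_expect fun d _ => ?_
    have a1 : (B : ℝ) / k ≤ ∑ i ∈ range B, av i (z u) := hσ u
    have a2 : (B : ℝ) / k ≤ ∑ i ∈ range B, av i (z (s d u)) := hσ (s d u)
    have a3 : (0 : ℝ) ≤ B / k := by positivity
    calc y u d * (B / k) ^ 2 = B / k * (y u d * (B / k)) := by ring
      _ ≤ _ := mul_le_mul a1 (mul_le_mul_of_nonneg_left a2 (y0 u d))
        (mul_nonneg (y0 u d) a3) (a3.trans a1)
  -- second moment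
  set W : ℝ := 1 + 2 * B * δ + 3 / γ with hW
  have W0 : 0 < W := by positivity
  have second : ∑ m ∈ range (2 * B), 𝔼 a, av (m + 1) (fun q => N a q ^ 2) ≤
      2 * B * (2 * B * δ * W) := by
    have e1 : ∀ m ∈ range (2 * B), 𝔼 a, av (m + 1) (fun q => N a q ^ 2) ≤ 2 * B * δ * W := by
      intro m hm
      have hm' : ((m + 1 : ℕ) : ℝ) ≤ 2 * B := by
        have := mem_range.1 hm
        exact_mod_cast this
      refine le_trans (expect_le_expect fun a _ => av_mono fun q _ =>
        pow_le_pow_left₀ (N0 a q) (NM a q) 2) ((h.second_moment hγ hP y0 y1 (m + 1)).trans ?_)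
      rw [← hδ, hW]
      gcongr
    refine (sum_le_card_nsmul _ _ _ e1).trans (le_of_eq ?_)
    simp
  set t : ℝ := 1 / (4 * k ^ 2 * W) with ht
  have t0 : 0 < t := by positivity
  have key : ∑ m ∈ range (2 * B), 𝔼 a, av (m + 1) (fun q => 2 * t * N a q - t ^ 2 * N a q ^ 2) ≤
      ∑ m ∈ range (2 * B), 𝔼 a, av (m + 1) (fun q =>
        if acc s inv c B a q (A a) (A (walk s a q)) = true then (0 : ℝ) else 1) := by
    refine sum_le_sum fun m _ => expect_le_expect fun a _ => av_mono fun q _ => ?_
    split_ifs with hacc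
    · rw [Nacc a q hacc]
      simp
    · nlinarith [sq_nonneg (1 - t * N a q)]
  refine le_trans ?_ key
  simp only [av_sub, av_mul_left, expect_sub_distrib, ← mul_expect, sum_sub_distrib, ← mul_sum]
  have e1 : 2 * t * (δ * (B / k) ^ 2) - t ^ 2 * (2 * B * (2 * B * δ * W)) =
      B * δ / ((1 + 3 / γ) + 2 * (B * δ)) / (8 * k ^ 4) * (2 * B) := by
    have : (1 + 3 / γ) + 2 * (B * δ) = W := by rw [hW]; ring
    rw [this, ht]
    field_simp
    ring
  have e2 : min (B * δ₀) 1 / (24 * k ^ 4 * (1 + 1 / γ)) =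
      min (B * δ₀) 1 / ((1 + 3 / γ) + 2) / (8 * k ^ 4) := by
    field_simp
    ring
  have e3 := min_div_le (x := B * δ) (x₀ := B * δ₀) (W := 1 + 3 / γ) (by positivity)
    (by gcongr) (by positivity)
  have e4 : min (B * δ₀) 1 / (24 * k ^ 4 * (1 + 1 / γ)) * (2 * B) ≤
      2 * t * (δ * (B / k) ^ 2) - t ^ 2 * (2 * B * (2 * B * δ * W)) := by
    rw [e1, e2]
    gcongr
  have e5 := mul_le_mul_of_nonneg_left first (show 0 ≤ 2 * t by positivity)
  have e6 := mul_le_mul_of_nonneg_left second (show 0 ≤ t ^ 2 by positivity)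
  linarith

end Vale.Agent.Lib.PCP.Power
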