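import Vale.Agent.Lib.PCP.Defs
import Vale.Agent.Lib.PCP.PowerCore

/-!
Gap amplification by powering of regular constraint graphs.
-/

namespace Vale.Agent.Lib.PCP

open Vale.Agent.Lib.PolyTime Finset
open scoped BigOperators

namespace Power

variable {D S : Type}

/-- All lists of length `n`. -/
noncomputable def allLists (D : Type) [Fintype D] : ℕ → List (List D)
  | 0 => [[]]
  | n + 1 => (univ : Finset D).toList.flatMap fun d => (allLists D n).map (List.cons d)

theorem sum_map_flatMap {α β : Type*} (l : List α) (g : α → List β) (f : β → ℝ) :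
    ((l.flatMap g).map f).sum = (l.map fun a => ((g a).map f).sum).sum := by
  induction l with
  | nil => rfl
  | cons a l ih => simp only [List.flatMap_cons, List.map_append, List.sum_append, ih,
      List.map_cons, List.sum_cons]

theorem sum_map_range (n : ℕ) (f : ℕ → ℝ) :
    ((List.range n).map f).sum = ∑ i ∈ range n, f i := by
  induction n with
  | zero => rfl
  | succ n ih => rw [List.range_succ, List.map_append, List.sum_append, ih, sum_range_succ]; simp

theorem countP_eq_sum {α : Type*} (l : List α) (p : α → Bool) :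
    (l.countP (fun a => !p a) : ℝ) = (l.map fun a => if p a = true then (0 : ℝ) else 1).sum := by
  induction l with
  | nil => simp
  | cons a l ih =>
    rw [List.countP_cons, List.map_cons, List.sum_cons, ← ih]
    cases p a <;> simp [add_comm]

theorem sum_allLists [Fintype D] (n : ℕ) (f : List D → ℝ) :
    ((allLists D n).map f).sum = (Fintype.card D : ℝ) ^ n * av n f := by
  induction n generalizing f with
  | zero => simp [allLists, av_zero]
  | succ n ih =>
    rw [allLists, sum_map_flatMap, Finset.sum_map_toList, av_succ, pow_succ, mul_assoc,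
      Fintype.card_mul_expect, mul_sum]
    refine sum_congr rfl fun d _ => ?_
    rw [List.map_map, ih]
    rfl

/-- The walks which are tested, with multiplicities. -/
noncomputable def tests (D : Type) [Fintype D] (t : ℕ) : List (List D) :=
  (List.range (2 * t)).flatMap fun m => (allLists D (2 * t)).map (List.take (m + 1))

theorem sum_tests [Fintype D] [Nonempty D] (t : ℕ) (f : List D → ℝ) :
    ((tests D t).map f).sum =
      (Fintype.card D : ℝ) ^ (2 * t) * ∑ m ∈ range (2 * t), av (m + 1) f := by
  rw [tests, sum_map_flatMap, sum_map_range, mul_sum]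
  refine sum_congr rfl fun m hm => ?_
  rw [List.map_map, sum_allLists, ← av_take (mem_range.1 hm) f]
  rfl

theorem length_tests [Fintype D] [Nonempty D] (t : ℕ) :
    ((tests D t).length : ℝ) = (Fintype.card D : ℝ) ^ (2 * t) * (2 * t) := by
  have := sum_tests (D := D) t (fun _ => 1)
  simpa [av_const] using this

/-- The opinion of the label `α` about the end point of the walk `l`. -/
def op {t : ℕ} (α : (Fin t → Option D) → S) (l : List D) : S := α fun j => l[(j : ℕ)]?

/-- The walk described by a function. -/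
def unop {t : ℕ} (r : Fin t → Option D) : List D := (List.ofFn r).filterMap id

theorem unop_op {t : ℕ} {l : List D} (hl : l.length ≤ t) :
    unop (fun j : Fin t => l[(j : ℕ)]?) = l := by
  induction t generalizing l with
  | zero =>
    rw [List.length_eq_zero_iff.1 (Nat.le_zero.1 hl)]
    rfl
  | succ t ih =>
    cases l with
    | nil => simp [unop]
    | cons d l =>
      have := ih (l := l) (by simpa using hl)
      simp only [unop, List.ofFn_succ, Fin.val_zero, List.getElem?_cons_zero, Fin.val_succ,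
        List.getElem?_cons_succ] at this ⊢
      rw [List.filterMap_cons_some (by rfl), this]

end Power

open Power

/-- The labels of the powered graph: opinions about the end points of all short walks. -/
abbrev PowLab (D S : Type) (t : ℕ) : Type := (Fin t → Option D) → S

/-- The list of constraints of the powered graph. -/
noncomputable def RG.power {D S : Type} [Fintype D] [Rev D] (t : ℕ) (G : RG D S) :
    List (Con2 ℕ (PowLab D S t)) :=
  (List.range G.n).flatMap fun a => (tests D t).map fun q =>
    (a, walk G.nxt a q, fun α β =>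
      acc G.nxt Rev.rev (fun v d => G.con d v) t a q (op α) (op β))

namespace Power

variable {D S : Type} [Fintype D] [Rev D]

theorem length_power (t : ℕ) (G : RG D S) :
    (G.power t).length = (tests D t).length * G.n := by
  simp [RG.power, List.length_flatMap, mul_comm]

omit [Fintype D] in
theorem walk_lt {G : RG D S} (hG : G.WF) {a : ℕ} (ha : a < G.n) (l : List D) :
    walk G.nxt a l < G.n := by
  induction l generalizing a with
  | nil => exact ha
  | cons d l ih => exact ih (hG.sch.lt d a ha)

omit [Fintype D] in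
theorem walk_rev_nat {G : RG D S} (hG : G.WF) {a : ℕ} (ha : a < G.n) (l : List D) :
    walk G.nxt (walk G.nxt a l) (Power.rev Rev.rev l) = a := by
  induction l generalizing a with
  | nil => rfl
  | cons d l ih =>
    rw [walk_cons, rev_cons, walk_append, ih (hG.sch.lt d a ha), walk_cons, walk_nil,
      hG.sch.inv d a ha]

theorem sat_power (t : ℕ) {G : RG D S} (hG : G.WF) (h : G.Sat) : Sat sat2 (G.power t) := by
  obtain ⟨σ, hσ⟩ := h
  refine ⟨fun a r => σ (walk G.nxt a (unop r)), fun c hc => ?_⟩
  simp only [RG.power, List.mem_flatMap, List.mem_range, List.mem_map] at hc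
  obtain ⟨a, ha, q, -, rfl⟩ := hc
  simp only [sat2, acc, List.all_eq_true]
  intro u hu
  by_cases hl : u.1.length < t ∧ u.2.2.length < t
  · have h2 := eq_of_mem_splits hu
    have h3 := walk_lt hG ha u.1
    simp only [op]
    rw [unop_op hl.1.le, unop_op (by simpa using hl.2.le), h2, walk_append, walk_cons,
      walk_rev_nat hG (hG.sch.lt _ _ h3), Bool.or_eq_true]
    exact Or.inr (hσ _ h3 _)
  · rw [Bool.or_eq_true]
    left
    simpa only [Bool.not_eq_eq_eq_not, Bool.not_true, Bool.and_eq_false_imp, decide_eq_true_eq,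
      decide_eq_false_iff_not, not_and] using hl

omit [Fintype D] [Rev D] in
theorem pt_walk {α : Type} [Enc α] {F : α → RG D S} [Fintype S] (hF : RG.IsPT F) (l : List D)
    {β : Type} [Enc β] {g : β → α} {v : β → ℕ} (hg : PT ∅ g) (hv : PT ∅ v) :
    PT ∅ fun b => walk (F (g b)).nxt (v b) l := by
  induction l generalizing v with
  | nil => exact hv
  | cons d l ih => exact ih ((hF.nxt d).comp (hg.pair hv))

theorem pt_allConst {κ α : Type} [Enc α] (l : List κ) {f : κ → α → Bool}
    (hf : ∀ x ∈ l, PT ∅ (f x)) : PT ∅ fun a => l.all fun x => f x a := by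
  induction l with
  | nil => exact PT.const true
  | cons x l ih =>
    simp only [List.all_cons]
    exact (hf x List.mem_cons_self).and (ih fun y hy => hf y (List.mem_cons_of_mem _ hy))

theorem pt_power [DecidableEq D] [Fintype S] (t : ℕ) {α : Type} [Enc α] {F : α → RG D S}
    (hF : RG.IsPT F) : PT ∅ fun x => (F x).power t := by
  refine PT.flatMap (PT.range hF.n hF.nb) ?_
  refine PT.mapConst (tests D t) (f := fun q (p : α × ℕ) => (p.2, walk (F p.1).nxt p.2 q,
    fun (a b : PowLab D S t) =>
      acc (F p.1).nxt Rev.rev (fun v d => (F p.1).con d v) t p.2 q (op a) (op b))) fun q _ => ?_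
  refine PT.snd'.pair ((pt_walk hF q PT.fst' PT.snd').pair ?_)
  refine PT.funMk fun a => PT.funMk fun b => ?_
  refine pt_allConst (splits q) fun u _ => (PT.const _).or ?_
  exact PT.funAt (PT.funAt ((hF.con u.2.1).comp
    (PT.fst'.pair (pt_walk hF u.1 PT.fst' PT.snd'))) _) _

/-- The generators as maps on `Fin n`. -/
def stepFin {n : ℕ} {nxt : D → ℕ → ℕ} (h : Schreier n nxt) (d : D) (v : Fin n) : Fin n :=
  ⟨nxt d v, h.lt d v v.2⟩

omit [Fintype D] in
theorem sym_stepFin {n : ℕ} {nxt : D → ℕ → ℕ} (h : Schreier n nxt) :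
    Sym (stepFin h) (Rev.rev : D → D) :=
  ⟨rev_rev, fun d v => Fin.ext (h.inv d v v.2)⟩

omit [Fintype D] in
theorem walk_stepFin {n : ℕ} {nxt : D → ℕ → ℕ} (h : Schreier n nxt) (a : Fin n) (l : List D) :
    (walk (stepFin h) a l).val = walk nxt a.val l := by
  induction l generalizing a with
  | nil => rfl
  | cons d l ih => rw [walk_cons, ih]; rfl

theorem sum_range_eq {n : ℕ} (f : ℕ → ℝ) :
    ∑ x ∈ range n, f x = n * 𝔼 v : Fin n, f v := by
  rw [← Fin.sum_univ_eq_sum_range, ← Fintype.card_mul_expect, Fintype.card_fin]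

/-- Extension of functions on `Fin n`. -/
def ext {n : ℕ} {T : Type} (x : T) (g : Fin n → T) (v : ℕ) : T := if h : v < n then g ⟨v, h⟩ else x

theorem ext_val {n : ℕ} {T : Type} (x : T) (g : Fin n → T) (v : Fin n) : ext x g v = g v := by
  simp [ext]

omit [Fintype D] in
theorem ext_step {n : ℕ} {nxt : D → ℕ → ℕ} (h : Schreier n nxt) {T : Type} (x : T)
    (g : Fin n → T) (d : D) (v : Fin n) : ext x g (nxt d v) = g (stepFin h d v) :=
  ext_val x g (stepFin h d v)

theorem poincN_of_spec [Nonempty D] {n : ℕ} (hn : 0 < n) {nxt : D → ℕ → ℕ} (h : Schreier n nxt)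
    {lam : ℝ} (h0 : 0 ≤ lam) (hs : Spec lam n nxt) : PoincN (stepFin h) (1 - lam) := by
  intro g
  have : Nonempty (Fin n) := ⟨⟨0, hn⟩⟩
  have hn' : (0 : ℝ) < n := by exact_mod_cast hn
  set c := 𝔼 w, g w with hc
  rw [(sym_stepFin h).dirichlet g c]
  have h1 := hs (ext 0 fun v => g v - c) (by
    rw [sum_range_eq]
    simp only [ext_val, expect_sub_distrib, Fintype.expect_const, ← hc, sub_self, mul_zero])
  rw [sum_range_eq, sum_range_eq (fun x => ext 0 (fun v => g v - c) x ^ 2)] at h1
  simp only [ext_val, ext_step h] at h1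
  rw [mul_left_comm, mul_le_mul_iff_right₀ hn'] at h1
  have h2 := expect_mul_sq_le_sq_mul_sq univ (fun v => g v - c)
    (fun v => 𝔼 d, (g (stepFin h d v) - c))
  set X := 𝔼 v, (g v - c) ^ 2 with hX
  have X0 : 0 ≤ X := expect_nonneg fun v _ => sq_nonneg _
  have h3 : 𝔼 v, (g v - c) * 𝔼 d, (g (stepFin h d v) - c) ≤ lam * X := by
    refine le_of_pow_le_pow_left₀ two_ne_zero (by positivity) (h2.trans ?_)
    calc _ ≤ X * (lam ^ 2 * X) := mul_le_mul_of_nonneg_left h1 X0
      _ = _ := by ring
  have h4 : ∀ v, (g v - c) * (g v - 𝔼 d, g (stepFin h d v)) =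
      (g v - c) ^ 2 - (g v - c) * 𝔼 d, (g (stepFin h d v) - c) := by
    intro v
    rw [expect_sub_distrib, Fintype.expect_const]
    ring
  simp only [h4, expect_sub_distrib _ (fun v => (g v - c) ^ 2)]
  rw [← hX]
  linarith

theorem poincN_of_poinc [Nonempty D] {n : ℕ} (hn : 0 < n) {nxt : D → ℕ → ℕ} (h : Schreier n nxt)
    {γ : ℝ} (hs : Poinc γ n nxt) : PoincN (stepFin h) (γ / Fintype.card D) := by
  intro g
  have : Nonempty (Fin n) := ⟨⟨0, hn⟩⟩
  have hn' : (0 : ℝ) < n := by exact_mod_cast hn
  have hD : (0 : ℝ) < Fintype.card D := by exact_mod_cast Fintype.card_pos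
  set c := 𝔼 w, g w with hc
  have h1 := hs (ext 0 g)
  simp only [sum_range_eq, ext_val, ext_step h, ← Fintype.card_mul_expect, ← mul_expect] at h1
  have h2 : 𝔼 x, 𝔼 y, (g x - g y) ^ 2 = 2 * 𝔼 v, (g v - c) ^ 2 := by
    have e : ∀ x y, (g x - g y) ^ 2 = (g x - c) ^ 2 + (g y - c) ^ 2 - 2 * ((g x - c) * (g y - c)) :=
      fun x y => by ring
    have e0 : 𝔼 y, (g y - c) = 0 := by
      rw [expect_sub_distrib, Fintype.expect_const, ← hc, sub_self]
    simp only [e, expect_sub_distrib _ (fun y => _ + (g y - c) ^ 2),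
      expect_add_distrib, Fintype.expect_const, ← mul_expect, e0, mul_zero, sub_zero]
    ring
  rw [h2] at h1
  have h3 : 2 * (γ / Fintype.card D) * 𝔼 v, (g v - c) ^ 2 =
      γ * (n * (n * (2 * 𝔼 v, (g v - c) ^ 2))) / (n * n * Fintype.card D) := by
    field_simp
  rw [h3, div_le_iff₀ (by positivity)]
  exact h1.trans (le_of_eq (by ring))

theorem far_power [Nonempty D] [Fintype S] [Nonempty S] (t : ℕ) {G : RG D S} (hG : G.WF)
    {γ : ℝ} (hγ : 0 < γ) (hP : PoincN (stepFin hG.sch) γ) {ε : ℝ} (hε : 0 ≤ ε) (h : G.Far ε) :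
    Far sat2 (min (t * ε) 1 / (24 * (Fintype.card S : ℝ) ^ 4 * (1 + 1 / γ))) (G.power t) := by
  intro A
  have : Nonempty (Fin G.n) := ⟨⟨0, hG.pos⟩⟩
  have hn' : (0 : ℝ) < G.n := by exact_mod_cast hG.pos
  have hD : (0 : ℝ) < Fintype.card D := by exact_mod_cast Fintype.card_pos
  have key := (sym_stepFin hG.sch).soundness hγ hP (fun v d => G.con d v) hε (fun σ => by
    have h1 := h (ext (Classical.arbitrary S) σ)
    simp only [sum_range_eq, RG.ok, ext_val, ext_step hG.sch, ← Fintype.card_mul_expect,
      ← mul_expect] at h1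
    rw [mul_comm, ← mul_assoc, mul_le_mul_iff_right₀ (by positivity)] at h1
    exact h1) t (fun a l => op (A a) l)
  rw [length_power, viol, countP_eq_sum, RG.power, sum_map_flatMap, sum_map_range, sum_range_eq]
  simp only [List.map_map, sum_tests, ← mul_expect, expect_sum_comm]
  push_cast
  rw [length_tests]
  refine le_trans (le_of_eq (by ring)) ((mul_le_mul_of_nonneg_left key
    (show (0 : ℝ) ≤ G.n * (Fintype.card D : ℝ) ^ (2 * t) by positivity)).trans (le_of_eq ?_))
  rw [mul_assoc]
  congr 2
  refine sum_congr rfl fun m _ => expect_congr rfl fun a _ => av_congr fun q _ => ?_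
  simp only [Function.comp, sat2, acc, walk_stepFin]
  rfl

omit [Rev D] in
theorem tests_pos [Nonempty D] {t : ℕ} (ht : 0 < t) : 0 < (tests D t).length := by
  have hD : (0 : ℝ) < Fintype.card D := by exact_mod_cast Fintype.card_pos
  have h1 : (0 : ℝ) < (tests D t).length := by
    rw [length_tests]
    positivity
  exact_mod_cast h1

theorem min_mul_le {c t ε : ℝ} (hc : 0 < c) : min (1 / c * t * ε) (1 / c) = min (t * ε) 1 / c := by
  rw [← min_div_div_right hc.le]
  congr 1
  ring

end Power

/-- Gap amplification by powering, for graphs with a spectral bound. -/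
theorem powering (D S : Type) [Fintype D] [DecidableEq D] [Nonempty D] [Rev D] [Fintype S]
    [Nonempty S] (lam : ℝ) (h0 : 0 ≤ lam) (h1 : lam < 1) :
    ∃ c : ℝ, 0 < c ∧ ∀ t : ℕ, 0 < t →
      ∃ (K : ℕ) (P : RG D S → List (Con2 ℕ (PowLab D S t))), 0 < K ∧
        (∀ (a : Type) [Enc a] (F : a → RG D S), RG.IsPT F → PT ∅ fun x => P (F x)) ∧
        ∀ G : RG D S, G.WF → (P G).length = K * G.n ∧ (G.Sat → Sat sat2 (P G)) ∧
          (Spec lam G.n G.nxt → ∀ ε, 0 ≤ ε → G.Far ε →
            Far sat2 (min (c * t * ε) c) (P G)) := by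
  have hS : (0 : ℝ) < Fintype.card S := by exact_mod_cast Fintype.card_pos
  have hγ : 0 < 1 - lam := by linarith
  have hc : 0 < 24 * (Fintype.card S : ℝ) ^ 4 * (1 + 1 / (1 - lam)) := by positivity
  refine ⟨1 / (24 * (Fintype.card S : ℝ) ^ 4 * (1 + 1 / (1 - lam))), by positivity,
    fun t ht => ⟨(tests D t).length, RG.power t, tests_pos ht, fun a _ F hF => pt_power t hF,
      fun G hG => ⟨length_power t G, sat_power t hG, fun hs ε hε h => ?_⟩⟩⟩
  rw [min_mul_le hc]
  exact far_power t hG hγ (poincN_of_spec hG.pos hG.sch h0 hs) hε h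

/-- Gap amplification by powering, for graphs which satisfy a Poincare inequality. -/
theorem powering_poinc (D S : Type) [Fintype D] [DecidableEq D] [Nonempty D] [Rev D] [Fintype S]
    [Nonempty S] (γ : ℝ) (h0 : 0 < γ) :
    ∃ c : ℝ, 0 < c ∧ ∀ t : ℕ, 0 < t →
      ∃ (K : ℕ) (P : RG D S → List (Con2 ℕ (PowLab D S t))), 0 < K ∧
        (∀ (a : Type) [Enc a] (F : a → RG D S), RG.IsPT F → PT ∅ fun x => P (F x)) ∧
        ∀ G : RG D S, G.WF → (P G).length = K * G.n ∧ (G.Sat → Sat sat2 (P G)) ∧
          (Poinc γ G.n G.nxt → ∀ ε, 0 ≤ ε → G.Far ε →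
            Far sat2 (min (c * t * ε) c) (P G)) := by
  have hS : (0 : ℝ) < Fintype.card S := by exact_mod_cast Fintype.card_pos
  have hD : (0 : ℝ) < Fintype.card D := by exact_mod_cast Fintype.card_pos
  have hγ : 0 < γ / Fintype.card D := by positivity
  have hc : 0 < 24 * (Fintype.card S : ℝ) ^ 4 * (1 + 1 / (γ / Fintype.card D)) := by positivity
  refine ⟨1 / (24 * (Fintype.card S : ℝ) ^ 4 * (1 + 1 / (γ / Fintype.card D))), by positivity,
    fun t ht => ⟨(tests D t).length, RG.power t, tests_pos ht, fun a _ F hF => pt_power t hF,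
      fun G hG => ⟨length_power t G, sat_power t hG, fun hs ε hε h => ?_⟩⟩⟩
  rw [min_mul_le hc]
  exact far_power t hG hγ (poincN_of_poinc hG.pos hG.sch hs) hε h

end Vale.Agent.Lib.PCP
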