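import Vale.Agent.Lib.PCP.Defs

/-!
From the Poincare inequality of a part of the generators and one loop to a bound for the norm of
the averaging operator.
-/

namespace Vale.Agent.Lib.PCP

open Finset
open scoped BigOperators

variable {D E : Type}

/-- The generators are bijections of `range n`. -/
theorem Schreier.sum_comp [Rev D] {n : ℕ} {nxt : D → ℕ → ℕ} (h : Schreier n nxt) (i : D)
    {M : Type*} [AddCommMonoid M] (g : ℕ → M) :
    ∑ x ∈ range n, g (nxt i x) = ∑ x ∈ range n, g x := by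
  refine Finset.sum_nbij' (nxt i) (nxt (rev i))
    (fun x hx => mem_range.2 (h.lt i x (mem_range.1 hx)))
    (fun x hx => mem_range.2 (h.lt _ x (mem_range.1 hx)))
    (fun x hx => h.inv i x (mem_range.1 hx)) (fun x hx => ?_) (fun _ _ => rfl)
  have := h.inv (rev i) x (mem_range.1 hx)
  rwa [rev_rev] at this

/-- The variance identity on a finite set. -/
theorem sum_sum_sq_sub {X : Type*} (s : Finset X) (f : X → ℝ) :
    ∑ x ∈ s, ∑ y ∈ s, (f x - f y) ^ 2 =
      2 * s.card * ∑ x ∈ s, f x ^ 2 - 2 * (∑ x ∈ s, f x) ^ 2 := by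
  have h2 : ∀ x y, (f x - f y) ^ 2 = f x ^ 2 + f y ^ 2 - 2 * (f x * f y) := fun x y => by ring
  simp only [h2, Finset.sum_sub_distrib, Finset.sum_add_distrib, ← Finset.mul_sum,
    ← Finset.sum_mul, Finset.sum_const, nsmul_eq_mul]
  ring

/-- The Poincare inequality passes to a larger set of generators. -/
theorem Poinc.of_injective [Fintype D] [Fintype E] {γ : ℝ} {n : ℕ} {nxt : D → ℕ → ℕ} {e : E → D}
    (he : Function.Injective e) (h : Poinc γ n fun j => nxt (e j)) : Poinc γ n nxt := by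
  classical
  intro f
  refine (h f).trans (mul_le_mul_of_nonneg_left (Finset.sum_le_sum fun x _ => ?_)
    (Nat.cast_nonneg n))
  rw [← Finset.sum_image (s := univ) (g := e) (f := fun i => (f x - f (nxt i x)) ^ 2)
    (fun a _ b _ hab => he hab)]
  exact Finset.sum_le_sum_of_subset_of_nonneg (subset_univ _) fun _ _ _ => sq_nonneg _

theorem Poinc.mono [Fintype D] {γ γ' : ℝ} {n : ℕ} {nxt : D → ℕ → ℕ} (h : Poinc γ n nxt)
    (h' : γ' ≤ γ) : Poinc γ' n nxt := fun f =>
  (mul_le_mul_of_nonneg_right h'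
    (Finset.sum_nonneg fun _ _ => Finset.sum_nonneg fun _ _ => sq_nonneg _)).trans (h f)

/-- The square of the average is smaller than the average of the squares by the spread around one
of the values. -/
theorem expect_sq_le_sub [Fintype D] (a : D → ℝ) (i₀ : D) :
    (𝔼 i, a i) ^ 2 ≤ (∑ i, a i ^ 2) / Fintype.card D -
      (∑ j, (a i₀ - a j) ^ 2) / (2 * (Fintype.card D : ℝ) ^ 2) := by
  have hd : (0 : ℝ) < Fintype.card D := by
    have : Nonempty D := ⟨i₀⟩
    exact_mod_cast Fintype.card_pos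
  have h1 := sum_sum_sq_sub (univ : Finset D) a
  have h2 : ∑ j, (a i₀ - a j) ^ 2 ≤ ∑ i, ∑ j, (a i - a j) ^ 2 :=
    Finset.single_le_sum (f := fun i => ∑ j, (a i - a j) ^ 2)
      (fun _ _ => Finset.sum_nonneg fun _ _ => sq_nonneg _) (mem_univ i₀)
  rw [h1, card_univ] at h2
  rw [Fintype.expect_eq_sum_div_card, div_pow, div_sub_div _ _ hd.ne' (by positivity),
    div_le_div_iff₀ (by positivity) (by positivity)]
  have h3 := mul_le_mul_of_nonneg_left h2 (show (0 : ℝ) ≤ (Fintype.card D : ℝ) ^ 3 by positivity)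
  nlinarith only [h3]

/-- Spectral bound with an explicit constant. -/
theorem spec_sq_of_poinc [Fintype D] [Rev D] {γ : ℝ} {n : ℕ} {nxt : D → ℕ → ℕ}
    (hs : Schreier n nxt) {i₀ : D} (h0 : ∀ v < n, nxt i₀ v = v) (hP : Poinc γ n nxt)
    (f : ℕ → ℝ) (hf : ∑ x ∈ range n, f x = 0) :
    ∑ x ∈ range n, (𝔼 i, f (nxt i x)) ^ 2 ≤
      (1 - γ / (Fintype.card D : ℝ) ^ 2) * ∑ x ∈ range n, f x ^ 2 := by
  rcases Nat.eq_zero_or_pos n with rfl | hn
  · simp
  have hn' : (0 : ℝ) < n := by exact_mod_cast hn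
  have hd : (0 : ℝ) < Fintype.card D := by
    have : Nonempty D := ⟨i₀⟩
    exact_mod_cast Fintype.card_pos
  have h1 : ∑ x ∈ range n, (𝔼 i, f (nxt i x)) ^ 2 ≤
      ∑ x ∈ range n, ((∑ i, f (nxt i x) ^ 2) / Fintype.card D -
        (∑ j, (f x - f (nxt j x)) ^ 2) / (2 * (Fintype.card D : ℝ) ^ 2)) := by
    refine Finset.sum_le_sum fun x hx => ?_
    have := expect_sq_le_sub (fun i => f (nxt i x)) i₀
    rwa [h0 x (mem_range.1 hx)] at this
  rw [Finset.sum_sub_distrib, ← Finset.sum_div, ← Finset.sum_div, Finset.sum_comm] at h1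
  have h2 : ∑ i : D, ∑ x ∈ range n, f (nxt i x) ^ 2 =
      Fintype.card D * ∑ x ∈ range n, f x ^ 2 := by
    rw [Finset.sum_congr rfl fun i _ => hs.sum_comp i (fun x => f x ^ 2), Finset.sum_const,
      card_univ, nsmul_eq_mul]
  have h3 := hP f
  rw [sum_sum_sq_sub, hf, card_range] at h3
  have h4 : 2 * γ * ∑ x ∈ range n, f x ^ 2 ≤
      ∑ x ∈ range n, ∑ j, (f x - f (nxt j x)) ^ 2 := by
    refine le_of_mul_le_mul_left ?_ hn'
    linarith only [h3]
  rw [h2, mul_div_cancel_left₀ _ hd.ne'] at h1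
  refine h1.trans ?_
  have h5 := div_le_div_of_nonneg_right h4
    (show (0 : ℝ) ≤ 2 * (Fintype.card D : ℝ) ^ 2 by positivity)
  have h6 : (2 * γ * ∑ x ∈ range n, f x ^ 2) / (2 * (Fintype.card D : ℝ) ^ 2) =
      γ / (Fintype.card D : ℝ) ^ 2 * ∑ x ∈ range n, f x ^ 2 := by
    field_simp
  rw [h6] at h5
  linarith only [h5]

/-- A Schreier graph with a loop generator and the Poincare inequality is a spectral expander. -/
theorem spec_of_poinc' (D : Type) [Fintype D] [Nonempty D] [Rev D] {γ : ℝ} (hγ : 0 < γ) :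
    ∃ lam : ℝ, 0 ≤ lam ∧ lam < 1 ∧ ∀ (n : ℕ) (nxt : D → ℕ → ℕ) (i₀ : D), Schreier n nxt →
      (∀ v < n, nxt i₀ v = v) → Poinc γ n nxt → Spec lam n nxt := by
  have hd : (0 : ℝ) < Fintype.card D := by exact_mod_cast Fintype.card_pos
  have hq : 0 < γ / (Fintype.card D : ℝ) ^ 2 := by positivity
  refine ⟨Real.sqrt (max 0 (1 - γ / (Fintype.card D : ℝ) ^ 2)), Real.sqrt_nonneg _, ?_, ?_⟩
  · rw [Real.sqrt_lt' one_pos]
    exact max_lt (by norm_num) (by linarith)
  · intro n nxt i₀ hs h0 hP f hf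
    rw [Real.sq_sqrt (le_max_left _ _)]
    exact (spec_sq_of_poinc hs h0 hP f hf).trans (mul_le_mul_of_nonneg_right (le_max_right _ _)
      (Finset.sum_nonneg fun _ _ => sq_nonneg _))

/-- A Schreier graph with a loop generator which contains an expander is a spectral expander. -/
theorem spec_of_poinc (D E : Type) [Fintype D] [Nonempty D] [Rev D] [Fintype E] {γ : ℝ}
    (hγ : 0 < γ) :
    ∃ lam : ℝ, 0 ≤ lam ∧ lam < 1 ∧ ∀ (n : ℕ) (nxt : D → ℕ → ℕ) (i₀ : D) (e : E → D),
      Schreier n nxt → (∀ v < n, nxt i₀ v = v) → Function.Injective e →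
      Poinc γ n (fun j => nxt (e j)) → Spec lam n nxt := by
  obtain ⟨lam, h0, h1, h⟩ := spec_of_poinc' D hγ
  exact ⟨lam, h0, h1, fun n nxt i₀ e hs hi he hP => h n nxt i₀ hs hi (hP.of_injective he)⟩

end Vale.Agent.Lib.PCP
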