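import Vale.Agent.Lib.PCP.Rounds
import Vale.Agent.Lib.PCP.Power
import Vale.Agent.Lib.PCP.AlphaRed
import Vale.Agent.Lib.PCP.Expander
import Vale.Agent.Lib.PCP.ToCNF
import Vale.Agent.Lib.PCP.Spectral

/-!
The PCP theorem: binary constraints over the alphabet `S0`, regular expanding constraint graphs,
gap 3-SAT (also with bounded occurrence).
-/

namespace Vale.Agent.Lib.PCP

open Vale.Agent.Lib.PolyTime Finset
open scoped BigOperators

theorem prep_poinc {E S : Type} [Fintype E] [DecidableEq S] {ex : ℕ → E → ℕ → ℕ} {γ : ℝ}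
    (hp : ∀ k, Poinc γ k (ex k)) (G : List (Con2 ℕ S)) :
    Poinc γ (prep ex G).n (prep ex G).nxt :=
  Poinc.of_injective (e := fun j : E => (Sum.inr (Sum.inr (Sum.inl j)) : PrepD E))
    (fun _ _ h => by simpa using h) (hp _)

/-- The generators of the constraint graphs of the PCP theorem. -/
abbrev D0 : Type := PrepD ExpIx

/-- Preprocessing with the fixed expanders. -/
theorem preprocess (S : Type) [Fintype S] [DecidableEq S] [Nonempty S] :
    ∃ (γ c : ℝ) (F : List (Con2 ℕ S) → RG D0 S), 0 < γ ∧ 0 < c ∧ RG.IsPT F ∧ ∀ G, G ≠ [] →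
      (F G).WF ∧ (F G).n = 2 * G.length ∧ Poinc γ (F G).n (F G).nxt ∧
        (∀ v, (F G).nxt (Sum.inr (Sum.inr (Sum.inr ()))) v = v) ∧ (Sat sat2 G → (F G).Sat) ∧
        (∀ ε, Far sat2 ε G → (F G).Far (c * ε)) ∧ (AllSat2 G → (F G).AllSat) := by
  have hγ := expanders.pos
  have hd : (0 : ℝ) < Fintype.card D0 := by exact_mod_cast Fintype.card_pos
  exact ⟨expanders.γ, _, prep expanders.ex, hγ, by positivity, prep_isPT expanders.pt,
    fun G hG => ⟨prep_wf expanders.sch hG, rfl, prep_poinc expanders.poinc G, fun _ => rfl,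
      prep_sat expanders.sch, fun ε h => prep_far hγ expanders.poinc h, prep_allSat⟩⟩

theorem exists_round_aux {D : Type} [Fintype D] [DecidableEq D] [Nonempty D] [Rev D] {γ c₁ : ℝ}
    {F : List (Con2 ℕ S0) → RG D S0} (hγ : 0 < γ) (hc₁ : 0 < c₁) (hF : RG.IsPT F)
    (hF' : ∀ G, G ≠ [] → (F G).WF ∧ (F G).n = 2 * G.length ∧ Poinc γ (F G).n (F G).nxt ∧
      (Sat sat2 G → (F G).Sat) ∧ ∀ ε, Far sat2 ε G → (F G).Far (c₁ * ε)) :
    ∃ (step : List (Con2 ℕ S0) → List (Con2 ℕ S0)) (K : ℕ) (α : ℝ),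
    PT ∅ step ∧ 0 < K ∧ 0 < α ∧ ∀ G, G ≠ [] → (step G).length = K * G.length ∧
      AllSat2 (step G) ∧ (Sat sat2 G → Sat sat2 (step G)) ∧
      ∀ ε, 0 ≤ ε → Far sat2 ε G → Far sat2 (min (2 * ε) α) (step G) := by
  obtain ⟨c₂, hc₂, hP⟩ := powering_poinc D S0 γ hγ
  obtain ⟨c₃, hc₃, hR⟩ := alphabet_reduction
  obtain ⟨t, ht⟩ := exists_nat_gt (2 / (c₁ * c₂ * c₃))
  have hc : 0 < c₁ * c₂ * c₃ := by positivity
  have ht0 : 0 < t := by
    have : (0 : ℝ) < t := lt_trans (by positivity) ht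
    exact_mod_cast this
  rw [div_lt_iff₀ hc] at ht
  obtain ⟨K₂, P, hK₂, hPpt, hP'⟩ := hP t ht0
  obtain ⟨K₃, R, hK₃, hRpt, hR'⟩ := hR (PowLab D S0 t)
  refine ⟨fun G => R (P (F G)), K₃ * K₂ * 2, c₃ * c₂, hRpt.comp (hPpt _ F hF), by positivity,
    by positivity, fun G hG => ?_⟩
  obtain ⟨f1, f2, f3, f4, f5⟩ := hF' G hG
  obtain ⟨p1, p2, p3⟩ := hP' (F G) f1
  obtain ⟨r1, r2, r3, r4⟩ := hR' (P (F G))
  refine ⟨by rw [r1, p1, f2]; ring, r2, fun h => r3 (p2 (f4 h)), fun ε hε h => ?_⟩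
  refine (r4 _ (p3 f3 _ (by positivity) (f5 ε h))).mono ?_
  rw [mul_min_of_nonneg _ _ hc₃.le]
  refine min_le_min ?_ le_rfl
  nlinarith [mul_le_mul_of_nonneg_right ht.le hε]

/-- One round of gap amplification. -/
theorem exists_gap_round : ∃ (step : List (Con2 ℕ S0) → List (Con2 ℕ S0)) (K : ℕ) (α : ℝ),
    PT ∅ step ∧ 0 < K ∧ 0 < α ∧ ∀ G, G ≠ [] → (step G).length = K * G.length ∧
      AllSat2 (step G) ∧ (Sat sat2 G → Sat sat2 (step G)) ∧
      ∀ ε, 0 ≤ ε → Far sat2 ε G → Far sat2 (min (2 * ε) α) (step G) := by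
  obtain ⟨γ, c₁, F, hγ, hc₁, hF, hF'⟩ := preprocess S0
  refine exists_round_aux hγ hc₁ hF fun G hG => ?_
  obtain ⟨f1, f2, f3, -, f4, f5, -⟩ := hF' G hG
  exact ⟨f1, f2, f3, f4, f5⟩

/-- The PCP theorem for binary constraints. -/
theorem pcp_con2 : ∃ α : ℝ, 0 < α ∧ ∃ f : CNF → List (Con2 ℕ S0), PT ∅ f ∧ ∀ φ,
    f φ ≠ [] ∧ AllSat2 (f φ) ∧ (Satisfiable φ → Sat sat2 (f φ)) ∧
      (¬ Satisfiable φ → Far sat2 α (f φ)) := by
  obtain ⟨step, K, α, h1, h2, h3, h4⟩ := exists_gap_round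
  obtain ⟨f, hf, hf'⟩ := iterate_rounds h1 h2 h3.le (fun G hG => (h4 G hG).1)
    (fun G hG => (h4 G hG).2.1) (fun G hG => (h4 G hG).2.2.1) fun G hG => (h4 G hG).2.2.2
  refine ⟨min 1 α, lt_min one_pos h3, fun φ => f (initCon2 φ), hf.comp PT_initCon, fun φ => ?_⟩
  obtain ⟨g1, g2, -, g3, g4⟩ := hf' _ (initCon_ne_nil φ)
  exact ⟨g1, g2, fun h => g3 (sat_initCon h), fun h => g4 fun h' =>
    h (satisfiable_of_sat_initCon h')⟩

theorem hard_gap_con2 : ∃ α : ℝ, 0 < α ∧ Hard (Gap (sat2 (V := ℕ) (S := S0)) 1 (1 - α)) := by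
  obtain ⟨α, hα, f, hf, h⟩ := pcp_con2
  exact ⟨α, hα, f, hf, fun φ hφ => gap_yes_one.2 ⟨(h φ).1, (h φ).2.2.1 hφ⟩,
    fun φ hφ => gap_no_iff.2 ⟨(h φ).1, (h φ).2.2.2 hφ⟩⟩

/-- The PCP theorem for regular constraint graphs with a Poincare inequality and a loop at every
vertex. -/
theorem pcp_rg_poinc : ∃ (γ α : ℝ) (F : CNF → RG D0 S0), 0 < γ ∧ 0 < α ∧ RG.IsPT F ∧ ∀ φ,
    (F φ).WF ∧ Poinc γ (F φ).n (F φ).nxt ∧
      (∀ v, (F φ).nxt (Sum.inr (Sum.inr (Sum.inr ()))) v = v) ∧ (F φ).AllSat ∧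
      (Satisfiable φ → (F φ).Sat) ∧ (¬ Satisfiable φ → (F φ).Far α) := by
  obtain ⟨α, hα, f, hf, h⟩ := pcp_con2
  obtain ⟨γ, c, F, hγ, hc, hF, hF'⟩ := preprocess S0
  refine ⟨γ, c * α, fun φ => F (f φ), hγ, by positivity, hF.comp hf, fun φ => ?_⟩
  obtain ⟨g1, g2, g3, g4⟩ := h φ
  obtain ⟨f1, -, f3, f4, f5, f6, f7⟩ := hF' _ g1
  exact ⟨f1, f3, f4, f7 g2, fun hφ => f5 (g3 hφ), fun hφ => f6 α (g4 hφ)⟩

/-- The PCP theorem for regular constraint graphs with a spectral bound. -/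
theorem pcp_rg : ∃ (lam α : ℝ) (F : CNF → RG D0 S0), 0 ≤ lam ∧ lam < 1 ∧ 0 < α ∧ RG.IsPT F ∧ ∀ φ,
    (F φ).WF ∧ Spec lam (F φ).n (F φ).nxt ∧ (F φ).AllSat ∧
      (Satisfiable φ → (F φ).Sat) ∧ (¬ Satisfiable φ → (F φ).Far α) := by
  obtain ⟨γ, α, F, hγ, hα, hF, h⟩ := pcp_rg_poinc
  obtain ⟨lam, h0, h1, h2⟩ := spec_of_poinc' D0 hγ
  refine ⟨lam, α, F, h0, h1, hα, hF, fun φ => ?_⟩
  obtain ⟨f1, f2, f3, f4, f5, f6⟩ := h φ
  exact ⟨f1, h2 _ _ _ f1.sch (fun v _ => f3 v) f2, f4, f5, f6⟩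

/-! ### The edge list of a regular constraint graph -/

namespace RG

variable {D S : Type} [Fintype D]

/-- The list of edges. -/
noncomputable def toList (G : RG D S) : List (Con2 ℕ S) :=
  (List.range G.n).flatMap fun v =>
    (univ : Finset D).toList.map fun i => (v, G.nxt i v, G.con i v)

theorem length_toList (G : RG D S) : G.toList.length = Fintype.card D * G.n := by
  rw [toList, length_flatMap_const _ _ (Fintype.card D) (by simp), List.length_range]

theorem mem_toList {G : RG D S} {c : Con2 ℕ S} :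
    c ∈ G.toList ↔ ∃ v < G.n, ∃ i, (v, G.nxt i v, G.con i v) = c := by
  simp [toList]

theorem toList_ne_nil [Nonempty D] {G : RG D S} (h : 0 < G.n) : G.toList ≠ [] := by
  rw [← List.length_pos_iff, length_toList]
  exact Nat.mul_pos Fintype.card_pos h

theorem sum_toList {M : Type*} [AddCommMonoid M] (G : RG D S) (g : Con2 ℕ S → M) :
    (G.toList.map g).sum = ∑ v ∈ range G.n, ∑ i, g (v, G.nxt i v, G.con i v) := by
  rw [toList, sum_map_flatMap, sum_map_range]
  refine Finset.sum_congr rfl fun v _ => ?_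
  rw [List.map_map, sum_map_univ]
  rfl

theorem sat_toList {G : RG D S} : PCP.Sat sat2 G.toList ↔ G.Sat := by
  refine exists_congr fun σ => ⟨fun h v hv i => h _ (mem_toList.2 ⟨v, hv, i, rfl⟩), fun h c hc => ?_⟩
  obtain ⟨v, hv, i, rfl⟩ := mem_toList.1 hc
  exact h v hv i

theorem far_toList {G : RG D S} {ε : ℝ} : PCP.Far sat2 ε G.toList ↔ G.Far ε := by
  refine forall_congr' fun σ => ?_
  rw [viol_eq_sum, sum_toList, length_toList, Nat.cast_mul, mul_comm (Fintype.card D : ℝ)]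
  rfl

theorem allSat_toList {G : RG D S} : AllSat2 G.toList ↔ G.AllSat := by
  refine ⟨fun h v hv i => h _ (mem_toList.2 ⟨v, hv, i, rfl⟩), fun h c hc => ?_⟩
  obtain ⟨v, hv, i, rfl⟩ := mem_toList.1 hc
  exact h v hv i

theorem IsPT.toList [Fintype S] {α : Type} [Enc α] {F : α → RG D S} (h : IsPT F) :
    PT ∅ fun a => (F a).toList :=
  PT.flatMap (PT.range h.n h.nb)
    (PT.mapConst _ fun i _ => PT.snd'.pair ((h.nxt i).pair (h.con i)))

theorem countP_eq_sum_nat {α : Type*} (p : α → Bool) (l : List α) :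
    l.countP p = (l.map fun c => if p c = true then 1 else 0).sum := by
  induction l with
  | nil => simp
  | cons c l ih =>
    rw [List.countP_cons, List.map_cons, List.sum_cons, ← ih]
    by_cases h : p c = true <;> simp [h, add_comm]

/-- Every vertex is the first variable of at most `card D` edges. -/
theorem countP_fst_le (G : RG D S) (x : ℕ) :
    G.toList.countP (fun c => decide (c.1 = x)) ≤ Fintype.card D := by
  rw [countP_eq_sum_nat, sum_toList, Finset.sum_comm]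
  calc _ ≤ ∑ _i : D, 1 := Finset.sum_le_sum fun i _ => by
        simp only [decide_eq_true_eq, Finset.sum_ite_eq', Finset.mem_range]
        split_ifs <;> omega
    _ = _ := by simp

/-- Every vertex is the second variable of at most `card D` edges. -/
theorem countP_snd_le [Rev D] {G : RG D S} (hG : G.WF) (x : ℕ) :
    G.toList.countP (fun c => decide (c.2.1 = x)) ≤ Fintype.card D := by
  rw [countP_eq_sum_nat, sum_toList, Finset.sum_comm]
  calc _ ≤ ∑ _i : D, 1 := Finset.sum_le_sum fun i _ => by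
        calc _ ≤ ∑ v ∈ range G.n, if v = G.nxt (rev i) x then 1 else 0 :=
              Finset.sum_le_sum fun v hv => by
                by_cases h : G.nxt i v = x
                · have := hG.sch.inv i v (Finset.mem_range.1 hv)
                  rw [h] at this
                  simp [h, this]
                · simp [h]
          _ ≤ 1 := by
              simp only [Finset.sum_ite_eq', Finset.mem_range]
              split_ifs <;> omega
    _ = _ := by simp

end RG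

/-! ### Gap 3-SAT -/

/-- A binary constraint as a constraint on a tuple indexed by `Bool`. -/
def con2S {V S : Type} (c : Con2 V S) : ConS V Bool S :=
  (fun b => bif b then c.2.1 else c.1, fun x => c.2.2 (x false) (x true))

theorem satS_con2S {V S : Type} (c : Con2 V S) (σ : V → S) : satS (con2S c) σ = sat2 c σ := rfl

theorem PT_con2S {V S : Type} [Enc V] [Fintype S] [DecidableEq S] :
    PT ∅ (con2S : Con2 V S → ConS V Bool S) :=
  PT.pair (PT.funMk (g := fun (c : Con2 V S) b => bif b then c.2.1 else c.1) fun b => by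
      cases b
      · exact PT.fst'
      · exact PT.snd'.fst)
    (PT.finComp (fun (r : S → S → Bool) (x : Bool → S) => r (x false) (x true)) PT.snd'.snd)

/-- The PCP theorem for 3-CNF formulas in which every variable occurs in at most `B` clauses. -/
theorem pcp_3sat : ∃ (α : ℝ) (B : ℕ) (f : CNF → CNF), 0 < α ∧ PT ∅ f ∧ ∀ φ,
    f φ ≠ [] ∧ (∀ y, (f φ).countP (occ3 y) ≤ B) ∧ (Satisfiable φ → Satisfiable (f φ)) ∧
      (¬ Satisfiable φ → Far satClause α (f φ)) := by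
  obtain ⟨γ, α, F, -, hα, hF, hF'⟩ := pcp_rg_poinc
  obtain ⟨K, R, hK, hR, hR'⟩ := toCNF ℕ Bool S0
  refine ⟨α / K, K * (Fintype.card D0 + Fintype.card D0), fun φ => R ((F φ).toList.map con2S),
    by positivity, hR.comp (PT.map (f := fun _ c => con2S c) hF.toList (PT_con2S.comp PT.snd')),
    fun φ => ?_⟩
  obtain ⟨f1, -, -, -, f2, f3⟩ := hF' φ
  obtain ⟨r1, r2, r3, r4⟩ := hR' ((F φ).toList.map con2S)
  refine ⟨?_, r4 inferInstance _ fun v => ?_, fun h => r2.1 ?_, fun h => r3 α ?_⟩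
  · rw [← List.length_pos_iff, r1, List.length_map]
    exact Nat.mul_pos hK (List.length_pos_iff.2 (RG.toList_ne_nil f1.pos))
  · refine le_trans ?_ (add_le_add (RG.countP_fst_le (F φ) v) (RG.countP_snd_le f1 v))
    rw [List.countP_map]
    induction (F φ).toList with
    | nil => simp
    | cons c l ih =>
      simp only [List.countP_cons] at ih ⊢
      have : ((fun c : ConS ℕ Bool S0 => decide (∃ i, c.1 i = v)) ∘ con2S) c = true →
          c.1 = v ∨ c.2.1 = v := by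
        intro h
        obtain ⟨i, hi⟩ := of_decide_eq_true h
        cases i
        exacts [Or.inl hi, Or.inr hi]
      split_ifs with h1 h2 h3 <;> simp_all <;> omega
  · exact Sat.map (fun σ => ⟨σ, fun c _ => satS_con2S c σ⟩) (RG.sat_toList.2 (f2 h))
  · exact Far.map (fun σ => ⟨σ, fun c _ => satS_con2S c σ⟩) (RG.far_toList.2 (f3 h))

/-- Gap 3-SAT is hard. -/
theorem gap_3sat : ∃ α : ℝ, 0 < α ∧ Hard (Gap satClause 1 (1 - α)) := by
  obtain ⟨α, B, f, hα, hf, h⟩ := pcp_3sat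
  exact ⟨α, hα, f, hf, fun φ hφ => gap_yes_one.2 ⟨(h φ).1, (h φ).2.2.1 hφ⟩,
    fun φ hφ => gap_no_iff.2 ⟨(h φ).1, (h φ).2.2.2 hφ⟩⟩

end Vale.Agent.Lib.PCP
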