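import Vale.Agent.Lib.PCP.LCBase
import Vale.Agent.Lib.PCP.PCPThm

/-!
Label cover with perfect completeness and arbitrarily small soundness.
-/

namespace Vale.Agent.Lib.PCP

open Vale.Agent.Lib.PolyTime

/-- The base game: a constant gap. -/
theorem label_cover_base : ∃ (ε : ℝ) (F : CNF → LC (D0 × Bool) (S0 × S0) S0),
    0 < ε ∧ LCHard F 2 (1 - ε) := by
  obtain ⟨lam, α, F, -, -, hα, hF, h⟩ := pcp_rg
  exact ⟨α / 2, _, by linarith, lcHard_of_rg hF fun φ =>
    ⟨(h φ).1, (h φ).2.2.1, (h φ).2.2.2.1, (h φ).2.2.2.2⟩⟩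

/-- Biregular label cover with perfect completeness and soundness `δ`. -/
theorem label_cover (δ : ℝ) (hδ : 0 < δ) :
    ∃ (d a b dV : ℕ) (F : CNF → LC (Fin (d + 1)) (Fin (a + 1)) (Fin (b + 1))),
      0 < dV ∧ LCHard F dV δ := by
  obtain ⟨ε, F, hε, h⟩ := label_cover_base
  exact h.amplify two_pos hε δ hδ

/-- The gap problem for lists of projection constraints. -/
theorem hard_label_cover (δ : ℝ) (hδ : 0 < δ) : ∃ a b : ℕ,
    Hard (Gap (satP (U := ℕ) (V := ℕ) (A := Fin (a + 1)) (B := Fin (b + 1))) 1 δ) := by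
  obtain ⟨d, a, b, dV, F, -, h⟩ := label_cover δ hδ
  exact ⟨a, b, h.hard_gap⟩

end Vale.Agent.Lib.PCP
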