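import Mathlib.Computability.TuringMachine.Computable

/-!
Textbook definitions: polynomial time, the classes P and NP, NP-hard promise problems, 3-SAT.
-/

namespace Vale.Agent.Lib.NP

/-- The function `f` is computed, with respect to the binary codes `ea` and `eb`, in polynomial time
by a deterministic Turing machine (the multi-stack machines of Mathlib, with finite alphabets). -/
def PolyTime {α β : Type} (ea : α → List Bool) (eb : β → List Bool) (f : α → β) : Prop :=
  ∃ M : Turing.TM2ComputableInPolyTime ea eb f, ∀ k, Finite (M.tm.Γ k)

/-- The word `x` in self-delimiting form (each bit is preceded by `true`, the end is marked by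
`false`), followed by the word `y`. -/
def pairW : List Bool → List Bool → List Bool
  | [], y => false :: y
  | c :: x, y => true :: c :: pairW x y

/-- A list of words, each of them in self-delimiting form. -/
def listW : List (List Bool) → List Bool
  | [] => []
  | x :: l => pairW x (listW l)

/-- The class P. -/
def InP (L : Set (List Bool)) : Prop :=
  ∃ A : List Bool → List Bool, PolyTime id id A ∧ ∀ x, x ∈ L ↔ A x = [true]

/-- The class NP: polynomially long witnesses which are checked in polynomial time. -/
def InNP (L : Set (List Bool)) : Prop :=
  ∃ (V : List Bool → List Bool) (q : Polynomial ℕ), PolyTime id id V ∧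
    ∀ x, x ∈ L ↔ ∃ w : List Bool, w.length ≤ q.eval x.length ∧ V (pairW x w) = [true]

/-- The promise problem with yes instances `Y` and no instances `N` (coded by `code`) is NP-hard:
every language in NP reduces to it by a polynomial time many-one reduction. -/
def NPHard {β : Type} (code : β → List Bool) (Y N : β → Prop) : Prop :=
  ∀ L, InNP L → ∃ f : List Bool → β, PolyTime id code f ∧
    (∀ x, x ∈ L → Y (f x)) ∧ (∀ x, x ∉ L → N (f x))

/-- 3-CNF formulas: lists of clauses, each a triple of literals; the literal `(i, b)` says that the
variable `i` has the value `b`. -/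
abbrev Formula : Type := List ((ℕ × Bool) × (ℕ × Bool) × (ℕ × Bool))

/-- Some assignment makes a literal of every clause true. -/
def Formula.Satisfiable (φ : Formula) : Prop :=
  ∃ σ : ℕ → Bool, ∀ c ∈ φ, σ c.1.1 = c.1.2 ∨ σ c.2.1.1 = c.2.1.2 ∨ σ c.2.2.1 = c.2.2.2

/-- The binary code of a literal: the variable in binary, then the sign. -/
def litW (l : ℕ × Bool) : List Bool := pairW l.1.bits [l.2]

/-- The binary code of a formula. -/
def Formula.code (φ : Formula) : List Bool :=
  listW (φ.map fun c => pairW (litW c.1) (pairW (litW c.2.1) (litW c.2.2)))

/-- There is a polynomial time many-one reduction from 3-SAT to the promise problem with yes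
instances `Y` and no instances `N`. -/
def SatReduces {β : Type} (code : β → List Bool) (Y N : β → Prop) : Prop :=
  ∃ f : Formula → β, PolyTime Formula.code code f ∧
    (∀ φ, φ.Satisfiable → Y (f φ)) ∧ (∀ φ, ¬ φ.Satisfiable → N (f φ))

end Vale.Agent.Lib.NP
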