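import Vale.Agent.Lib.PCP.CookLevin
import Vale.Agent.Lib.PCP.NPDefs
import Vale.Agent.Lib.PolyTime.OfTM2
import Vale.Agent.Lib.PolyTime.TypedTM2

/-!
From hardness in the sense of the library to NP-hardness in the textbook sense.
-/

namespace Vale.Agent.Lib.PCP

open Vale.Agent.Lib.PolyTime Vale.Agent.Lib.NP

theorem pt_polyEval {α : Type} [Enc α] (p : Polynomial ℕ) {f : α → ℕ} (hf : PT ∅ f) :
    PT ∅ fun a => p.eval (f a) := by
  induction p using Polynomial.induction_on' with
  | add p q hp hq => exact (hp.add hq).congr fun a => by rw [Polynomial.eval_add]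
  | monomial n c =>
    exact ((PT.const c).mul (hf.powConst n)).congr fun a => by rw [Polynomial.eval_monomial]

/-- Every language with polynomially long witnesses checked in polynomial time reduces to 3-SAT. -/
theorem cook_levin_fp {L : Set Word} (V : Word → Word) (p : Polynomial ℕ) (hV : FP ∅ V)
    (hL : ∀ x, x ∈ L ↔ ∃ w : Word, w.length ≤ p.eval x.length ∧ V (pr x w) = [true]) :
    Red (⟨fun x => x.w ∈ L, fun x => x.w ∉ L⟩ : Promise Raw) SAT3 := by
  have h1 : PT ∅ fun z : Raw × Raw => Raw.mk (V (pr z.1.w z.2.w)) := ⟨V, hV, fun _ => rfl⟩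
  have h2 : PT ∅ fun z : Raw × Raw => decide ((V (pr z.1.w z.2.w) : List Bool) = [true]) :=
    PT.eq (PT.listOfRaw h1) (PT.const [true])
  obtain ⟨f, hf, hf'⟩ := cook_levin _ h2 (fun x : Raw => p.eval x.w.length)
    (pt_polyEval p (PT.rawLength PT.id)) (PBd.of_PB (PB.of_polynomial p))
  have h3 : ∀ x : Raw, x.w ∈ L ↔ Satisfiable (f x) := by
    intro x
    rw [hL, ← hf']
    constructor
    · rintro ⟨w, hw, h⟩
      exact ⟨⟨w⟩, hw, decide_eq_true h⟩
    · rintro ⟨w, hw, h⟩
      exact ⟨w.w, hw, of_decide_eq_true h⟩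
  exact ⟨f, hf, fun x hx => (h3 x).1 hx, fun x hx h => hx ((h3 x).2 h)⟩

theorem pairW_eq_pr : pairW = pr := by
  funext x y
  induction x with
  | nil => rfl
  | cons b x ih => simp [pairW, pr, ih]

theorem listW_map_enc {α : Type} [Enc α] (l : List α) : listW (l.map enc) = enc l := by
  induction l with
  | nil => rfl
  | cons a l ih => rw [List.map_cons, listW, ih, pairW_eq_pr, enc_cons]

theorem polyTime_id_iff {f : List Bool → List Bool} : NP.PolyTime id id f ↔ FP ∅ f := by
  constructor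
  · rintro ⟨M, -⟩
    exact OfTM2.FP_of_tm2 M
  · intro h
    exact exists_tm2_of_polyTimeFun _ _ f f (polyTimeFun_iff.2 h) fun _ => rfl

/-- From `FP` to the machines of Mathlib, for arbitrary codes. -/
theorem polyTime_of_fp {α β : Type} {ea : α → List Bool} {eb : β → List Bool} {f : α → β}
    {g : Word → Word} (hg : FP ∅ g) (h : ∀ a, g (ea a) = eb (f a)) : NP.PolyTime ea eb f :=
  exists_tm2_of_polyTimeFun ea eb f g (polyTimeFun_iff.2 hg) h

theorem formula_code_eq (φ : CNF) : Formula.code φ = enc φ := by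
  rw [Formula.code, ← listW_map_enc, pairW_eq_pr]
  simp only [litW, pairW_eq_pr]
  rfl

theorem formula_satisfiable_iff (φ : CNF) : Formula.Satisfiable φ ↔ Satisfiable φ := by
  simp only [Formula.Satisfiable, Satisfiable, satClause, satLit, Bool.or_eq_true, beq_iff_eq,
    or_assoc]

/-- Every language in NP reduces to 3-SAT. -/
theorem red_sat3_of_inNP {L : Set (List Bool)} (hL : InNP L) :
    Red (⟨fun x => x.w ∈ L, fun x => x.w ∉ L⟩ : Promise Raw) SAT3 := by
  obtain ⟨V, q, hV, h⟩ := hL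
  exact cook_levin_fp V q (polyTime_id_iff.1 hV) (by simpa only [pairW_eq_pr] using h)

/-- The general bridge. Instances `x` of `Q` (yes or no) are translated to instances `t x` of the
target problem, whose code is the code of a polynomial time function `d`. -/
theorem Red.exists_polyTime {α β γ δ : Type} [Enc α] [Enc β] [Enc δ] {P : Promise α}
    {Q : Promise β} (h : Red P Q) (hP : ∀ a, P.yes a ∨ P.no a) (code : γ → List Bool)
    (Y N : γ → Prop) (d : β → δ) (hd : PT ∅ d)
    (hY : ∀ x, Q.yes x → ∃ y, code y = enc (d x) ∧ Y y)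
    (hN : ∀ x, Q.no x → ∃ y, code y = enc (d x) ∧ N y) (hP' : ∀ a, P.yes a → ¬ P.no a) :
    ∃ (f : α → γ) (g : Word → Word), FP ∅ g ∧ (∀ a, g (enc a) = code (f a)) ∧
      (∀ a, P.yes a → Y (f a)) ∧ ∀ a, P.no a → N (f a) := by
  classical
  obtain ⟨f, hf, f1, f2⟩ := h
  have h1 : ∀ a, ∃ y, code y = enc (d (f a)) ∧ (P.yes a → Y y) ∧ (P.no a → N y) := by
    intro a
    rcases hP a with ha | ha
    · obtain ⟨y, e, hy⟩ := hY _ (f1 a ha)
      exact ⟨y, e, fun _ => hy, fun h => absurd h (hP' a ha)⟩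
    · obtain ⟨y, e, hy⟩ := hN _ (f2 a ha)
      exact ⟨y, e, fun h => absurd ha (hP' a h), fun _ => hy⟩
  choose F hF using h1
  obtain ⟨g, hg, hg'⟩ := hd.comp hf
  exact ⟨F, g, hg, fun a => by rw [hg', (hF a).1], fun a => (hF a).2.1, fun a => (hF a).2.2⟩

/-- Hard problems of the library give NP-hard problems. -/
theorem Hard.npHard {β γ δ : Type} [Enc β] [Enc δ] {Q : Promise β} (h : Hard Q)
    (code : γ → List Bool) (Y N : γ → Prop) (d : β → δ) (hd : PT ∅ d)
    (hY : ∀ x, Q.yes x → ∃ y, code y = enc (d x) ∧ Y y)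
    (hN : ∀ x, Q.no x → ∃ y, code y = enc (d x) ∧ N y) : NPHard code Y N := by
  intro L hL
  obtain ⟨f, g, hg, e, h1, h2⟩ := ((red_sat3_of_inNP hL).trans h).exists_polyTime
    (fun a => em _) code Y N d hd hY hN fun a ha hn => hn ha
  exact ⟨fun x => f ⟨x⟩, polyTime_of_fp hg fun x => e ⟨x⟩, fun x hx => h1 ⟨x⟩ hx,
    fun x hx => h2 ⟨x⟩ hx⟩

/-- Hard problems of the library give reductions from 3-SAT in the textbook sense. -/
theorem Hard.satReduces {β γ δ : Type} [Enc β] [Enc δ] {Q : Promise β} (h : Hard Q)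
    (code : γ → List Bool) (Y N : γ → Prop) (d : β → δ) (hd : PT ∅ d)
    (hY : ∀ x, Q.yes x → ∃ y, code y = enc (d x) ∧ Y y)
    (hN : ∀ x, Q.no x → ∃ y, code y = enc (d x) ∧ N y) : SatReduces code Y N := by
  obtain ⟨f, g, hg, e, h1, h2⟩ := Red.exists_polyTime h
    (fun a => em _) code Y N d hd hY hN fun a ha hn => hn ha
  exact ⟨f, polyTime_of_fp hg fun φ => by rw [formula_code_eq, e],
    fun φ hφ => h1 φ ((formula_satisfiable_iff φ).1 hφ),
    fun φ hφ => h2 φ fun h => hφ ((formula_satisfiable_iff φ).2 h)⟩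

/-- The special case in which the instances and their codes are those of the library. -/
theorem Hard.npHard_enc {β : Type} [Enc β] {Q : Promise β} (h : Hard Q) :
    NPHard (enc : β → List Bool) Q.yes Q.no :=
  h.npHard enc Q.yes Q.no (fun x => x) PT.id (fun x hx => ⟨x, rfl, hx⟩) fun x hx => ⟨x, rfl, hx⟩

/-- If a word function computable in polynomial time separates the yes instances from the no
instances of a hard problem then P = NP. -/
theorem Hard.inP_of_decides {β : Type} [Enc β] {Q : Promise β} (h : Hard Q) {A : Word → Word}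
    (hA : FP ∅ A) (h1 : ∀ x, Q.yes x → A (enc x) = [true]) (h2 : ∀ x, Q.no x → A (enc x) ≠ [true])
    {L : Set (List Bool)} (hL : InNP L) : InP L := by
  obtain ⟨f, ⟨g, hg, e⟩, f1, f2⟩ := (red_sat3_of_inNP hL).trans h
  refine ⟨fun x => A (g x), polyTime_id_iff.2 (hA.comp hg), fun x => ?_⟩
  have e' : g x = enc (f ⟨x⟩) := e ⟨x⟩
  show _ ↔ A (g x) = [true]
  rw [e']
  exact ⟨fun hx => h1 _ (f1 ⟨x⟩ hx), fun hx => by_contra fun hn => h2 _ (f2 ⟨x⟩ hn) hx⟩

end Vale.Agent.Lib.PCP
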