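import Mathlib.Algebra.BigOperators.Expect
import Mathlib.Algebra.Order.BigOperators.Expect
import Mathlib.Data.Real.Basic
import Mathlib.Tactic

/-!
Averages over all lists of a given length, walks in a graph given by permutations.
-/

namespace Vale.Agent.Lib.PCP.Power

open Finset
open scoped BigOperators

variable {V D : Type*}

/-- The average of `f` over all lists of length `n`. -/
noncomputable def av [Fintype D] : ℕ → (List D → ℝ) → ℝ
  | 0, f => f []
  | n + 1, f => 𝔼 d, av n (fun l => f (d :: l))

section Av

variable [Fintype D]

theorem av_zero (f : List D → ℝ) : av 0 f = f [] := rfl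

theorem av_succ (n : ℕ) (f : List D → ℝ) :
    av (n + 1) f = 𝔼 d, av n (fun l => f (d :: l)) := rfl

theorem av_mono {n : ℕ} {f g : List D → ℝ} (h : ∀ l, l.length = n → f l ≤ g l) :
    av n f ≤ av n g := by
  induction n generalizing f g with
  | zero => exact h [] rfl
  | succ n ih =>
    rw [av_succ, av_succ]
    exact expect_le_expect fun d _ => ih fun l hl => h _ (by simp [hl])

theorem av_congr {n : ℕ} {f g : List D → ℝ} (h : ∀ l, l.length = n → f l = g l) :
    av n f = av n g :=
  le_antisymm (av_mono fun l hl => (h l hl).le) (av_mono fun l hl => (h l hl).ge)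

theorem av_const [Nonempty D] (n : ℕ) (c : ℝ) : av n (fun _ : List D => c) = c := by
  induction n with
  | zero => rfl
  | succ n ih => rw [av_succ]; simp only [ih, Fintype.expect_const]

theorem av_zero_fun (n : ℕ) : av n (fun _ : List D => (0 : ℝ)) = 0 := by
  induction n with
  | zero => rfl
  | succ n ih => rw [av_succ]; simp only [ih, expect_const_zero]

theorem av_nonneg {n : ℕ} {f : List D → ℝ} (h : ∀ l, l.length = n → 0 ≤ f l) : 0 ≤ av n f := by
  rw [← av_zero_fun (D := D) n]
  exact av_mono h

theorem av_add (n : ℕ) (f g : List D → ℝ) :
    av n (fun l => f l + g l) = av n f + av n g := by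
  induction n generalizing f g with
  | zero => rfl
  | succ n ih => simp only [av_succ, ih, expect_add_distrib]

theorem av_mul_left (n : ℕ) (c : ℝ) (f : List D → ℝ) :
    av n (fun l => c * f l) = c * av n f := by
  induction n generalizing f with
  | zero => rfl
  | succ n ih => simp only [av_succ, ih, mul_expect]

theorem av_mul_right (n : ℕ) (c : ℝ) (f : List D → ℝ) :
    av n (fun l => f l * c) = av n f * c := by
  simp only [mul_comm _ c, av_mul_left]

theorem av_sub (n : ℕ) (f g : List D → ℝ) :
    av n (fun l => f l - g l) = av n f - av n g := by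
  induction n generalizing f g with
  | zero => rfl
  | succ n ih => simp only [av_succ, ih, expect_sub_distrib]

theorem av_sum {ι : Type*} (n : ℕ) (t : Finset ι) (f : ι → List D → ℝ) :
    av n (fun l => ∑ i ∈ t, f i l) = ∑ i ∈ t, av n (f i) := by
  induction n generalizing f with
  | zero => rfl
  | succ n ih => simp only [av_succ, ih, expect_sum_comm]

theorem av_expect {ι : Type*} (n : ℕ) (t : Finset ι) (f : ι → List D → ℝ) :
    av n (fun l => 𝔼 i ∈ t, f i l) = 𝔼 i ∈ t, av n (f i) := by
  induction n generalizing f with
  | zero => rfl
  | succ n ih =>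
    simp only [av_succ, ih]
    exact expect_comm _ _ _

theorem av_append (i j : ℕ) (f : List D → ℝ) :
    av (i + j) f = av i (fun l => av j (fun l' => f (l ++ l'))) := by
  induction i generalizing f with
  | zero => simp only [Nat.zero_add, av_zero, List.nil_append]
  | succ i ih =>
    rw [Nat.add_right_comm, av_succ, av_succ]
    simp only [ih, List.cons_append]

theorem av_snoc (n : ℕ) (f : List D → ℝ) :
    av (n + 1) f = av n (fun l => 𝔼 d, f (l ++ [d])) := by
  rw [av_append]
  rfl

theorem av_take [Nonempty D] {m n : ℕ} (h : m ≤ n) (f : List D → ℝ) :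
    av n (fun l => f (l.take m)) = av m f := by
  obtain ⟨k, rfl⟩ := Nat.exists_eq_add_of_le h
  rw [av_append]
  refine av_congr fun l hl => ?_
  simp only [List.take_left' hl, av_const]

end Av

/-- The end point of the walk which starts at `v` and uses the ports of `l`. -/
def walk (s : D → V → V) (v : V) (l : List D) : V := l.foldl (fun v d => s d v) v

/-- The ports of the reversed walk. -/
def rev (inv : D → D) (l : List D) : List D := (l.map inv).reverse

@[simp] theorem walk_nil (s : D → V → V) (v : V) : walk s v [] = v := rfl

@[simp] theorem walk_cons (s : D → V → V) (v : V) (d : D) (l : List D) :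
    walk s v (d :: l) = walk s (s d v) l := rfl

theorem walk_append (s : D → V → V) (v : V) (l l' : List D) :
    walk s v (l ++ l') = walk s (walk s v l) l' := by
  simp only [walk, List.foldl_append]

@[simp] theorem rev_nil (inv : D → D) : rev inv [] = [] := rfl

theorem rev_cons (inv : D → D) (d : D) (l : List D) :
    rev inv (d :: l) = rev inv l ++ [inv d] := by simp [rev]

@[simp] theorem length_rev (inv : D → D) (l : List D) : (rev inv l).length = l.length := by
  simp [rev]

/-- A graph given by permutations: every port `d` has an inverse port. -/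
structure Sym (s : D → V → V) (inv : D → D) : Prop where
  inv_inv : ∀ d, inv (inv d) = d
  back : ∀ d v, s (inv d) (s d v) = v

variable {s : D → V → V} {inv : D → D}

theorem Sym.walk_rev (h : Sym s inv) (v : V) (l : List D) :
    walk s (walk s v l) (rev inv l) = v := by
  induction l generalizing v with
  | nil => rfl
  | cons d l ih => rw [walk_cons, rev_cons, walk_append, ih, walk_cons, walk_nil, h.back]

theorem Sym.rev_rev (h : Sym s inv) (l : List D) : rev inv (rev inv l) = l := by
  have : inv ∘ inv = id := funext h.inv_inv
  simp [rev, this]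

theorem Sym.bijective_step (h : Sym s inv) (d : D) : Function.Bijective (s d) :=
  Function.bijective_iff_has_inverse.2 ⟨s (inv d), h.back d, fun v => by
    have := h.back (inv d) v
    rwa [h.inv_inv] at this⟩

theorem Sym.bijective_walk (h : Sym s inv) (l : List D) :
    Function.Bijective (fun v => walk s v l) :=
  Function.bijective_iff_has_inverse.2 ⟨fun v => walk s v (rev inv l), fun v => h.walk_rev v l,
    fun v => by
      have := h.walk_rev v (rev inv l)
      rwa [h.rev_rev] at this⟩

theorem Sym.bijective_inv (h : Sym s inv) : Function.Bijective inv :=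
  Function.Involutive.bijective h.inv_inv

variable [Fintype D]

theorem Sym.av_rev (h : Sym s inv) (n : ℕ) (f : List D → ℝ) :
    av n (fun l => f (rev inv l)) = av n f := by
  induction n generalizing f with
  | zero => rfl
  | succ n ih =>
    rw [av_succ, av_snoc, ← ih, av_expect]
    simp only [rev_cons]
    exact Fintype.expect_bijective inv h.bijective_inv _ _ fun d => rfl

variable [Fintype V]

omit [Fintype D] in

theorem Sym.expect_step (h : Sym s inv) (d : D) (f : V → ℝ) : 𝔼 v, f (s d v) = 𝔼 v, f v :=
  Fintype.expect_bijective (s d) (h.bijective_step d) _ _ fun _ => rfl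

/-- Reversal of random walks. -/
theorem Sym.expect_av_rev (h : Sym s inv) (n : ℕ) (H : V → List D → ℝ) :
    𝔼 a, av n (H a) = 𝔼 u, av n (fun l => H (walk s u l) (rev inv l)) := by
  have h1 : 𝔼 a, av n (H a) = 𝔼 a, av n (fun l => H a (rev inv l)) :=
    expect_congr rfl fun a _ => (h.av_rev n (H a)).symm
  rw [h1, ← av_expect, ← av_expect]
  refine av_congr fun l _ => ?_
  exact (Fintype.expect_bijective _ (h.bijective_walk l) _ _ fun _ => rfl).symm

end Vale.Agent.Lib.PCP.Power
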