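import Vale.Agent.Lib.PCP.PowerAv

/-!
Second moment of the number of marked steps of a random walk in a graph which satisfies a
Poincare inequality.
-/

namespace Vale.Agent.Lib.PCP.Power

open Finset
open scoped BigOperators

variable {V D : Type*}

/-- Total weight of the steps of the walk. -/
def marks (s : D → V → V) (y : V → D → ℝ) : V → List D → ℝ
  | _, [] => 0
  | a, d :: l => y a d + marks s y (s d a) l

theorem marks_nonneg {s : D → V → V} {y : V → D → ℝ} (hy : ∀ a d, 0 ≤ y a d) (a : V)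
    (l : List D) : 0 ≤ marks s y a l := by
  induction l generalizing a with
  | nil => exact le_rfl
  | cons d l ih => exact add_nonneg (hy a d) (ih _)

variable [Fintype V] [Fintype D]

/-- Normalized Poincare inequality. -/
def PoincN (s : D → V → V) (γ : ℝ) : Prop :=
  ∀ g : V → ℝ, 2 * γ * 𝔼 v, (g v - 𝔼 w, g w) ^ 2 ≤ 𝔼 v, 𝔼 d, (g v - g (s d v)) ^ 2

/-- Iterates of the averaging operator. -/
noncomputable def pw (s : D → V → V) (φ : V → ℝ) : ℕ → V → ℝ
  | 0, v => φ v
  | n + 1, v => 𝔼 d, pw s φ n (s d v)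

/-- Expected total weight of a walk of length `n`. -/
noncomputable def m1 (s : D → V → V) (y : V → D → ℝ) (n : ℕ) (a : V) : ℝ := av n (marks s y a)

variable {s : D → V → V} {inv : D → D} {y : V → D → ℝ} [Nonempty D]

omit [Fintype V] in
theorem m1_succ (n : ℕ) (a : V) :
    m1 s y (n + 1) a = (𝔼 d, y a d) + 𝔼 d, m1 s y n (s d a) := by
  rw [m1, av_succ, ← expect_add_distrib]
  refine expect_congr rfl fun d _ => ?_
  simp only [marks]
  rw [av_add, av_const]
  rfl

omit [Fintype V] in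
theorem m1_succ' (n : ℕ) (a : V) :
    m1 s y (n + 1) a = m1 s y n a + pw s (fun v => 𝔼 d, y v d) n a := by
  induction n generalizing a with
  | zero =>
    rw [m1_succ]
    simp [m1, av_zero, marks, pw]
  | succ n ih =>
    rw [m1_succ, m1_succ n a]
    simp only [ih, expect_add_distrib, pw]
    ring

omit [Fintype V] in
theorem pw_mem {φ : V → ℝ} (h0 : ∀ v, 0 ≤ φ v) (h1 : ∀ v, φ v ≤ 1) (n : ℕ) (v : V) :
    0 ≤ pw s φ n v ∧ pw s φ n v ≤ 1 := by
  induction n generalizing v with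
  | zero => exact ⟨h0 v, h1 v⟩
  | succ n ih =>
    exact ⟨expect_nonneg fun d _ => (ih _).1, expect_le univ_nonempty fun d _ => (ih _).2⟩

theorem Sym.expect_pw (h : Sym s inv) (φ : V → ℝ) (n : ℕ) : 𝔼 v, pw s φ n v = 𝔼 v, φ v := by
  induction n with
  | zero => rfl
  | succ n ih =>
    simp only [pw]
    rw [expect_comm]
    simp only [h.expect_step _ (pw s φ n), ih, Fintype.expect_const]

theorem Sym.expect_m1 (h : Sym s inv) (n : ℕ) :
    𝔼 v, m1 s y n v = n * 𝔼 v, 𝔼 d, y v d := by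
  induction n with
  | zero => simp [m1, av_zero, marks]
  | succ n ih =>
    simp only [m1_succ', expect_add_distrib, ih, h.expect_pw]
    push_cast
    ring

/-- The Dirichlet form. -/
theorem Sym.dirichlet (h : Sym s inv) (g : V → ℝ) (c : ℝ) :
    𝔼 v, 𝔼 d, (g v - g (s d v)) ^ 2 = 2 * 𝔼 v, (g v - c) * (g v - 𝔼 d, g (s d v)) := by
  have h1 : 𝔼 v, 𝔼 d, (g (s d v) - c) ^ 2 = 𝔼 v, (g v - c) ^ 2 := by
    rw [expect_comm]
    simp only [h.expect_step _ (fun v => (g v - c) ^ 2), Fintype.expect_const]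
  have h2 : ∀ v, 𝔼 d, (g v - g (s d v)) ^ 2 =
      2 * ((g v - c) * (g v - 𝔼 d, g (s d v))) + (𝔼 d, (g (s d v) - c) ^ 2 - (g v - c) ^ 2) := by
    intro v
    have e : ∀ d, (g v - g (s d v)) ^ 2 = (2 * (g v - c) * g v - (g v - c) ^ 2) +
        ((g (s d v) - c) ^ 2 - 2 * (g v - c) * g (s d v)) := fun d => by ring
    simp only [e, expect_add_distrib, expect_sub_distrib, Fintype.expect_const, ← mul_expect]
    ring
  simp only [h2, expect_add_distrib, expect_sub_distrib, h1, ← mul_expect]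
  ring

/-- Variance of the expected total weight. -/
theorem Sym.var_m1 (h : Sym s inv) {γ : ℝ} (hγ : 0 < γ) (hP : PoincN s γ)
    (h0 : ∀ a d, 0 ≤ y a d) (h1 : ∀ a d, y a d ≤ 1) (n : ℕ) :
    γ ^ 2 * 𝔼 v, (m1 s y n v - 𝔼 w, m1 s y n w) ^ 2 ≤ 2 * 𝔼 v, 𝔼 d, y v d := by
  set φ : V → ℝ := fun v => 𝔼 d, y v d with hφ
  set g : V → ℝ := m1 s y n with hg
  set c : ℝ := 𝔼 w, g w with hc
  have φ0 : ∀ v, 0 ≤ φ v := fun v => expect_nonneg fun d _ => h0 v d
  have φ1 : ∀ v, φ v ≤ 1 := fun v => expect_le univ_nonempty fun d _ => h1 v d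
  have e1 : ∀ v, g v - 𝔼 d, g (s d v) = φ v - pw s φ n v := by
    intro v
    have a1 := m1_succ (s := s) (y := y) n v
    have a2 := m1_succ' (s := s) (y := y) n v
    simp only [hg, hφ]
    linarith
  have e2 := hP g
  rw [h.dirichlet g c, ← hc] at e2
  simp only [e1] at e2
  have e3 : 𝔼 v, γ * ((g v - c) * (φ v - pw s φ n v)) ≤
      𝔼 v, (γ ^ 2 * (g v - c) ^ 2 / 2 + (φ v + pw s φ n v) / 2) := by
    refine expect_le_expect fun v _ => ?_
    obtain ⟨p0, p1⟩ := pw_mem (s := s) φ0 φ1 n v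
    have a0 := φ0 v
    have a1 := φ1 v
    have : (φ v - pw s φ n v) ^ 2 ≤ φ v + pw s φ n v := by nlinarith
    nlinarith [sq_nonneg (γ * (g v - c) - (φ v - pw s φ n v))]
  rw [← mul_expect, expect_add_distrib, ← expect_div, ← expect_div, ← mul_expect,
    expect_add_distrib, h.expect_pw] at e3
  nlinarith

/-- Second moment of the total weight of a random walk. -/
theorem Sym.second_moment [Nonempty V] (h : Sym s inv) {γ : ℝ} (hγ : 0 < γ) (hP : PoincN s γ)
    (h0 : ∀ a d, 0 ≤ y a d) (h1 : ∀ a d, y a d ≤ 1) (n : ℕ) :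
    𝔼 a, av n (fun l => marks s y a l ^ 2) ≤
      n * (𝔼 v, 𝔼 d, y v d) * (1 + n * (𝔼 v, 𝔼 d, y v d) + 3 / γ) := by
  set δ : ℝ := 𝔼 v, 𝔼 d, y v d with hδ
  have δ0 : 0 ≤ δ := expect_nonneg fun v _ => expect_nonneg fun d _ => h0 v d
  induction n with
  | zero => simp [av_zero, marks]
  | succ n ih =>
    set g : V → ℝ := m1 s y n with hg
    have hc : 𝔼 w, g w = n * δ := h.expect_m1 n
    have hv := h.var_m1 hγ hP h0 h1 n
    rw [← hg, hc, ← hδ] at hv
    have e1 : ∀ a, av (n + 1) (fun l => marks s y a l ^ 2) =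
        𝔼 d, (y a d ^ 2 + 2 * y a d * g (s d a) + av n (fun l => marks s y (s d a) l ^ 2)) := by
      intro a
      rw [av_succ]
      refine expect_congr rfl fun d _ => ?_
      simp only [marks, add_sq]
      rw [av_add, av_add, av_const, av_mul_left]
      rfl
    have e2 : ∀ a d, y a d ^ 2 + 2 * y a d * g (s d a) ≤
        (1 + 2 * (n * δ) + 1 / γ) * y a d + γ * (g (s d a) - n * δ) ^ 2 := by
      intro a d
      have a0 := h0 a d
      have a1 := h1 a d
      have a2 : y a d ^ 2 ≤ y a d := by nlinarith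
      have a3 : 2 * y a d * (g (s d a) - n * δ) ≤
          1 / γ * y a d ^ 2 + γ * (g (s d a) - n * δ) ^ 2 := by
        have : 1 / γ * y a d ^ 2 + γ * (g (s d a) - n * δ) ^ 2 - 2 * y a d * (g (s d a) - n * δ)
            = (y a d - γ * (g (s d a) - n * δ)) ^ 2 / γ := by
          field_simp
          ring
        have h5 : 0 ≤ (y a d - γ * (g (s d a) - n * δ)) ^ 2 / γ := by positivity
        linarith
      have a4 : 1 / γ * y a d ^ 2 ≤ 1 / γ * y a d :=
        mul_le_mul_of_nonneg_left a2 (by positivity)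
      nlinarith
    have e3 : 𝔼 a, av (n + 1) (fun l => marks s y a l ^ 2) ≤
        𝔼 a, 𝔼 d, ((1 + 2 * (n * δ) + 1 / γ) * y a d + γ * (g (s d a) - n * δ) ^ 2 +
          av n (fun l => marks s y (s d a) l ^ 2)) := by
      refine expect_le_expect fun a _ => ?_
      rw [e1]
      exact expect_le_expect fun d _ => add_le_add_left (e2 a d) _
    have e4 : 𝔼 a, 𝔼 d, (g (s d a) - n * δ) ^ 2 = 𝔼 v, (g v - n * δ) ^ 2 := by
      rw [expect_comm]
      simp only [h.expect_step _ (fun v => (g v - n * δ) ^ 2), Fintype.expect_const]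
    have e5 : 𝔼 a, 𝔼 d, av n (fun l => marks s y (s d a) l ^ 2) =
        𝔼 a, av n (fun l => marks s y a l ^ 2) := by
      rw [expect_comm]
      simp only [h.expect_step _ (fun a => av n (fun l => marks s y a l ^ 2)),
        Fintype.expect_const]
    simp only [expect_add_distrib, ← mul_expect, e4, e5] at e3
    rw [← hδ] at e3
    have e6 : γ * 𝔼 v, (g v - n * δ) ^ 2 ≤ 2 / γ * δ := by
      rw [div_mul_eq_mul_div, le_div_iff₀ hγ]
      nlinarith
    have e7 : (3 : ℝ) / γ = 1 / γ + 2 / γ := by ring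
    push_cast
    rw [e7] at ih ⊢
    nlinarith [sq_nonneg δ]

end Vale.Agent.Lib.PCP.Power
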