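import Vale.Agent.Lib.PCP.PrepCloud

/-!
Preprocessing: from a list of binary constraints to a regular expanding constraint graph.
-/

namespace Vale.Agent.Lib.PCP

open Vale.Agent.Lib.PolyTime Finset
open scoped BigOperators

theorem sum_range_two_mul {M : Type*} [AddCommMonoid M] (m : ℕ) (g : ℕ → M) :
    ∑ s ∈ range (2 * m), g s = ∑ j ∈ range m, (g (2 * j) + g (2 * j + 1)) := by
  induction m with
  | zero => simp
  | succ m ih =>
    rw [Nat.mul_succ, Finset.sum_range_succ, Finset.sum_range_succ, ih, Finset.sum_range_succ,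
      add_assoc]

section Prep

variable {E S : Type}

/-- The trivial constraint. -/
def triv2 (S : Type) : Con2 ℕ S := (0, 0, fun _ _ => true)

/-- The variable at a slot: slot `s` is the side `s % 2` of the constraint number `s / 2`. -/
def slotVar (G : List (Con2 ℕ S)) (s : ℕ) : ℕ :=
  if s % 2 = 1 then (G.getD (s / 2) (triv2 S)).2.1 else (G.getD (s / 2) (triv2 S)).1

/-- The other slot of the same constraint. -/
def partner (s : ℕ) : ℕ := if s % 2 = 1 then s - 1 else s + 1

/-- The relation between a slot and its partner. -/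
def slotRel (G : List (Con2 ℕ S)) (s : ℕ) : S → S → Bool :=
  if s % 2 = 1 then fun _ _ => true else (G.getD (s / 2) (triv2 S)).2.2

theorem slotVar_even (G : List (Con2 ℕ S)) (j : ℕ) :
    slotVar G (2 * j) = (G.getD j (triv2 S)).1 := by
  simp [slotVar]

theorem slotVar_odd (G : List (Con2 ℕ S)) (j : ℕ) :
    slotVar G (2 * j + 1) = (G.getD j (triv2 S)).2.1 := by
  have h1 : (2 * j + 1) % 2 = 1 := by omega
  have h2 : (2 * j + 1) / 2 = j := by omega
  rw [slotVar, if_pos h1, h2]

theorem slotRel_even (G : List (Con2 ℕ S)) (j : ℕ) :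
    slotRel G (2 * j) = (G.getD j (triv2 S)).2.2 := by
  simp [slotRel]

theorem partner_even (j : ℕ) : partner (2 * j) = 2 * j + 1 := by simp [partner]

theorem partner_lt {m s : ℕ} (h : s < 2 * m) : partner s < 2 * m := by
  unfold partner
  split_ifs <;> omega

theorem partner_partner (s : ℕ) : partner (partner s) = s := by
  unfold partner
  split_ifs <;> omega

/-- The generators of the preprocessed graph. -/
abbrev PrepD (E : Type) : Type := E ⊕ Unit ⊕ E ⊕ Unit

/-- The preprocessed graph. -/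
def prep [DecidableEq S] (ex : ℕ → E → ℕ → ℕ) (G : List (Con2 ℕ S)) : RG (PrepD E) S where
  n := 2 * G.length
  nxt := Sum.elim (clStep ex (2 * G.length) (slotVar G))
    (Sum.elim (fun _ => partner) (Sum.elim (ex (2 * G.length)) fun _ v => v))
  con := Sum.elim (fun _ _ a b => decide (a = b))
    (Sum.elim (fun _ => slotRel G) fun _ _ _ _ => true)

variable [DecidableEq S] {ex : ℕ → E → ℕ → ℕ} {G : List (Con2 ℕ S)}

theorem prep_n : (prep ex G).n = 2 * G.length := rfl

theorem prep_schreier [Rev E] (hex : ∀ k, Schreier k (ex k)) (G : List (Con2 ℕ S)) :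
    Schreier (prep ex G).n (prep ex G).nxt where
  lt i v hv := by
    rcases i with i | i | i | i
    · exact (schreier_clStep hex _ _).lt i v hv
    · exact partner_lt hv
    · exact (hex _).lt i v hv
    · exact hv
  inv i v hv := by
    rcases i with i | i | i | i
    · exact (schreier_clStep hex _ _).inv i v hv
    · exact partner_partner v
    · exact (hex _).inv i v hv
    · rfl

theorem prep_wf [Rev E] (hex : ∀ k, Schreier k (ex k)) (hG : G ≠ []) : (prep ex G).WF :=
  ⟨Nat.mul_pos two_pos (List.length_pos_iff.2 hG), prep_schreier hex G⟩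

theorem prep_sat [Rev E] (hex : ∀ k, Schreier k (ex k)) (h : Sat sat2 G) : (prep ex G).Sat := by
  obtain ⟨σ, hσ⟩ := h
  refine ⟨fun s => σ (slotVar G s), fun v hv i => ?_⟩
  rcases i with i | i | i | i
  · have := (mem_cloud.1 (clStep_mem hex (slotVar G) i hv)).2
    show decide (σ (slotVar G v) = σ (slotVar G (clStep ex _ (slotVar G) i v))) = true
    rw [prep_n] at this
    rw [this]
    simp
  · show slotRel G v (σ (slotVar G v)) (σ (slotVar G (partner v))) = true
    rcases Nat.even_or_odd' v with ⟨j, rfl | rfl⟩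
    · rw [slotRel_even, partner_even, slotVar_even, slotVar_odd]
      have hj : j < G.length := by rw [prep_n] at hv; omega
      refine hσ _ ?_
      rw [List.getD_eq_getElem _ _ hj]
      exact List.getElem_mem hj
    · have h1 : (2 * j + 1) % 2 = 1 := by omega
      rw [slotRel, if_pos h1]
  · rfl
  · rfl

theorem prep_allSat [Nonempty S] (h : AllSat2 G) : (prep ex G).AllSat := by
  intro v hv i
  have a := Classical.arbitrary S
  rcases i with i | i | i | i
  · exact ⟨a, a, by simp [prep]⟩
  · show ∃ a b, slotRel G v a b = true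
    rcases Nat.even_or_odd' v with ⟨j, rfl | rfl⟩
    · rw [slotRel_even]
      have hj : j < G.length := by rw [prep_n] at hv; omega
      refine h _ ?_
      rw [List.getD_eq_getElem _ _ hj]
      exact List.getElem_mem hj
    · have h1 : (2 * j + 1) % 2 = 1 := by omega
      rw [slotRel, if_pos h1]
      exact ⟨a, a, rfl⟩
  · exact ⟨a, a, rfl⟩
  · exact ⟨a, a, rfl⟩

theorem prep_far [Fintype E] [Fintype S] [Nonempty S] {γ : ℝ} (hγ : 0 < γ)
    (hp : ∀ k, Poinc γ k (ex k)) {ε : ℝ} (h : Far sat2 ε G) :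
    (prep ex G).Far (γ / ((1 + γ) * (2 * Fintype.card (PrepD E))) * ε) := by
  intro σ
  obtain ⟨τ, hτ⟩ := exists_cloud_label hp (2 * G.length) (slotVar G) σ
  have h1 := h τ
  rw [viol_eq_sum, sum_map_eq_sum_range _ (triv2 S)] at h1
  set B1 : ℝ := ∑ x ∈ range (2 * G.length), ∑ i,
    ne01 (σ x) (σ (clStep ex (2 * G.length) (slotVar G) i x)) with hB1
  set B2 : ℝ := ∑ x ∈ range (2 * G.length),
    if slotRel G x (σ x) (σ (partner x)) = true then (0 : ℝ) else 1 with hB2
  set M : ℝ := ∑ x ∈ range (2 * G.length), ne01 (σ x) (τ (slotVar G x)) with hM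
  have hB : ∑ v ∈ range (prep ex G).n, ∑ i, (if (prep ex G).ok σ v i = true then (0 : ℝ) else 1) =
      B1 + B2 := by
    rw [hB1, hB2, ← Finset.sum_add_distrib]
    refine Finset.sum_congr rfl fun v _ => ?_
    simp [Fintype.sum_sum_type, RG.ok, prep, ne01]
    congr
  have h2 : ∑ j ∈ range G.length, (if sat2 (G.getD j (triv2 S)) τ = true then (0 : ℝ) else 1) ≤
      B2 + M := by
    rw [hB2, hM, ← Finset.sum_add_distrib, sum_range_two_mul]
    refine Finset.sum_le_sum fun j _ => ?_
    rw [slotRel_even, partner_even, slotVar_even, slotVar_odd]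
    have a1 := ne01_nonneg (σ (2 * j)) (τ (G.getD j (triv2 S)).1)
    have a2 := ne01_nonneg (σ (2 * j + 1)) (τ (G.getD j (triv2 S)).2.1)
    have a3 : (0 : ℝ) ≤ if slotRel G (2 * j + 1) (σ (2 * j + 1)) (σ (partner (2 * j + 1))) = true
        then (0 : ℝ) else 1 := by split_ifs <;> norm_num
    have a4 : (0 : ℝ) ≤ if (G.getD j (triv2 S)).2.2 (σ (2 * j)) (σ (2 * j + 1)) = true
        then (0 : ℝ) else 1 := by split_ifs <;> norm_num
    have a5 : (if sat2 (G.getD j (triv2 S)) τ = true then (0 : ℝ) else 1) ≤ 1 := by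
      split_ifs <;> norm_num
    by_cases e1 : σ (2 * j) = τ (G.getD j (triv2 S)).1
    · by_cases e2 : σ (2 * j + 1) = τ (G.getD j (triv2 S)).2.1
      · have : sat2 (G.getD j (triv2 S)) τ =
            (G.getD j (triv2 S)).2.2 (σ (2 * j)) (σ (2 * j + 1)) := by rw [e1, e2]; rfl
        rw [this]
        linarith
      · have : ne01 (σ (2 * j + 1)) (τ (G.getD j (triv2 S)).2.1) = 1 := if_neg e2
        linarith
    · have : ne01 (σ (2 * j)) (τ (G.getD j (triv2 S)).1) = 1 := if_neg e1
      linarith
  have hB1n : 0 ≤ B1 :=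
    Finset.sum_nonneg fun _ _ => Finset.sum_nonneg fun _ _ => ne01_nonneg _ _
  have hB2n : 0 ≤ B2 := Finset.sum_nonneg fun _ _ => by split_ifs <;> norm_num
  have hd : (0 : ℝ) < Fintype.card (PrepD E) := by exact_mod_cast Fintype.card_pos
  rw [hB, prep_n]
  have e : γ / ((1 + γ) * (2 * Fintype.card (PrepD E))) * ε *
      (((2 * G.length : ℕ) : ℝ) * Fintype.card (PrepD E)) = γ * (ε * G.length) / (1 + γ) := by
    push_cast
    field_simp
  rw [e, div_le_iff₀ (by linarith)]
  have h3 : γ * (ε * G.length) ≤ γ * (B2 + M) := mul_le_mul_of_nonneg_left (h1.trans h2) hγ.le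
  nlinarith [mul_nonneg hγ.le hB1n]

omit [DecidableEq S] in
theorem PT_slotVar [Fintype S] : PT ∅ fun p : List (Con2 ℕ S) × ℕ => slotVar p.1 p.2 := by
  have h : PT ∅ fun p : List (Con2 ℕ S) × ℕ => p.1.getD (p.2 / 2) (triv2 S) :=
    PT.getD PT.fst' (PT.half PT.snd') (PT.const _)
  exact PT.ite (PT.odd PT.snd') h.snd.fst h.fst

omit [DecidableEq S] in
theorem PT_slotRel [Fintype S] : PT ∅ fun p : List (Con2 ℕ S) × ℕ => slotRel p.1 p.2 := by
  have h : PT ∅ fun p : List (Con2 ℕ S) × ℕ => p.1.getD (p.2 / 2) (triv2 S) :=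
    PT.getD PT.fst' (PT.half PT.snd') (PT.const _)
  exact PT.ite (PT.odd PT.snd') (PT.const _) h.snd.snd

theorem prep_isPT [Fintype S] (hex : ∀ i, PT ∅ fun p : ℕ × ℕ => ex p.1 i p.2) :
    RG.IsPT (prep ex : List (Con2 ℕ S) → RG (PrepD E) S) := by
  have hn : PT ∅ fun G : List (Con2 ℕ S) => 2 * G.length := PT.double (PT.length PT.id)
  have hb : PBd fun G : List (Con2 ℕ S) => 2 * G.length :=
    (PBd.const 2).mul (PBd.length (A := ∅) PT.id)
  refine ⟨hn, hb, fun i => ?_, fun i => ?_⟩
  · rcases i with i | i | i | i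
    · exact PT_clStep (hex i) hn hb PT_slotVar
    · exact PT.ite (PT.odd PT.snd') (PT.sub PT.snd' (PT.const 1)) (PT.add PT.snd' (PT.const 1))
    · exact (hex i).comp ((hn.comp PT.fst').pair PT.snd')
    · exact PT.snd'
  · rcases i with i | i | i | i
    · exact PT.const (fun a b : S => decide (a = b))
    · exact PT_slotRel
    · exact PT.const (fun _ _ : S => true)
    · exact PT.const (fun _ _ : S => true)

end Prep

end Vale.Agent.Lib.PCP
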