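import Vale.Agent.Lib.PCP.Basic

/-!
Clouds: the positions below `n` are coloured, and an expander is put on every colour class.
-/

namespace Vale.Agent.Lib.PCP

open Vale.Agent.Lib.PolyTime Finset
open scoped BigOperators

/-- The indicator of inequality. -/
def ne01 {S : Type} [DecidableEq S] (a b : S) : ℝ := if a = b then 0 else 1

theorem ne01_nonneg {S : Type} [DecidableEq S] (a b : S) : 0 ≤ ne01 a b := by
  unfold ne01
  split_ifs <;> norm_num

theorem sum_ind_sq {S : Type} [Fintype S] [DecidableEq S] (a b : S) :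
    ∑ s, ((if a = s then (1 : ℝ) else 0) - (if b = s then (1 : ℝ) else 0)) ^ 2 = 2 * ne01 a b := by
  unfold ne01
  by_cases h : a = b
  · simp [h]
  · have : ∀ s, ((if a = s then (1 : ℝ) else 0) - (if b = s then (1 : ℝ) else 0)) ^ 2 =
        (if a = s then (1 : ℝ) else 0) + (if b = s then (1 : ℝ) else 0) := by
      intro s
      by_cases h1 : a = s <;> by_cases h2 : b = s
      · exact absurd (h1.trans h2.symm) h
      · simp [h1, h2]
      · simp [h1, h2]
      · simp [h1, h2]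
    simp only [this, Finset.sum_add_distrib, Finset.sum_ite_eq, Finset.mem_univ, if_true, if_neg h]
    norm_num

/-- On an expander every labeling is close to a constant one. -/
theorem Poinc.exists_label {D S : Type} [Fintype D] [Fintype S] [DecidableEq S] [Nonempty S]
    {γ : ℝ} {k : ℕ} {nxt : D → ℕ → ℕ} (h : Poinc γ k nxt) (σ : ℕ → S) :
    ∃ s : S, γ * ∑ r ∈ range k, ne01 (σ r) s ≤ ∑ r ∈ range k, ∑ i, ne01 (σ r) (σ (nxt i r)) := by
  rcases Nat.eq_zero_or_pos k with rfl | hk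
  · exact ⟨Classical.arbitrary S, by simp⟩
  have h1 : γ * ∑ x ∈ range k, ∑ y ∈ range k, 2 * ne01 (σ x) (σ y) ≤
      k * ∑ x ∈ range k, ∑ i, 2 * ne01 (σ x) (σ (nxt i x)) := by
    have h2 := Finset.sum_le_sum fun s (_ : s ∈ (univ : Finset S)) =>
      h fun x => if σ x = s then (1 : ℝ) else 0
    rw [← Finset.mul_sum, ← Finset.mul_sum] at h2
    have e : ∀ {ι : Type} (t : Finset ι) (g : ℕ → ι → ℕ),
        ∑ s, ∑ x ∈ range k, ∑ y ∈ t, ((if σ x = s then (1 : ℝ) else 0) -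
          (if σ (g x y) = s then (1 : ℝ) else 0)) ^ 2 =
        ∑ x ∈ range k, ∑ y ∈ t, 2 * ne01 (σ x) (σ (g x y)) := by
      intro ι t g
      rw [Finset.sum_comm]
      refine Finset.sum_congr rfl fun x _ => ?_
      rw [Finset.sum_comm]
      exact Finset.sum_congr rfl fun y _ => sum_ind_sq _ _
    rwa [e (range k) fun _ y => y, e univ fun x i => nxt i x] at h2
  simp only [← Finset.mul_sum] at h1
  by_contra hc
  push Not at hc
  have h3 : ∑ _y ∈ range k, ∑ r ∈ range k, ∑ i, ne01 (σ r) (σ (nxt i r)) <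
      ∑ y ∈ range k, γ * ∑ r ∈ range k, ne01 (σ r) (σ y) :=
    Finset.sum_lt_sum_of_nonempty (Finset.nonempty_range_iff.2 hk.ne') fun y _ => hc (σ y)
  rw [← Finset.mul_sum, Finset.sum_comm (s := range k) (t := range k)
    (f := fun y r => ne01 (σ r) (σ y)), Finset.sum_const, Finset.card_range, nsmul_eq_mul] at h3
  linarith

section Cloud

variable {E : Type}

/-- The positions below `n` whose colour is `a`. -/
def cloud (n : ℕ) (w : ℕ → ℕ) (a : ℕ) : List ℕ := (List.range n).filter fun y => decide (w y = a)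

theorem mem_cloud {n : ℕ} {w : ℕ → ℕ} {a y : ℕ} : y ∈ cloud n w a ↔ y < n ∧ w y = a := by
  simp [cloud]

theorem nodup_cloud (n : ℕ) (w : ℕ → ℕ) (a : ℕ) : (cloud n w a).Nodup :=
  List.nodup_range.filter _

theorem getD_mem_cloud {n : ℕ} {w : ℕ → ℕ} {a r : ℕ} (hr : r < (cloud n w a).length) :
    (cloud n w a).getD r 0 ∈ cloud n w a := by
  rw [List.getD_eq_getElem _ _ hr]
  exact List.getElem_mem hr

theorem idxOf_getD_cloud {n : ℕ} {w : ℕ → ℕ} {a r : ℕ} (hr : r < (cloud n w a).length) :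
    (cloud n w a).idxOf ((cloud n w a).getD r 0) = r := by
  rw [List.getD_eq_getElem _ _ hr]
  exact (nodup_cloud n w a).idxOf_getElem r hr

theorem getD_idxOf_cloud {n : ℕ} {w : ℕ → ℕ} {a x : ℕ} (hx : x ∈ cloud n w a) :
    (cloud n w a).getD ((cloud n w a).idxOf x) 0 = x := by
  rw [List.getD_eq_getElem _ _ (List.idxOf_lt_length_iff.2 hx)]
  exact List.getElem_idxOf _

/-- A step of the expander inside the colour class. -/
def clStep (ex : ℕ → E → ℕ → ℕ) (n : ℕ) (w : ℕ → ℕ) (i : E) (x : ℕ) : ℕ :=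
  (cloud n w (w x)).getD (ex (cloud n w (w x)).length i ((cloud n w (w x)).idxOf x)) 0

theorem clStep_getD (ex : ℕ → E → ℕ → ℕ) {n : ℕ} {w : ℕ → ℕ} {a r : ℕ} (i : E)
    (hr : r < (cloud n w a).length) :
    clStep ex n w i ((cloud n w a).getD r 0) =
      (cloud n w a).getD (ex (cloud n w a).length i r) 0 := by
  unfold clStep
  rw [(mem_cloud.1 (getD_mem_cloud hr)).2, idxOf_getD_cloud hr]

theorem clStep_mem [Rev E] {ex : ℕ → E → ℕ → ℕ} (hex : ∀ k, Schreier k (ex k)) {n : ℕ}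
    (w : ℕ → ℕ) (i : E) {x : ℕ} (hx : x < n) : clStep ex n w i x ∈ cloud n w (w x) :=
  getD_mem_cloud ((hex _).lt i _ (List.idxOf_lt_length_iff.2 (mem_cloud.2 ⟨hx, rfl⟩)))

theorem schreier_clStep [Rev E] {ex : ℕ → E → ℕ → ℕ} (hex : ∀ k, Schreier k (ex k)) (n : ℕ)
    (w : ℕ → ℕ) : Schreier n (clStep ex n w) where
  lt i _ hx := (mem_cloud.1 (clStep_mem hex w i hx)).1
  inv i x hx := by
    have hm : x ∈ cloud n w (w x) := mem_cloud.2 ⟨hx, rfl⟩
    have hr := List.idxOf_lt_length_iff.2 hm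
    have h1 : clStep ex n w i x =
        (cloud n w (w x)).getD (ex (cloud n w (w x)).length i ((cloud n w (w x)).idxOf x)) 0 := rfl
    rw [h1, clStep_getD ex (rev i) ((hex _).lt i _ hr), (hex _).inv i _ hr, getD_idxOf_cloud hm]

theorem sum_cloud (n : ℕ) (w : ℕ → ℕ) (a : ℕ) (g : ℕ → ℝ) :
    ∑ r ∈ range (cloud n w a).length, g ((cloud n w a).getD r 0) =
      ∑ x ∈ (range n).filter (fun x => w x = a), g x := by
  rw [← sum_map_eq_sum_range, ← List.sum_toFinset _ (nodup_cloud n w a)]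
  congr 1
  ext x
  simp [mem_cloud]

/-- Every labeling of the positions is close to a labeling which depends on the colour only. -/
theorem exists_cloud_label [Fintype E] {S : Type} [Fintype S] [DecidableEq S] [Nonempty S]
    {ex : ℕ → E → ℕ → ℕ} {γ : ℝ} (hp : ∀ k, Poinc γ k (ex k)) (n : ℕ) (w : ℕ → ℕ) (σ : ℕ → S) :
    ∃ τ : ℕ → S, γ * ∑ x ∈ range n, ne01 (σ x) (τ (w x)) ≤
      ∑ x ∈ range n, ∑ i, ne01 (σ x) (σ (clStep ex n w i x)) := by
  choose τ hτ using fun a => (hp (cloud n w a).length).exists_label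
    fun r => σ ((cloud n w a).getD r 0)
  refine ⟨τ, ?_⟩
  have hm : ∀ x ∈ range n, w x ∈ (range n).image w := fun x hx => Finset.mem_image_of_mem w hx
  rw [← Finset.sum_fiberwise_of_maps_to hm, ← Finset.sum_fiberwise_of_maps_to hm
    (f := fun x => ∑ i, ne01 (σ x) (σ (clStep ex n w i x))), Finset.mul_sum]
  refine Finset.sum_le_sum fun a _ => ?_
  have h1 : ∑ x ∈ (range n).filter (fun x => w x = a), ne01 (σ x) (τ (w x)) =
      ∑ x ∈ (range n).filter (fun x => w x = a), ne01 (σ x) (τ a) :=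
    Finset.sum_congr rfl fun x hx => by rw [(Finset.mem_filter.1 hx).2]
  rw [h1, ← sum_cloud n w a fun x => ne01 (σ x) (τ a),
    ← sum_cloud n w a fun x => ∑ i, ne01 (σ x) (σ (clStep ex n w i x))]
  refine (hτ a).trans (le_of_eq ?_)
  refine Finset.sum_congr rfl fun r hr => Finset.sum_congr rfl fun i _ => ?_
  rw [clStep_getD ex i (Finset.mem_range.1 hr)]

theorem PT_cloud {α : Type} [Enc α] {n a : α → ℕ} {w : α → ℕ → ℕ} (hn : PT ∅ n) (hb : PBd n)
    (hw : PT ∅ fun p : α × ℕ => w p.1 p.2) (ha : PT ∅ a) :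
    PT ∅ fun x => cloud (n x) (w x) (a x) :=
  PT.filter (f := fun x y => decide (w x y = a x)) (PT.range hn hb)
    (PT.eqNat hw (ha.comp PT.fst'))

theorem PT_clStep {α : Type} [Enc α] {ex : ℕ → E → ℕ → ℕ} {i : E}
    (hex : PT ∅ fun p : ℕ × ℕ => ex p.1 i p.2) {n : α → ℕ} {w : α → ℕ → ℕ} (hn : PT ∅ n)
    (hb : PBd n) (hw : PT ∅ fun p : α × ℕ => w p.1 p.2) :
    PT ∅ fun p : α × ℕ => clStep ex (n p.1) (w p.1) i p.2 := by
  have hc : PT ∅ fun p : α × ℕ => cloud (n p.1) (w p.1) (w p.1 p.2) :=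
    PT_cloud (w := fun p : α × ℕ => w p.1) (hn.comp PT.fst') (hb.comp (A := ∅) PT.fst')
      (hw.comp (PT.fst'.fst.pair PT.snd')) hw
  exact PT.getD hc (hex.comp (hc.length.pair (PT.idxOf hc PT.snd'))) (PT.const 0)

end Cloud

end Vale.Agent.Lib.PCP
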