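import Vale.Agent.Lib.PCP.NPBridge
import Vale.Agent.Lib.PTM.Freq

/-!
A randomized polynomial time test with one-sided error for a hard promise problem puts NP into RP.
-/

namespace Vale.Agent.Lib.PCP

open Vale.Agent.Lib.PolyTime Vale.Agent.Lib.NP Vale.Agent.Lib.PTM

theorem frq_nonneg (m : ℕ) (P : List Bool → Prop) : 0 ≤ frq m P := by
  unfold frq
  positivity

theorem frq_not (m : ℕ) (P : List Bool → Prop) : frq m (fun ρ => ¬ P ρ) = 1 - frq m P := by
  induction m generalizing P with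
  | zero =>
    rw [frq_zero, frq_zero]
    unfold ind
    by_cases h : P [] <;> simp [h]
  | succ m ih =>
    rw [frq_succ, frq_succ, ih (fun ρ => P (false :: ρ)), ih (fun ρ => P (true :: ρ))]
    ring

/-- Independence of the first `m` coins and the other coins. -/
theorem frq_take_drop (m M : ℕ) (P Q : List Bool → Prop) :
    frq (M + m) (fun ρ => P (ρ.take m) ∧ Q (ρ.drop m)) = frq m P * frq M Q := by
  induction m generalizing P with
  | zero =>
    rw [frq_zero, add_zero]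
    simp only [List.take_zero, List.drop_zero]
    unfold ind
    by_cases h : P []
    · simp [h]
    · have := frq_const M False
      simp only [ind, if_false] at this
      simp [h, this]
  | succ m ih =>
    rw [← add_assoc, frq_succ, frq_succ]
    simp only [List.take_succ_cons, List.drop_succ_cons]
    rw [ih (fun ρ => P (false :: ρ)), ih (fun ρ => P (true :: ρ))]
    ring

/-- Independent repetitions on consecutive blocks of coins. -/
theorem frq_blocks (m t M : ℕ) (h : t * m ≤ M) (P : List Bool → Prop) :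
    frq M (fun ρ => ∀ i < t, P ((ρ.drop (i * m)).take m)) = frq m P ^ t := by
  induction t generalizing M with
  | zero =>
    have := frq_const M True
    simp only [ind, if_true] at this
    simpa using this
  | succ t ih =>
    obtain ⟨M', rfl⟩ : ∃ M', M = M' + m := ⟨M - m, by rw [add_mul] at h; omega⟩
    rw [pow_succ', ← ih M' (by rw [add_mul] at h; omega), ← frq_take_drop]
    refine frq_congr fun ρ _ => ?_
    rw [Nat.forall_lt_succ_left]
    simp only [zero_mul, List.drop_zero, List.drop_drop, add_mul, one_mul, add_comm m]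

/-- The inequality of Markov for coin strings. -/
theorem frq_markov {m : ℕ} (X : (Fin m → Bool) → ℝ) (h0 : ∀ ρ, 0 ≤ X ρ) (P : List Bool → Prop)
    {a : ℝ} (h : ∀ ρ, P (List.ofFn ρ) → a ≤ X ρ) : a * frq m P ≤ (∑ ρ, X ρ) / 2 ^ m := by
  classical
  unfold frq
  rw [← mul_div_assoc]
  refine div_le_div_of_nonneg_right ?_ (by positivity)
  rw [Finset.card_filter, Nat.cast_sum, Finset.mul_sum]
  refine Finset.sum_le_sum fun ρ _ => ?_
  split_ifs with e
  · simpa using h ρ e
  · simpa using h0 ρ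

/-- A one-sided randomized test for a hard problem gives such a test, with success probability
`2 / 3`, for every language in NP. -/
theorem Hard.rp {β : Type} [Enc β] {Q : Promise β} (h : Hard Q) {B : β × Raw → Bool}
    (hB : PT ∅ B) {q : β → ℕ} (hq : PT ∅ q) (hqb : PBd q) {γ : ℝ} (hγ : 0 < γ)
    (h1 : ∀ x, Q.yes x → γ ≤ frq (q x) fun ρ => B (x, ⟨ρ⟩) = true)
    (h2 : ∀ x, Q.no x → ∀ ρ : List Bool, ρ.length = q x → B (x, ⟨ρ⟩) = false)
    {L : Set (List Bool)} (hL : InNP L) :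
    ∃ (A : Word → Word) (p : Polynomial ℕ), FP ∅ A ∧ ∀ x,
      (x ∈ L → 2 / 3 ≤ frq (p.eval x.length) fun ρ => A (pr x ρ) = [true]) ∧
      (x ∉ L → ∀ ρ : List Bool, ρ.length = p.eval x.length → A (pr x ρ) ≠ [true]) := by
  obtain ⟨f, hf, f1, f2⟩ := (red_sat3_of_inNP hL).trans h
  obtain ⟨c, hc⟩ := hqb.comp hf
  obtain ⟨P, hP⟩ := (PB.pb c).exists_polynomial
  obtain ⟨t, ht⟩ := exists_pow_lt_of_lt_one (show (0 : ℝ) < 1 / 3 by norm_num)
    (show 1 - γ < 1 by linarith)
  have hA : PT ∅ fun z : Raw × Raw => (List.range t).any fun i =>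
      B (f z.1, ⟨(z.2.w.drop (i * q (f z.1))).take (q (f z.1))⟩) := by
    have h3 : PT ∅ fun z : (Raw × Raw) × ℕ => f z.1.1 := hf.comp PT.fst'.fst
    have h4 : PT ∅ fun z : (Raw × Raw) × ℕ => q (f z.1.1) := hq.comp h3
    exact PT.any (f := fun (z : Raw × Raw) i =>
      B (f z.1, ⟨(z.2.w.drop (i * q (f z.1))).take (q (f z.1))⟩)) (PT.const _)
      (hB.comp (h3.pair (PT.rawTake (PT.rawDrop PT.fst'.snd (PT.snd'.mul h4)) h4)))
  obtain ⟨A, hA, hA'⟩ := hA
  have hA2 : ∀ x ρ : List Bool, A (pr x ρ) = [true] ↔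
      ∃ i < t, B (f ⟨x⟩, ⟨(ρ.drop (i * q (f ⟨x⟩))).take (q (f ⟨x⟩))⟩) = true := by
    intro x ρ
    have e : A (pr x ρ) = _ := hA' (⟨x⟩, ⟨ρ⟩)
    rw [e, enc_bool]
    simp
  have hle : ∀ x : List Bool, t * q (f ⟨x⟩) ≤ (Polynomial.C t * P).eval x.length := by
    intro x
    rw [Polynomial.eval_mul, Polynomial.eval_C]
    exact Nat.mul_le_mul_left _ ((hc ⟨x⟩).trans (hP _))
  refine ⟨A, Polynomial.C t * P, hA, fun x => ⟨fun hx => ?_, fun hx ρ hρ hacc => ?_⟩⟩
  · have h3 := frq_blocks _ t _ (hle x) (fun ρ => ¬ B (f ⟨x⟩, ⟨ρ⟩) = true)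
    have h4 := frq_not ((Polynomial.C t * P).eval x.length) fun ρ => A (pr x ρ) = [true]
    have h5 : frq ((Polynomial.C t * P).eval x.length) (fun ρ => ¬ A (pr x ρ) = [true]) =
        frq ((Polynomial.C t * P).eval x.length) (fun ρ => ∀ i < t,
          ¬ B (f ⟨x⟩, ⟨(ρ.drop (i * q (f ⟨x⟩))).take (q (f ⟨x⟩))⟩) = true) :=
      frq_congr fun ρ _ => by rw [hA2]; simp
    have h6 := h1 _ (f1 ⟨x⟩ hx)
    have h7 : frq (q (f ⟨x⟩)) (fun ρ => ¬ B (f ⟨x⟩, ⟨ρ⟩) = true) ^ t ≤ (1 - γ) ^ t :=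
      pow_le_pow_left₀ (frq_nonneg _ _) (by rw [frq_not]; linarith) t
    linarith
  · obtain ⟨i, hi, h3⟩ := (hA2 x ρ).1 hacc
    rw [h2 _ (f2 ⟨x⟩ hx)] at h3
    · exact Bool.noConfusion h3
    · have h4 := hle x
      have h5 : (i + 1) * q (f ⟨x⟩) ≤ t * q (f ⟨x⟩) := Nat.mul_le_mul_right _ hi
      rw [List.length_take, List.length_drop, hρ]
      rw [add_mul] at h5
      omega

end Vale.Agent.Lib.PCP
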