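import Vale.Agent.Lib.PCP.Prep

/-!
Normalisation of variable names, the initial list of binary constraints of a 3-CNF formula, and
logarithmically many rounds of gap amplification.
-/

namespace Vale.Agent.Lib.PCP

open Vale.Agent.Lib.PolyTime Finset
open scoped BigOperators

/-! ### Normalisation -/

section Norm

variable {S : Type}

/-- All occurrences of variables. -/
def vars2 (G : List (Con2 ℕ S)) : List ℕ := G.flatMap fun c => [c.1, c.2.1]

theorem length_vars2 (G : List (Con2 ℕ S)) : (vars2 G).length = 2 * G.length :=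
  length_flatMap_const _ _ 2 fun _ _ => rfl

theorem fst_mem_vars2 {G : List (Con2 ℕ S)} {c : Con2 ℕ S} (h : c ∈ G) : c.1 ∈ vars2 G :=
  List.mem_flatMap.2 ⟨c, h, by simp⟩

theorem snd_mem_vars2 {G : List (Con2 ℕ S)} {c : Con2 ℕ S} (h : c ∈ G) : c.2.1 ∈ vars2 G :=
  List.mem_flatMap.2 ⟨c, h, by simp⟩

/-- Every variable is renamed to the position of its first occurrence. -/
def normalise (G : List (Con2 ℕ S)) : List (Con2 ℕ S) :=
  G.map (ren2 fun v => (vars2 G).idxOf v)

theorem length_normalise (G : List (Con2 ℕ S)) : (normalise G).length = G.length :=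
  List.length_map _

theorem normalise_lt {G : List (Con2 ℕ S)} {c : Con2 ℕ S} (h : c ∈ normalise G) :
    c.1 < 2 * G.length ∧ c.2.1 < 2 * G.length := by
  obtain ⟨d, hd, rfl⟩ := List.mem_map.1 h
  rw [← length_vars2]
  exact ⟨List.idxOf_lt_length_iff.2 (fst_mem_vars2 hd),
    List.idxOf_lt_length_iff.2 (snd_mem_vars2 hd)⟩

theorem idxOf_injOn {α : Type} [DecidableEq α] (l : List α) :
    Set.InjOn (fun v => l.idxOf v) {v | v ∈ l} := fun _ hx _ _ h => (List.idxOf_inj hx).1 h

theorem Sat.normalise [Nonempty S] {G : List (Con2 ℕ S)} (h : Sat sat2 G) :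
    Sat sat2 (normalise G) := by
  refine Sat.map (fun σ => ?_) h
  obtain ⟨σ', h'⟩ := exists_transport _ _ (idxOf_injOn (vars2 G)) σ
  refine ⟨σ', fun c hc => ?_⟩
  rw [sat2_ren2]
  unfold sat2
  dsimp only
  rw [h' _ (fst_mem_vars2 hc), h' _ (snd_mem_vars2 hc)]

theorem Far.normalise {G : List (Con2 ℕ S)} {ε : ℝ} (h : Far sat2 ε G) :
    Far sat2 ε (normalise G) := h.ren2 _

theorem AllSat2.normalise {G : List (Con2 ℕ S)} (h : AllSat2 G) : AllSat2 (normalise G) :=
  h.ren2 _

theorem PT_vars2 [Fintype S] : PT ∅ (vars2 : List (Con2 ℕ S) → List ℕ) :=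
  PT.flatMap (f := fun _ (c : Con2 ℕ S) => [c.1, c.2.1]) PT.id
    (PT.cons PT.snd'.fst (PT.cons PT.snd'.snd.fst PT.nil))

theorem PT_normalise [Fintype S] : PT ∅ (normalise : List (Con2 ℕ S) → List (Con2 ℕ S)) :=
  PT.map (f := fun G (c : Con2 ℕ S) => ren2 (fun v => (vars2 G).idxOf v) c) PT.id
    ((PT.idxOf (PT_vars2.comp PT.fst') PT.snd'.fst).pair
      ((PT.idxOf (PT_vars2.comp PT.fst') PT.snd'.snd.fst).pair PT.snd'.snd.snd))

theorem exists_esize_bound (T : Type) [Finite T] [Enc T] : ∃ C, ∀ t : T, esize t ≤ C := by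
  obtain ⟨C, hC⟩ := (Set.finite_range fun t : T => esize t).bddAbove
  exact ⟨C, fun t => hC ⟨t, rfl⟩⟩

theorem esize_normalise_le (S : Type) [Fintype S] : ∃ C, ∀ G : List (Con2 ℕ S),
    esize (normalise G) ≤ G.length * (16 * G.length + C) := by
  obtain ⟨C, hC⟩ := exists_esize_bound (S → S → Bool)
  refine ⟨2 * C + 5, fun G => ?_⟩
  have h : ∀ c ∈ normalise G, esize c ≤ 8 * G.length + C + 2 := by
    rintro ⟨u, v, r⟩ hc
    have h1 := normalise_lt hc
    have h2 := esize_nat_le_self u
    have h3 := esize_nat_le_self v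
    have h4 := hC r
    rw [esize_pair, esize_pair]
    dsimp only at h1
    omega
  refine (esize_list_le h).trans (le_of_eq ?_)
  rw [length_normalise]
  ring

end Norm

/-! ### The initial list -/

section Init

/-- The relation between the label of a clause with signs `b` and the label of its variable
number `p`. -/
def clauseRel (b : Bool × Bool × Bool) (p : Fin 10) (a a' : S0) : Bool :=
  (a 0 == b.1 || a 1 == b.2.1 || a 2 == b.2.2) && a' 0 == a p

/-- The three constraints of a clause. -/
def clauseBlock (c : Clause) : List (Con2 (ℕ ⊕ Clause) S0) :=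
  [(Sum.inr c, Sum.inl c.1.1, clauseRel (c.1.2, c.2.1.2, c.2.2.2) 0),
   (Sum.inr c, Sum.inl c.2.1.1, clauseRel (c.1.2, c.2.1.2, c.2.2.2) 1),
   (Sum.inr c, Sum.inl c.2.2.1, clauseRel (c.1.2, c.2.1.2, c.2.2.2) 2)]

/-- The list of binary constraints of a formula. -/
def initCon2 (φ : CNF) : List (Con2 ℕ S0) :=
  ((Sum.inl 0, Sum.inl 0, fun _ _ => true) :: φ.flatMap clauseBlock).map (ren2 name)

theorem initCon_ne_nil (φ : CNF) : initCon2 φ ≠ [] := by simp [initCon2]

theorem sat_initCon {φ : CNF} (h : Satisfiable φ) : Sat sat2 (initCon2 φ) := by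
  obtain ⟨σ, hσ⟩ := h
  refine Sat.ren2 name_injective ⟨Sum.elim (fun x _ => σ x) fun c k =>
    if k = 0 then σ c.1.1 else if k = 1 then σ c.2.1.1 else σ c.2.2.1, fun d hd => ?_⟩
  rcases List.mem_cons.1 hd with rfl | hd
  · rfl
  · obtain ⟨c, hc, hd⟩ := List.mem_flatMap.1 hd
    have h1 := hσ c hc
    simp only [satClause, satLit] at h1
    simp only [clauseBlock, List.mem_cons, List.not_mem_nil, or_false] at hd
    have e1 : (1 : Fin 10) ≠ 0 := by decide
    have e2 : (2 : Fin 10) ≠ 0 := by decide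
    have e3 : (2 : Fin 10) ≠ 1 := by decide
    rcases hd with rfl | rfl | rfl <;>
      simp only [sat2, clauseRel, Sum.elim_inl, Sum.elim_inr, if_true, if_neg e1, if_neg e2,
        if_neg e3, h1, beq_self_eq_true, Bool.and_self]

theorem satisfiable_of_sat_initCon {φ : CNF} (h : Sat sat2 (initCon2 φ)) : Satisfiable φ := by
  obtain ⟨τ, hτ⟩ := h
  refine ⟨fun x => τ (name (Sum.inl x : ℕ ⊕ Clause)) 0, fun c hc => ?_⟩
  have key : ∀ d ∈ clauseBlock c, sat2 (ren2 name d) τ = true := fun d hd =>
    hτ _ (List.mem_map.2 ⟨d, List.mem_cons_of_mem _ (List.mem_flatMap.2 ⟨c, hc, hd⟩), rfl⟩)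
  simp only [clauseBlock, List.mem_cons, List.not_mem_nil, or_false, forall_eq_or_imp,
    forall_eq] at key
  obtain ⟨h1, h2, h3⟩ := key
  simp only [sat2, ren2, clauseRel, Bool.and_eq_true, beq_iff_eq] at h1 h2 h3
  simp only [satClause, satLit, h1.2, h2.2, h3.2]
  exact h1.1

theorem PT_clauseBlock : PT ∅ clauseBlock := by
  have hb : PT ∅ fun c : Clause => (c.1.2, c.2.1.2, c.2.2.2) :=
    PT.fst'.snd.pair (PT.snd'.fst.snd.pair PT.snd'.snd.snd)
  exact PT.cons ((PT.inr PT.id).pair ((PT.inl PT.fst'.fst).pair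
      (PT.finComp (fun b => clauseRel b 0) hb)))
    (PT.cons ((PT.inr PT.id).pair ((PT.inl PT.snd'.fst.fst).pair
      (PT.finComp (fun b => clauseRel b 1) hb)))
    (PT.cons ((PT.inr PT.id).pair ((PT.inl PT.snd'.snd.fst).pair
      (PT.finComp (fun b => clauseRel b 2) hb))) PT.nil))

theorem PT_initCon : PT ∅ initCon2 :=
  PT_ren2_name.comp (PT.cons (PT.const _)
    (PT.flatMap (f := fun _ c => clauseBlock c) PT.id (PT_clauseBlock.comp PT.snd')))

end Init

/-! ### Logarithmically many rounds -/

theorem two_pow_size_le (n : ℕ) : 2 ^ Nat.size n ≤ 2 * n + 1 := by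
  rcases Nat.eq_zero_or_pos n with rfl | hn
  · simp
  · have h1 : 0 < Nat.size n := Nat.size_pos.2 hn
    have h2 : 2 ^ (Nat.size n - 1) ≤ n := Nat.lt_size.1 (by omega)
    calc 2 ^ Nat.size n = 2 * 2 ^ (Nat.size n - 1) := by
          rw [← pow_succ']
          congr 1
          omega
      _ ≤ 2 * n + 1 := by omega

theorem pow_size_le (K n : ℕ) : K ^ Nat.size n ≤ (2 * n + 1) ^ K :=
  calc K ^ Nat.size n ≤ (2 ^ K) ^ Nat.size n :=
        Nat.pow_le_pow_left (Nat.le_of_lt Nat.lt_two_pow_self) _
    _ = (2 ^ Nat.size n) ^ K := by rw [← pow_mul, ← pow_mul, mul_comm]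
    _ ≤ (2 * n + 1) ^ K := Nat.pow_le_pow_left (two_pow_size_le n) K

/-- A round which doubles the gap and has linear blow-up gives a constant gap. -/
theorem iterate_rounds {S : Type} [Fintype S] [Nonempty S]
    {step : List (Con2 ℕ S) → List (Con2 ℕ S)} (hPT : PT ∅ step) {K : ℕ} (hK : 0 < K) {α : ℝ}
    (hα : 0 ≤ α) (hlen : ∀ G, G ≠ [] → (step G).length = K * G.length)
    (hall : ∀ G, G ≠ [] → AllSat2 (step G))
    (hsat : ∀ G, G ≠ [] → Sat sat2 G → Sat sat2 (step G))
    (hfar : ∀ G, G ≠ [] → ∀ ε, 0 ≤ ε → Far sat2 ε G → Far sat2 (min (2 * ε) α) (step G)) :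
    ∃ f : List (Con2 ℕ S) → List (Con2 ℕ S), PT ∅ f ∧ ∀ G, G ≠ [] →
      f G ≠ [] ∧ AllSat2 (f G) ∧ (∀ c ∈ f G, c.1 < 2 * (f G).length ∧ c.2.1 < 2 * (f G).length) ∧
        (Sat sat2 G → Sat sat2 (f G)) ∧ (¬ Sat sat2 G → Far sat2 (min 1 α) (f G)) := by
  let st : List (Con2 ℕ S) → List (Con2 ℕ S) := fun G => normalise (step G)
  have hl : ∀ G, G ≠ [] → ∀ j, (st^[j] G).length = K ^ j * G.length := by
    intro G hG j
    induction j with
    | zero => simp
    | succ j ih =>
      have : st^[j] G ≠ [] := by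
        rw [← List.length_pos_iff, ih]
        exact Nat.mul_pos (pow_pos hK j) (List.length_pos_iff.2 hG)
      rw [Function.iterate_succ_apply', length_normalise, hlen _ this, ih]
      ring
  have hne : ∀ G, G ≠ [] → ∀ j, st^[j] G ≠ [] := by
    intro G hG j
    rw [← List.length_pos_iff, hl G hG]
    exact Nat.mul_pos (pow_pos hK j) (List.length_pos_iff.2 hG)
  refine ⟨fun G => st^[Nat.size G.length] G, ?_, fun G hG => ?_⟩
  · obtain ⟨C, hC⟩ := esize_normalise_le S
    have hL : PBd fun G : List (Con2 ℕ S) => G.length := PBd.length (A := ∅) PT.id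
    have hN : PBd fun G : List (Con2 ℕ S) => (2 * G.length + 1) ^ K * G.length :=
      ((((PBd.const 2).mul hL).add (PBd.const 1)).pow K).mul hL
    refine PT.iterate (PT.natSize (PT.length PT.id))
      (hL.mono fun G => (esize_nat _).symm.le.trans (esize_nat_le_self _)) PT.id
      (PT_normalise.comp hPT)
      (PBd.esize.add (hN.mul (((PBd.const 16).mul hN).add (PBd.const C)))) fun G j hj => ?_
    rcases j with _ | j
    · simp
    · have hG : G ≠ [] := by
        rintro rfl
        simp at hj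
      have h1 : (step (st^[j] G)).length ≤ (2 * G.length + 1) ^ K * G.length := by
        have h2 := hl G hG (j + 1)
        rw [Function.iterate_succ_apply', length_normalise] at h2
        rw [h2]
        exact Nat.mul_le_mul_right _ ((Nat.pow_le_pow_right hK hj).trans (pow_size_le K _))
      rw [Function.iterate_succ_apply']
      refine (hC _).trans (le_add_left (Nat.mul_le_mul h1 ?_))
      omega
  · have hpos : 0 < G.length := List.length_pos_iff.2 hG
    obtain ⟨k, hk⟩ : ∃ k, Nat.size G.length = k + 1 :=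
      ⟨Nat.size G.length - 1, by have := Nat.size_pos.2 hpos; omega⟩
    refine ⟨hne G hG _, ?_, ?_, fun h => ?_, fun h => ?_⟩
    · dsimp only
      rw [hk, Function.iterate_succ_apply']
      exact (hall _ (hne G hG k)).normalise
    · dsimp only
      rw [hk, Function.iterate_succ_apply', length_normalise]
      exact fun c hc => normalise_lt hc
    · have : ∀ j, Sat sat2 (st^[j] G) := by
        intro j
        induction j with
        | zero => exact h
        | succ j ih =>
          rw [Function.iterate_succ_apply']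
          exact (hsat _ (hne G hG j) ih).normalise
      exact this _
    · have hpos' : (0 : ℝ) < G.length := by exact_mod_cast hpos
      have : ∀ j, Far sat2 (min (2 ^ j / G.length) α) (st^[j] G) := by
        intro j
        induction j with
        | zero => exact (far_of_not_sat h).mono (by simp)
        | succ j ih =>
          rw [Function.iterate_succ_apply']
          refine (hfar _ (hne G hG j) _ (le_min (by positivity) hα) ih).normalise.mono ?_
          refine le_min ?_ (min_le_right _ _)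
          rw [mul_min_of_nonneg _ _ (by norm_num : (0 : ℝ) ≤ 2)]
          refine min_le_min (le_of_eq (by ring)) (by linarith)
      refine (this _).mono (min_le_min ?_ le_rfl)
      rw [le_div_iff₀ hpos', one_mul]
      exact_mod_cast (Nat.lt_size_self G.length).le

end Vale.Agent.Lib.PCP
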